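import Crest.Agent.R187.Defs

/-! The Fischer form on a polynomial ring, and exponentials of locally nilpotent derivations. -/

set_option autoImplicit false

open Module MvPolynomial

namespace Crest.Agent.R187

variable {σ : Type*}

/-- `m! = ∏_v (m v)!` -/
noncomputable def blockFac (m : σ →₀ ℕ) : ℕ := m.prod fun _ k => k.factorial

theorem blockFac_pos (m : σ →₀ ℕ) : 0 < blockFac m :=
  Finset.prod_pos fun _ _ => Nat.factorial_pos _

theorem blockFac_add (m : σ →₀ ℕ) (v : σ) :
    blockFac (m + Finsupp.single v 1) = blockFac m * (m v + 1) := by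
  classical
  have h : ∀ k : σ →₀ ℕ, blockFac k = (k v).factorial * blockFac (k.erase v) := fun k =>
    (Finsupp.mul_prod_erase' k v (fun _ k => k.factorial) fun _ => rfl).symm
  rw [h, h m, Finsupp.erase_add, Finsupp.erase_single, add_zero, Finsupp.add_apply,
    Finsupp.single_eq_same, Nat.factorial_succ]
  ring

/-- the bilinear Fischer form -/
noncomputable def blockFis : MvPolynomial σ ℂ →ₗ[ℂ] MvPolynomial σ ℂ →ₗ[ℂ] ℂ :=
  (basisMonomials σ ℂ).constr ℂ fun m => (blockFac m : ℂ) • lcoeff ℂ m

theorem blockFis_monomial (m : σ →₀ ℕ) (c : ℂ) (g : MvPolynomial σ ℂ) :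
    blockFis (monomial m c) g = c * (blockFac m * coeff m g) := by
  have h : (monomial m c : MvPolynomial σ ℂ) = c • basisMonomials σ ℂ m := by
    rw [coe_basisMonomials, smul_monomial, smul_eq_mul, mul_one]
  rw [h, map_smul, blockFis, Basis.constr_basis]
  simp

theorem blockFis_comm (f g : MvPolynomial σ ℂ) : blockFis f g = blockFis g f := by
  classical
  induction f using MvPolynomial.induction_on' with
  | add p q hp hq => simp [hp, hq]
  | monomial m c =>
    induction g using MvPolynomial.induction_on' with
    | add p q hp hq => simp only [map_add, LinearMap.add_apply, hp, hq]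
    | monomial k d =>
      rw [blockFis_monomial, blockFis_monomial, coeff_monomial, coeff_monomial]
      by_cases h : k = m
      · subst h; simp only [if_true]; ring
      · simp [h, Ne.symm h]

theorem blockFis_X_mul (v : σ) (f g : MvPolynomial σ ℂ) :
    blockFis (X v * f) g = blockFis f (pderiv v g) := by
  induction f using MvPolynomial.induction_on' with
  | add p q hp hq => simp [mul_add, hp, hq]
  | monomial m c =>
    rw [X, monomial_mul, blockFis_monomial, blockFis_monomial, coeff_pderiv, add_comm _ m,
      blockFac_add]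
    push_cast
    ring

theorem blockFis_conj (f g : MvPolynomial σ ℂ) :
    starRingEnd ℂ (blockFis f g) = blockFis (map (starRingEnd ℂ) f) (map (starRingEnd ℂ) g) := by
  induction f using MvPolynomial.induction_on' with
  | add p q hp hq => simp [hp, hq]
  | monomial m c => simp [map_monomial, blockFis_monomial, coeff_map]

theorem block_conj_conj (f : MvPolynomial σ ℂ) :
    map (starRingEnd ℂ) (map (starRingEnd ℂ) f) = f := by
  ext m; simp [coeff_map]

theorem blockFis_self (f : MvPolynomial σ ℂ) : blockFis (map (starRingEnd ℂ) f) f =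
    ((∑ m ∈ f.support, blockFac m * Complex.normSq (coeff m f) : ℝ) : ℂ) := by
  conv_lhs => rw [blockFis_comm, f.as_sum, map_sum, LinearMap.sum_apply, ← f.as_sum]
  push_cast
  refine Finset.sum_congr rfl fun m _ => ?_
  rw [blockFis_monomial, coeff_map, ← Complex.mul_conj]
  ring

/-- the Fischer inner product on a subspace of the polynomial ring -/
@[reducible] noncomputable def blockCore (p : Submodule ℂ (MvPolynomial σ ℂ)) :
    InnerProductSpace.Core ℂ p where
  inner x y := blockFis (map (starRingEnd ℂ) x.1) y.1
  conj_inner_symm x y := by rw [blockFis_conj, block_conj_conj, blockFis_comm]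
  re_inner_nonneg x := by
    rw [blockFis_self]
    exact Finset.sum_nonneg fun m _ => mul_nonneg (Nat.cast_nonneg _) (Complex.normSq_nonneg _)
  add_left x y z := by simp
  smul_left x y r := by
    rw [Submodule.coe_smul, smul_eq_C_mul, map_mul, map_C, ← smul_eq_C_mul, map_smul]
    rfl
  definite x h := by
    rw [blockFis_self, Complex.ofReal_eq_zero, Finset.sum_eq_zero_iff_of_nonneg
      fun m _ => mul_nonneg (Nat.cast_nonneg _) (Complex.normSq_nonneg _)] at h
    refine Subtype.ext (support_eq_empty.1 (Finset.eq_empty_of_forall_notMem fun m hm => ?_))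
    have := h m hm
    rw [mul_eq_zero, Complex.normSq_eq_zero, Nat.cast_eq_zero] at this
    exact this.elim (blockFac_pos m).ne' (mem_support_iff.1 hm)

theorem block_pow_mul {D : Module.End ℂ (MvPolynomial σ ℂ)}
    (hD : ∀ f g, D (f * g) = D f * g + f * D g) {x : MvPolynomial σ ℂ} (hx : D (D x) = 0)
    (f : MvPolynomial σ ℂ) (k : ℕ) :
    (D ^ (k + 1)) (f * x) = (D ^ (k + 1)) f * x + ((k : ℂ) + 1) • ((D ^ k) f * D x) := by
  induction k with
  | zero => simp [hD]
  | succ k ih =>
    rw [pow_succ' D (k + 1), Module.End.mul_apply, ih, map_add, map_smul, hD, hD, hx,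
      Module.End.mul_apply, ← Module.End.mul_apply D (D ^ k), ← pow_succ']
    simp only [smul_eq_C_mul, map_add, map_one, Nat.cast_succ]
    ring

/-- the exponential of a derivation whose square kills the variables -/
theorem block_exp {D : Module.End ℂ (MvPolynomial σ ℂ)}
    (hD : ∀ f g, D (f * g) = D f * g + f * D g) (hx : ∀ v, D (D (X v)) = 0) (t : ℂ)
    (L : MvPolynomial σ ℂ →ₐ[ℂ] MvPolynomial σ ℂ) (hL : ∀ v, L (X v) = X v + t • D (X v))
    (f : MvPolynomial σ ℂ) :
    ∃ N, ∀ M, N ≤ M → L f = ∑ k ∈ Finset.range M, (t ^ k / k.factorial) • (D ^ k) f := by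
  induction f using MvPolynomial.induction_on with
  | C a =>
    have h1 : D 1 = 0 := by
      have := hD 1 1
      rw [mul_one, mul_one, one_mul] at this
      exact left_eq_add.1 this
    have h2 : D (C a) = 0 := by rw [← mul_one (C a), ← smul_eq_C_mul, map_smul, h1, smul_zero]
    refine ⟨1, fun M hM => ?_⟩
    obtain ⟨M, rfl⟩ := Nat.exists_eq_add_of_le' hM
    simp [Finset.sum_range_succ', pow_succ, h2]
  | add p q hp hq =>
    obtain ⟨N, hN⟩ := hp
    obtain ⟨N', hN'⟩ := hq
    refine ⟨max N N', fun M hM => ?_⟩
    rw [map_add, hN M (le_of_max_le_left hM), hN' M (le_of_max_le_right hM),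
      ← Finset.sum_add_distrib]
    simp only [map_add, smul_add]
  | mul_X p v hp =>
    obtain ⟨N, hN⟩ := hp
    refine ⟨N + 1, fun M hM => ?_⟩
    obtain ⟨M, rfl⟩ := Nat.exists_eq_add_of_le' (show 1 ≤ M by omega)
    rw [map_mul, hL, mul_add]
    nth_rewrite 1 [hN (M + 1) (by omega)]
    rw [hN M (by omega), Finset.sum_range_succ', Finset.sum_range_succ' _ M, add_mul,
      Finset.sum_mul, Finset.sum_mul, add_right_comm, ← Finset.sum_add_distrib]
    congr 1
    · refine Finset.sum_congr rfl fun k _ => ?_
      rw [block_pow_mul hD (hx v), smul_add, smul_mul_assoc, smul_mul_assoc, mul_smul_comm,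
        smul_smul, smul_smul]
      congr 2
      have h1 : (k.factorial : ℂ) ≠ 0 := Nat.cast_ne_zero.2 k.factorial_ne_zero
      have h2 : (k : ℂ) + 1 ≠ 0 := k.cast_add_one_ne_zero
      rw [Nat.factorial_succ]
      push_cast
      field_simp
      ring
    · simp

end Crest.Agent.R187
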