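import Crest.Agent.R187.Weyl
import Crest.Agent.R187.BlockAux

/-! The block model `blockSym a n d` as a unitary `gl_n`-module.

Inner product: the Fischer product `⟪f, g⟫ = ∑_m m! conj(f_m) g_m` (`m! = ∏_v (m v)!`), for which
multiplication by `X v` is adjoint to `pderiv v`; build an `InnerProductSpace.Core` on the subtype
`blockSym a n d` (use `letI` inside the proofs, or a type synonym), restrict `Eop` with
`LinearMap.restrict`, and take for `S` the casts of the exponent vectors with `∑ μ i = a * d`
(weight components of a block symmetric polynomial: `weightedHomogeneousComponent` for the weight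
`v ↦ Pi.single v.2 1`, on which `Eop i i` acts by the Euler identity). -/

set_option autoImplicit false

open Module MvPolynomial Crest.AlgebraR.FoulkesHowe

namespace Crest.Agent.R187

theorem block_mul (a n : ℕ) (i j : Fin n) (f g : MvPolynomial (Var a n) ℂ) :
    Eop a n i j (f * g) = Eop a n i j f * g + f * Eop a n i j g := by
  simp only [Eop_apply, pderiv_mul, Finset.sum_mul, Finset.mul_sum, ← Finset.sum_add_distrib]
  exact Finset.sum_congr rfl fun r _ => by ring

theorem block_C (a n : ℕ) (i j : Fin n) (c : ℂ) : Eop a n i j (C c) = 0 := by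
  simp [Eop_apply]

theorem block_X (a n : ℕ) (i j : Fin n) (v : Var a n) :
    Eop a n i j (X v) = if v.2 = j then X (v.1, i) else 0 := by
  obtain ⟨r, k⟩ := v
  rw [Eop_apply, Finset.sum_eq_single r]
  · split_ifs with h
    · simp only at h; subst h; simp
    · rw [pderiv_X_of_ne (by simpa using h), mul_zero]
  · intro s _ hs
    rw [pderiv_X_of_ne (by simp [hs.symm]), mul_zero]
  · simp

theorem Eop_comm (a n : ℕ) (i j k l : Fin n) :
    Eop a n i j * Eop a n k l - Eop a n k l * Eop a n i j =
      (if j = k then Eop a n i l else 0) - (if l = i then Eop a n k j else 0) := by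
  refine LinearMap.ext fun f => ?_
  simp only [LinearMap.sub_apply, Module.End.mul_apply, DFunLike.ite_apply, LinearMap.zero_apply]
  induction f using MvPolynomial.induction_on with
  | C c => simp [block_C]
  | add p q hp hq =>
    simp only [map_add]
    split_ifs at hp hq ⊢ <;> linear_combination hp + hq
  | mul_X p v hp =>
    have h : Eop a n i j (Eop a n k l (X v)) - Eop a n k l (Eop a n i j (X v)) =
        (if j = k then Eop a n i l (X v) else 0) - if l = i then Eop a n k j (X v) else 0 := by
      simp only [block_X, apply_ite (Eop a n _ _), map_zero]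
      by_cases h1 : j = k <;> by_cases h2 : i = l <;> simp [h1, h2, eq_comm]
    simp only [map_add, block_mul]
    split_ifs at hp h ⊢ <;> linear_combination hp * X v + p * h

theorem Eop_mul (a n : ℕ) (i j : Fin n) (f g : MvPolynomial (Var a n) ℂ) :
    Eop a n i j (f * g) = Eop a n i j f * g + f * Eop a n i j g :=
  block_mul a n i j f g

theorem Eop_rename_blockPerm (a n : ℕ) (i j : Fin n) (σ : Equiv.Perm (Fin a))
    (f : MvPolynomial (Var a n) ℂ) :
    Eop a n i j (rename (blockPerm σ) f) = rename (blockPerm σ) (Eop a n i j f) := by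
  induction f using MvPolynomial.induction_on with
  | C c => simp [block_C]
  | add p q hp hq => simp only [map_add, hp, hq]
  | mul_X p v hp =>
    simp only [map_mul, map_add, rename_X, block_mul, hp, block_X, blockPerm]
    split_ifs <;> simp [blockPerm]

theorem Eop_mem_blockSym {a n d : ℕ} (i j : Fin n) {f : MvPolynomial (Var a n) ℂ}
    (hf : f ∈ blockSym a n d) : Eop a n i j f ∈ blockSym a n d := by
  rw [mem_blockSym] at hf ⊢
  refine ⟨fun s => ?_, fun σ => by rw [← Eop_rename_blockPerm, hf.2 σ]⟩
  rw [Eop_apply]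
  refine IsWeightedHomogeneous.sum _ _ _ fun r _ => ?_
  refine IsWeightedHomogeneous.induction_on
    (motive := fun f _ => IsWeightedHomogeneous (blockWeight s) (X (r, i) * pderiv (r, j) f) d)
    ?_ (fun p q _ _ hp hq => ?_) (fun m c hm => ?_) (hf.1 s)
  · simpa using isWeightedHomogeneous_zero ℂ _ d
  · rw [map_add, mul_add]; exact hp.add hq
  · rw [pderiv_monomial]
    by_cases h : m (r, j) = 0
    · simpa [h] using isWeightedHomogeneous_zero ℂ _ d
    · rw [X, monomial_mul]
      refine isWeightedHomogeneous_monomial _ _ _ ?_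
      rw [map_add, ← hm, ← Finsupp.weight_sub_single_add (w := blockWeight s) h, add_comm,
        Finsupp.weight_single, one_smul]
      rfl

/-- `Eop i i` acts on a monomial by its degree in the `i`-th coordinates -/
theorem Eop_diag_monomial (a n : ℕ) (i : Fin n) (m : Var a n →₀ ℕ) (c : ℂ) :
    Eop a n i i (monomial m c) = ((∑ r : Fin a, m (r, i) : ℕ) : ℂ) • monomial m c := by
  rw [Eop_apply]
  simp only [X_mul_pderiv_monomial, ← Finset.sum_smul, Nat.cast_smul_eq_nsmul]

theorem block_coeff_diag (a n : ℕ) (i : Fin n) (m : Var a n →₀ ℕ) (f : MvPolynomial (Var a n) ℂ) :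
    coeff m (Eop a n i i f) = ((∑ r : Fin a, m (r, i) : ℕ) : ℂ) * coeff m f := by
  induction f using MvPolynomial.induction_on' with
  | add p q hp hq => rw [map_add, coeff_add, coeff_add, hp, hq, mul_add]
  | monomial k c =>
    rw [Eop_diag_monomial, coeff_smul, coeff_monomial, smul_eq_mul]
    split_ifs with h
    · rw [h]
    · rw [mul_zero, mul_zero]

/-- a polynomial is a weight vector iff all its monomials have that weight -/
theorem mem_wtSp_Eop {a n : ℕ} {l : Fin n → ℕ} {f : MvPolynomial (Var a n) ℂ} :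
    f ∈ wtSp (Eop a n) (fun i => (l i : ℤ)) ↔
      ∀ m ∈ f.support, ∀ i, ∑ r : Fin a, m (r, i) = l i := by
  rw [mem_wtSp]
  refine ⟨fun h m hm i => ?_, fun h i => ?_⟩
  · have h1 := congrArg (coeff m) (h i)
    rw [block_coeff_diag, coeff_smul, smul_eq_mul] at h1
    exact_mod_cast mul_right_cancel₀ (mem_support_iff.1 hm) h1
  · ext m
    rw [block_coeff_diag, coeff_smul, smul_eq_mul]
    by_cases hm : m ∈ f.support
    · rw [h m hm i, Int.cast_natCast]
    · rw [notMem_support_iff.1 hm, mul_zero, mul_zero]

theorem block_degree {a n d : ℕ} {f : MvPolynomial (Var a n) ℂ} (hf : f ∈ blockSym a n d)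
    {m : Var a n →₀ ℕ} (hm : m ∈ f.support) : ∑ v, m v = a * d := by
  have h : ∀ r : Fin a, ∑ k, m (r, k) = d := fun r => by
    rw [← (mem_blockSym.1 hf).1 r (mem_support_iff.1 hm), Finsupp.weight_eq_sum,
      Fintype.sum_prod_type, Finset.sum_eq_single r]
    · simp [blockWeight]
    · intro s _ hs
      simp [blockWeight, hs]
    · simp
  rw [Fintype.sum_prod_type]
  simp [h]

instance finiteDimensional_blockSym (a n d : ℕ) : FiniteDimensional ℂ (blockSym a n d) := by
  refine Submodule.finiteDimensional_of_le (S₂ := restrictTotalDegree (Var a n) ℂ (a * d))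
    fun f hf => ?_
  rw [mem_restrictTotalDegree, totalDegree]
  refine Finset.sup_le fun m hm => ?_
  rw [Finsupp.sum_fintype _ _ fun _ => rfl]
  exact (block_degree hf hm).le

theorem linSubst_mem_blockSym {a n d : ℕ} (g : Matrix (Fin n) (Fin n) ℂ)
    {f : MvPolynomial (Var a n) ℂ} (hf : f ∈ blockSym a n d) :
    linSubst a g f ∈ blockSym a n d := by
  rw [mem_blockSym] at hf ⊢
  refine ⟨fun s => ?_, fun σ => ?_⟩
  · refine IsWeightedHomogeneous.induction_on
      (motive := fun f _ => IsWeightedHomogeneous (blockWeight s) (linSubst a g f) d)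
      ?_ (fun p q _ _ hp hq => ?_) (fun m c hm => ?_) (hf.1 s)
    · simpa using isWeightedHomogeneous_zero ℂ _ d
    · rw [map_add]; exact hp.add hq
    · rw [linSubst, aeval_monomial, algebraMap_eq, ← hm, Finsupp.weight_apply]
      refine (IsWeightedHomogeneous.prod _ _ _ fun v _ => IsWeightedHomogeneous.pow ?_ _).C_mul c
      refine IsWeightedHomogeneous.sum _ _ _ fun l _ => ?_
      rw [smul_eq_C_mul]
      exact (isWeightedHomogeneous_X ℂ (blockWeight s) (v.1, l)).C_mul _
  · have h : (rename (blockPerm σ)).comp (linSubst a g) =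
        (linSubst a g).comp (rename (blockPerm σ)) :=
      algHom_ext fun v => by simp [linSubst, blockPerm]
    conv_rhs => rw [← hf.2 σ]
    exact DFunLike.congr_fun h f

/-- `blockSym` as an inner product space -/
def BlockSp (a n d : ℕ) : Type := blockSym a n d

noncomputable instance (a n d : ℕ) : NormedAddCommGroup (BlockSp a n d) :=
  @InnerProductSpace.Core.toNormedAddCommGroup ℂ (blockSym a n d) _ _ _ (blockCore _)

noncomputable instance (a n d : ℕ) : InnerProductSpace ℂ (BlockSp a n d) :=
  @InnerProductSpace.ofCore ℂ (blockSym a n d) _ _ _ (blockCore _).toCore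

instance (a n d : ℕ) : FiniteDimensional ℂ (BlockSp a n d) := finiteDimensional_blockSym a n d

/-- the inclusion -/
noncomputable def blockInc (a n d : ℕ) : BlockSp a n d →ₗ[ℂ] MvPolynomial (Var a n) ℂ :=
  (blockSym a n d).subtype

theorem blockInc_inj (a n d : ℕ) : Function.Injective (blockInc a n d) := Subtype.val_injective

theorem blockInc_mem {a n d : ℕ} (x : BlockSp a n d) : blockInc a n d x ∈ blockSym a n d :=
  Subtype.property (p := fun f => f ∈ blockSym a n d) x

theorem blockInc_range (a n d : ℕ) : LinearMap.range (blockInc a n d) = blockSym a n d :=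
  Submodule.range_subtype _

theorem block_inner {a n d : ℕ} (x y : BlockSp a n d) :
    inner ℂ x y = blockFis (map (starRingEnd ℂ) (blockInc a n d x)) (blockInc a n d y) := rfl

/-- the restricted operators -/
noncomputable def blockE (a n d : ℕ) (i j : Fin n) : Module.End ℂ (BlockSp a n d) :=
  (Eop a n i j).restrict fun _ hf => Eop_mem_blockSym (d := d) i j hf

theorem blockInc_E {a n d : ℕ} (i j : Fin n) (x : BlockSp a n d) :
    blockInc a n d (blockE a n d i j x) = Eop a n i j (blockInc a n d x) := rfl

theorem blockE_comm (a n d : ℕ) (i j k l : Fin n) :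
    blockE a n d i j * blockE a n d k l - blockE a n d k l * blockE a n d i j =
      (if j = k then blockE a n d i l else 0) - (if l = i then blockE a n d k j else 0) := by
  refine LinearMap.ext fun x => blockInc_inj a n d ?_
  have h := DFunLike.congr_fun (Eop_comm a n i j k l) (blockInc a n d x)
  split_ifs at h ⊢ <;> simpa [blockInc_E] using h

theorem blockE_adj (a n d : ℕ) (i j : Fin n) (x y : BlockSp a n d) :
    inner ℂ (blockE a n d i j x) y = inner ℂ x (blockE a n d j i y) := by
  rw [block_inner, block_inner, blockInc_E, blockInc_E, Eop_apply, Eop_apply, map_sum, map_sum,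
    LinearMap.sum_apply, map_sum]
  refine Finset.sum_congr rfl fun r _ => ?_
  rw [map_mul, map_X, ← pderiv_map, blockFis_X_mul, blockFis_comm, ← blockFis_X_mul, blockFis_comm]

theorem block_wtSp (a n d : ℕ) (μ : Fin n → ℤ) :
    wtSp (blockE a n d) μ = (wtSp (Eop a n) μ).comap (blockInc a n d) := by
  ext x
  simp only [Submodule.mem_comap, mem_wtSp, ← (blockInc_inj a n d).eq_iff, blockInc_E, map_smul]

theorem block_hwSp (a n d : ℕ) (μ : Fin n → ℤ) :
    hwSp (blockE a n d) μ = (hwSp (Eop a n) μ).comap (blockInc a n d) := by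
  ext x
  simp only [Submodule.mem_comap, mem_hwSp, ← (blockInc_inj a n d).eq_iff (a := blockE _ _ _ _ _ _),
    blockInc_E, map_smul, map_zero]

theorem block_finrank (a n d : ℕ) (p : Submodule ℂ (MvPolynomial (Var a n) ℂ)) :
    finrank ℂ (p.comap (blockInc a n d)) = finrank ℂ (blockSym a n d ⊓ p :) := by
  rw [(Submodule.equivMapOfInjective _ (blockInc_inj a n d) _).finrank_eq, Submodule.map_comap_eq,
    blockInc_range]

/-- the weights -/
noncomputable def blockS (n N : ℕ) : Finset (Fin n → ℤ) :=
  (Fintype.piFinset fun _ => Finset.range (N + 1)).image fun (l : Fin n → ℕ) i => (l i : ℤ)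

theorem block_span (a n d : ℕ) : ⨆ μ ∈ blockS n (a * d), wtSp (blockE a n d) μ = ⊤ := by
  rw [eq_top_iff, ← LinearMap.IsSymmetric.iSup_iInf_eq_top_of_commute
    (T := fun i => blockE a n d i i) (fun i => blockE_adj a n d i i) fun i k h => by
      have := blockE_comm a n d i i k k
      rw [if_neg h, if_neg h.symm, sub_zero, sub_eq_zero] at this
      exact this]
  refine iSup_le fun χ x hx => ?_
  simp only [Submodule.mem_iInf, Module.End.mem_eigenspace_iff] at hx
  by_cases h0 : blockInc a n d x = 0
  · rw [(blockInc_inj a n d) (h0.trans (map_zero _).symm)]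
    exact zero_mem _
  obtain ⟨m, hm⟩ := support_nonempty.2 h0
  refine Submodule.mem_iSup_of_mem (fun i => ((∑ r : Fin a, m (r, i) : ℕ) : ℤ))
    (Submodule.mem_iSup_of_mem ?_ fun i => ?_)
  · refine Finset.mem_image_of_mem _ (Fintype.mem_piFinset.2 fun i => ?_)
    rw [Finset.mem_range, Nat.lt_succ_iff, ← block_degree (blockInc_mem x) hm,
      Fintype.sum_prod_type]
    exact Finset.sum_le_sum fun r _ =>
      Finset.single_le_sum (f := fun k => m (r, k)) (fun _ _ => Nat.zero_le _) (Finset.mem_univ i)
  · have h1 := congrArg (fun y => coeff m (blockInc a n d y)) (hx i)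
    simp only [blockInc_E, block_coeff_diag, map_smul, coeff_smul, smul_eq_mul] at h1
    rw [hx i, ← mul_right_cancel₀ (mem_support_iff.1 hm) h1, Int.cast_natCast]

/-- the block model as a `gl_n`-module -/
noncomputable def blockMod (a n d : ℕ) : GlMod n (BlockSp a n d) where
  E := blockE a n d
  S := blockS n (a * d)
  comm := blockE_comm a n d
  adj := blockE_adj a n d
  span := block_span a n d
  nonneg μ hμ i := by
    obtain ⟨l, -, rfl⟩ := Finset.mem_image.1 hμ
    exact Int.natCast_nonneg _

theorem block_linSubst_mul (a : ℕ) {n : ℕ} (g h : Matrix (Fin n) (Fin n) ℂ)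
    (f : MvPolynomial (Var a n) ℂ) : linSubst a (g * h) f = linSubst a h (linSubst a g f) := by
  have e : linSubst a (g * h) = (linSubst a h).comp (linSubst a g) := algHom_ext fun v => by
    simp only [linSubst, aeval_X, AlgHom.comp_apply, map_sum, map_smul, Matrix.mul_apply,
      Finset.sum_smul, Finset.smul_sum, smul_smul]
    exact Finset.sum_comm
  rw [e, AlgHom.comp_apply]

theorem block_diagonal {a n : ℕ} (D : Fin n → ℂ) {l : Fin n → ℕ} {f : MvPolynomial (Var a n) ℂ}
    (hf : f ∈ wtSp (Eop a n) fun i => (l i : ℤ)) :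
    linSubst a (Matrix.diagonal D) f = (∏ i, D i ^ l i) • f := by
  rw [mem_wtSp_Eop] at hf
  rw [f.as_sum, map_sum, Finset.smul_sum]
  refine Finset.sum_congr rfl fun m hm => ?_
  have h : ∀ v : Var a n, ∑ k, Matrix.diagonal D v.2 k • (X (v.1, k) : MvPolynomial (Var a n) ℂ) =
      C (D v.2) * X v := fun v => by
    simp [Matrix.diagonal_apply, smul_eq_C_mul]
  rw [linSubst, aeval_monomial, monomial_eq, Finsupp.prod_fintype _ _ fun _ => pow_zero _,
    Finsupp.prod_fintype _ _ fun _ => pow_zero _, algebraMap_eq, smul_eq_C_mul, mul_left_comm]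
  simp only [h, mul_pow, Finset.prod_mul_distrib, ← map_pow, ← map_prod]
  congr 3
  rw [Fintype.prod_prod_type_right]
  simp only [Finset.prod_pow_eq_pow_sum, hf m hm]

theorem block_transvection (a : ℕ) {n : ℕ} (t : Matrix.TransvectionStruct (Fin n) ℂ)
    (f : MvPolynomial (Var a n) ℂ) : ∃ N, ∀ M, N ≤ M → linSubst a t.toMatrix f =
      ∑ k ∈ Finset.range M, (t.c ^ k / k.factorial) • (Eop a n t.j t.i ^ k) f := by
  refine block_exp (Eop_mul a n _ _) (fun v => ?_) _ _ (fun v => ?_) f
  · rw [block_X]
    split_ifs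
    · rw [block_X, if_neg t.hij.symm]
    · exact map_zero _
  · rw [block_X, linSubst, aeval_X]
    simp only [Matrix.TransvectionStruct.toMatrix, Matrix.transvection, Matrix.add_apply, add_smul,
      Finset.sum_add_distrib, Matrix.one_apply, Matrix.single_apply]
    by_cases h : v.2 = t.i
    · simp [← h]
    · simp [h, Ne.symm h]

/-- Weyl's formula in the block model (`GlMod.weyl`) -/
theorem finrank_hw_eq_coeff (a n d : ℕ) (χ : MvPolynomial (Fin n) ℤ)
    (hχ : ∀ μ : Fin n → ℕ, coeff (ex μ) χ = finrank ℂ (wt a n d μ))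
    (l : Fin n → ℕ) (hl : Antitone l) :
    coeff (ex fun i => l i + rho n i) (vand n ℤ * χ) = finrank ℂ (hw a n d l) := by
  rw [(blockMod a n d).weyl χ (fun μ => by
    rw [hχ μ, wt, ← block_finrank, ← block_wtSp]; rfl) l hl, hw, ← block_finrank, ← block_hwSp]
  rfl

/-- From multiplicities to an equivariant injection.  `GlMod.exists_injective` (and
`GlMod.hw_antitone` for the weights that are not casts of antitone `l`) gives `φ₀` on the subtypes
commuting with all `Eop i j`; extend it to the whole ring (`LinearMap.exists_extend`).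
Equivariance for invertible `g`: `Matrix.diagonal_transvection_induction_of_det_ne_zero`,
`linSubst (g * h) = linSubst h ∘ linSubst g` (check the order), a diagonal matrix acts on a weight
vector of weight `μ` by `∏ g i ^ μ i`, and for a transvection `t ↦ linSubst (transvection i j t) f`
equals `∑_{k ≤ N} t^k / k! • (Eop j i)^k f` for `N` large (both sides are algebra maps / solve by
induction on `f` or by the polynomial ODE `u' = Eop j i u` in `t`). -/
theorem exists_equivariant (a d a' d' n : ℕ)
    (h : ∀ l : Fin n → ℕ, Antitone l → finrank ℂ (hw a n d l) ≤ finrank ℂ (hw a' n d' l)) :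
    ∃ φ : MvPolynomial (Var a n) ℂ →ₗ[ℂ] MvPolynomial (Var a' n) ℂ,
      (∀ f ∈ blockSym a n d, φ f ∈ blockSym a' n d') ∧
      Set.InjOn φ (blockSym a n d) ∧
      ∀ g : Matrix (Fin n) (Fin n) ℂ, IsUnit g →
        ∀ f ∈ blockSym a n d, φ (linSubst a g f) = linSubst a' g (φ f) := by
  obtain ⟨φ₀, hinj, hE⟩ := (blockMod a n d).exists_injective (blockMod a' n d') fun μ => by
    by_cases h0 : hwSp (blockMod a n d).E μ = ⊥
    · rw [h0, finrank_bot]; exact Nat.zero_le _
    obtain ⟨h1, h2⟩ := (blockMod a n d).hw_antitone h0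
    obtain ⟨l, rfl⟩ : ∃ l : Fin n → ℕ, μ = fun i => (l i : ℤ) :=
      ⟨fun i => (μ i).toNat, funext fun i => (Int.toNat_of_nonneg (h2 i)).symm⟩
    have h3 := h l fun i j hij => Int.ofNat_le.1 (h1 hij)
    rw [hw, hw, ← block_finrank, ← block_finrank, ← block_hwSp, ← block_hwSp] at h3
    exact h3
  obtain ⟨φ, hφ⟩ := LinearMap.exists_extend (p := blockSym a n d) (blockInc a' n d' ∘ₗ φ₀)
  have e : ∀ x, φ (blockInc a n d x) = blockInc a' n d' (φ₀ x) := fun x => DFunLike.congr_fun hφ x
  have hs : ∀ f ∈ blockSym a n d, ∃ x, blockInc a n d x = f := fun f hf => ⟨⟨f, hf⟩, rfl⟩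
  have hD : ∀ i j k, ∀ f ∈ blockSym a n d, (Eop a n i j ^ k) f ∈ blockSym a n d ∧
      φ ((Eop a n i j ^ k) f) = (Eop a' n i j ^ k) (φ f) := by
    intro i j k f hf
    induction k with
    | zero => exact ⟨hf, rfl⟩
    | succ k ih =>
      rw [pow_succ', pow_succ', Module.End.mul_apply, Module.End.mul_apply, ← ih.2]
      refine ⟨Eop_mem_blockSym i j ih.1, ?_⟩
      obtain ⟨x, hx⟩ := hs _ ih.1
      rw [← hx, ← blockInc_E, e, e, ← blockInc_E]
      exact congrArg _ (hE i j x)
  refine ⟨φ, fun f hf => ?_, fun f hf f' hf' hff => ?_, fun g _ => ?_⟩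
  · obtain ⟨x, rfl⟩ := hs f hf
    rw [e]; exact blockInc_mem _
  · obtain ⟨x, rfl⟩ := hs f hf
    obtain ⟨y, rfl⟩ := hs f' hf'
    rw [e, e] at hff
    rw [hinj (blockInc_inj _ _ _ hff)]
  refine Matrix.diagonal_transvection_induction
    (fun g => ∀ f ∈ blockSym a n d, φ (linSubst a g f) = linSubst a' g (φ f)) g
    (fun D _ f hf => ?_) (fun t f hf => ?_) (fun A B hA hB f hf => ?_)
  · obtain ⟨x, rfl⟩ := hs f hf
    have hx : x ∈ ⨆ μ ∈ blockS n (a * d), wtSp (blockE a n d) μ := by
      rw [block_span]; trivial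
    rw [iSup_subtype'] at hx
    refine Submodule.iSup_induction _ (motive := fun x => φ (linSubst a (Matrix.diagonal D)
      (blockInc a n d x)) = linSubst a' (Matrix.diagonal D) (φ (blockInc a n d x))) hx ?_
      (by simp) fun x y hx hy => by simp only [map_add, hx, hy]
    rintro ⟨_, hμ⟩ y hy
    obtain ⟨l, -, rfl⟩ := Finset.mem_image.1 hμ
    have hy' : φ₀ y ∈ wtSp (blockE a' n d') fun i => (l i : ℤ) := fun i =>
      (hE i i y).symm.trans ((congrArg φ₀ (hy i)).trans (map_smul _ _ _))
    rw [block_wtSp] at hy hy'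
    rw [block_diagonal D hy, map_smul, e, block_diagonal D hy']
  · obtain ⟨N, hN⟩ := block_transvection a t f
    obtain ⟨N', hN'⟩ := block_transvection a' t (φ f)
    rw [hN _ (le_max_left N N'), hN' _ (le_max_right N N'), map_sum]
    exact Finset.sum_congr rfl fun k _ => by rw [map_smul, (hD _ _ k f hf).2]
  · rw [block_linSubst_mul, block_linSubst_mul, hB _ (linSubst_mem_blockSym A hf), hA f hf]

end Crest.Agent.R187
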