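import Crest.Agent.R187.Block

/-! Characters of the block model and monotonicity of multiplicities.

Main tool: the linear map `Θ : MvPolynomial (Var a n) ℂ →ₗ MvPolynomial (Fin n →₀ ℕ) ℂ` sending the
monomial `x^m` to `∏_r Y_{m_r}` (`m_r` = exponent vector of block `r`), i.e. to the monomial
`∑_r single m_r 1`.  Two monomials have the same image iff they differ by a block permutation, so
`Θ` is injective on block symmetric polynomials (the coefficient of `Θ f` at the image of `m` is
(orbit size) * `coeff m f`), `Θ ∘ rename (blockPerm σ) = Θ`, and `Θ` is multiplicative on products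
of polynomials in disjoint sets of blocks. -/

set_option autoImplicit false

open Module MvPolynomial Crest.AlgebraR.FoulkesHowe

namespace Crest.Agent.R187

variable {a b n d : ℕ}

/-- exponent vector of the block `r` -/
noncomputable def charBlk (m : Var a n →₀ ℕ) (r : Fin a) : Fin n →₀ ℕ := ex fun i => m (r, i)

/-- the multiset of the exponent vectors of the blocks -/
noncomputable def charSh (m : Var a n →₀ ℕ) : (Fin n →₀ ℕ) →₀ ℕ :=
  ∑ r, Finsupp.single (charBlk m r) 1

/-- the map `Θ` -/
noncomputable def charTheta (a n : ℕ) :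
    MvPolynomial (Var a n) ℂ →ₗ[ℂ] MvPolynomial (Fin n →₀ ℕ) ℂ :=
  (basisMonomials (Var a n) ℂ).constr ℂ fun m => monomial (charSh m) 1

/-- symmetrisation -/
noncomputable def charSym (a n : ℕ) : Module.End ℂ (MvPolynomial (Var a n) ℂ) :=
  ∑ σ : Equiv.Perm (Fin a), (rename (blockPerm σ) : MvPolynomial (Var a n) ℂ →ₐ[ℂ] _).toLinearMap

theorem charTheta_monomial (m : Var a n →₀ ℕ) (c : ℂ) :
    charTheta a n (monomial m c) = monomial (charSh m) c := by
  have h : (monomial m c : MvPolynomial (Var a n) ℂ) = c • basisMonomials (Var a n) ℂ m := by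
    simp [smul_monomial]
  rw [h, map_smul, charTheta, Basis.constr_basis, smul_monomial, smul_eq_mul, mul_one]

theorem charSym_apply (f : MvPolynomial (Var a n) ℂ) :
    charSym a n f = ∑ σ : Equiv.Perm (Fin a), rename (blockPerm σ) f := by
  simp [charSym, LinearMap.sum_apply]

theorem char_mapDomain_apply {e : Fin b → Fin a} (he : Function.Injective e) (m : Var b n →₀ ℕ)
    (r : Fin b) (i : Fin n) : Finsupp.mapDomain (Prod.map e id) m (e r, i) = m (r, i) :=
  Finsupp.mapDomain_apply (he.prodMap Function.injective_id) m (r, i)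

theorem char_mapDomain_notin {e : Fin b → Fin a} (m : Var b n →₀ ℕ) {r : Fin a}
    (hr : ∀ s, e s ≠ r) (i : Fin n) : Finsupp.mapDomain (Prod.map e id) m (r, i) = 0 := by
  refine Finsupp.mapDomain_of_notMem_range _ _ ?_
  rintro ⟨v, hv⟩
  exact hr v.1 (congrArg Prod.fst hv)

theorem charSh_perm (σ : Equiv.Perm (Fin a)) (m : Var a n →₀ ℕ) :
    charSh (Finsupp.mapDomain (blockPerm σ) m) = charSh m := by
  unfold charSh
  rw [← Equiv.sum_comp σ]
  refine Finset.sum_congr rfl fun r _ => ?_
  congr 1
  ext i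
  exact char_mapDomain_apply σ.injective m r i

theorem char_exists_perm {m m' : Var a n →₀ ℕ} (h : charSh m = charSh m') :
    ∃ σ : Equiv.Perm (Fin a), Finsupp.mapDomain (blockPerm σ) m = m' := by
  classical
  have hc : ∀ c, Fintype.card {r // charBlk m r = c} = Fintype.card {r // charBlk m' r = c} := by
    intro c
    have := DFunLike.congr_fun h c
    simpa [charSh, Finsupp.finsetSum_apply, Finsupp.single_apply, Fintype.card_subtype] using this
  let σ : Equiv.Perm (Fin a) := Equiv.ofFiberEquiv fun c => Fintype.equivOfCardEq (hc c)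
  refine ⟨σ, Finsupp.ext fun v => ?_⟩
  obtain ⟨r, i⟩ := v
  obtain ⟨r, rfl⟩ := σ.surjective r
  have h1 : charBlk m' (σ r) = charBlk m r := Equiv.ofFiberEquiv_map _ r
  exact (char_mapDomain_apply σ.injective m r i).trans (DFunLike.congr_fun h1 i).symm

theorem charTheta_rename (σ : Equiv.Perm (Fin a)) (f : MvPolynomial (Var a n) ℂ) :
    charTheta a n (rename (blockPerm σ) f) = charTheta a n f := by
  induction f using MvPolynomial.induction_on' with
  | monomial m c => rw [rename_monomial, charTheta_monomial, charTheta_monomial, charSh_perm]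
  | add f g hf hg => simp only [map_add, hf, hg]

theorem charTheta_sym (f : MvPolynomial (Var a n) ℂ) :
    charTheta a n (charSym a n f) = (a.factorial : ℂ) • charTheta a n f := by
  simp [charSym_apply, charTheta_rename, Fintype.card_perm, Nat.cast_smul_eq_nsmul]

theorem charSym_rename (σ : Equiv.Perm (Fin a)) (f : MvPolynomial (Var a n) ℂ) :
    charSym a n (rename (blockPerm σ) f) = charSym a n f := by
  rw [charSym_apply, charSym_apply,
    ← Equiv.sum_comp (Equiv.mulRight σ) fun τ => rename (blockPerm τ) f]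
  refine Finset.sum_congr rfl fun τ _ => ?_
  rw [rename_rename]
  rfl

theorem rename_charSym (σ : Equiv.Perm (Fin a)) (f : MvPolynomial (Var a n) ℂ) :
    rename (blockPerm σ) (charSym a n f) = charSym a n f := by
  rw [charSym_apply, map_sum, ← Equiv.sum_comp (Equiv.mulLeft σ) fun τ => rename (blockPerm τ) f]
  refine Finset.sum_congr rfl fun τ _ => ?_
  rw [rename_rename]
  rfl

theorem charTheta_inj {f : MvPolynomial (Var a n) ℂ} (hf : f ∈ blockSym a n d)
    (h : charTheta a n f = 0) : f = 0 := by
  classical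
  let Ψ : MvPolynomial (Fin n →₀ ℕ) ℂ →ₗ[ℂ] MvPolynomial (Var a n) ℂ :=
    (basisMonomials _ ℂ).constr ℂ fun m' =>
      if h : ∃ m : Var a n →₀ ℕ, charSh m = m' then charSym a n (monomial h.choose 1) else 0
  have h1 : Ψ ∘ₗ charTheta a n = charSym a n := by
    refine (basisMonomials _ ℂ).ext fun m => ?_
    have hm : ∃ m' : Var a n →₀ ℕ, charSh m' = charSh m := ⟨m, rfl⟩
    obtain ⟨σ, hσ⟩ := char_exists_perm hm.choose_spec
    rw [LinearMap.comp_apply, coe_basisMonomials, charTheta_monomial]
    refine ((basisMonomials _ ℂ).constr_basis ℂ _ (charSh m)).trans ?_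
    rw [dif_pos hm, ← charSym_rename σ, rename_monomial, hσ]
  have h2 : charSym a n f = 0 := by rw [← h1, LinearMap.comp_apply, h, map_zero]
  rw [charSym_apply, Finset.sum_congr rfl fun σ _ => (mem_blockSym.1 hf).2 σ, Finset.sum_const,
    ← Nat.cast_smul_eq_nsmul ℂ, smul_eq_zero] at h2
  exact h2.resolve_left (by exact_mod_cast Finset.card_ne_zero.2 Finset.univ_nonempty)

theorem char_weight (r : Fin a) (m : Var a n →₀ ℕ) :
    Finsupp.weight (blockWeight r) m = ∑ i, m (r, i) := by
  rw [Finsupp.weight_eq_sum, Fintype.sum_prod_type_right]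
  simp [blockWeight]

theorem char_homog_rename {σ τ : Type*} (e : σ → τ) (w : τ → ℕ) {f : MvPolynomial σ ℂ}
    (hf : IsWeightedHomogeneous (w ∘ e) f d) : IsWeightedHomogeneous w (rename e f) d := by
  rw [f.as_sum, map_sum]
  refine (weightedHomogeneousSubmodule ℂ w d).sum_mem fun m hm => ?_
  rw [rename_monomial]
  refine isWeightedHomogeneous_monomial _ _ _ ?_
  rw [← hf (mem_support_iff.1 hm), Finsupp.weight_apply, Finsupp.weight_apply,
    Finsupp.sum_mapDomain_index (h := fun i c => c • w i) (fun _ => zero_smul _ _)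
      fun _ _ _ => add_smul _ _ _]
  rfl

theorem charSym_mem_blockSym {f : MvPolynomial (Var a n) ℂ}
    (hf : ∀ r, IsWeightedHomogeneous (blockWeight r) f d) : charSym a n f ∈ blockSym a n d := by
  refine mem_blockSym.2 ⟨fun r => ?_, fun σ => rename_charSym σ f⟩
  rw [charSym_apply]
  refine (weightedHomogeneousSubmodule ℂ (blockWeight r) d).sum_mem fun σ _ => ?_
  refine char_homog_rename _ _ ?_
  have : blockWeight r ∘ blockPerm σ = (blockWeight (σ.symm r) : Var a n → ℕ) := by
    funext v
    exact if_congr (Equiv.eq_symm_apply σ).symm rfl rfl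
  rw [this]
  exact hf _

theorem Eop_charSym (i j : Fin n) (f : MvPolynomial (Var a n) ℂ) :
    Eop a n i j (charSym a n f) = charSym a n (Eop a n i j f) := by
  simp only [charSym_apply, map_sum, Eop_rename_blockPerm]

theorem char_Eop_rename (e : Fin b → Fin a) (i j : Fin n) (f : MvPolynomial (Var b n) ℂ) :
    Eop a n i j (rename (Prod.map e id) f) = rename (Prod.map e id) (Eop b n i j f) := by
  have hX : ∀ {a : ℕ} (v : Var a n), Eop a n i j (X v) = if v.2 = j then X (v.1, i) else 0 := by
    rintro a ⟨r, k⟩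
    rw [Eop_apply, Finset.sum_eq_single r]
    · by_cases h : k = j
      · simp [h]
      · rw [if_neg h, pderiv_X_of_ne (fun e => h (congrArg Prod.snd e)), mul_zero]
    · intro s _ hs
      rw [pderiv_X_of_ne (fun e => hs (congrArg Prod.fst e).symm), mul_zero]
    · simp
  induction f using MvPolynomial.induction_on with
  | C c => simp [Eop_apply]
  | add f g hf hg => simp only [map_add, hf, hg]
  | mul_X f v hf =>
    rw [map_mul, Eop_mul, Eop_mul, hf, rename_X, hX, hX, map_add, map_mul, map_mul, rename_X]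
    by_cases h : v.2 = j <;> simp [h]

theorem char_hw_mul {l l' : Fin n → ℕ} {f g : MvPolynomial (Var a n) ℂ}
    (hf : f ∈ hwSp (Eop a n) fun i => (l i : ℤ)) (hg : g ∈ hwSp (Eop a n) fun i => (l' i : ℤ)) :
    f * g ∈ hwSp (Eop a n) fun i => ((l + l') i : ℤ) := by
  refine ⟨fun i => ?_, fun i j h => ?_⟩
  · rw [Eop_mul, hf.1 i, hg.1 i]
    simp [add_smul]
  · rw [Eop_mul, hf.2 i j h, hg.2 i j h, zero_mul, mul_zero, add_zero]

theorem char_hw_rename (e : Fin b → Fin a) {l : Fin n → ℤ} {f : MvPolynomial (Var b n) ℂ}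
    (hf : f ∈ hwSp (Eop b n) l) : rename (Prod.map e id) f ∈ hwSp (Eop a n) l :=
  ⟨fun i => by rw [char_Eop_rename, hf.1 i, map_smul],
    fun i j h => by rw [char_Eop_rename, hf.2 i j h, map_zero]⟩

theorem char_exists_fun {β : Type*} (k : ℕ) (m : β →₀ ℕ) (h : m.degree = k) :
    ∃ u : Fin k → β, ∑ r, Finsupp.single (u r) 1 = m := by
  induction k generalizing m with
  | zero => exact ⟨Fin.elim0, by simpa [eq_comm] using (Finsupp.degree_eq_zero_iff m).1 h⟩
  | succ k ih =>
    have h0 : m ≠ 0 := by
      rintro rfl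
      simp at h
    obtain ⟨x, hx⟩ := Finsupp.ne_iff.1 h0
    have h1 := Finsupp.sub_add_single_one_cancel hx
    obtain ⟨u, hu⟩ := ih (m - Finsupp.single x 1) (by
      have := congrArg Finsupp.degree h1
      rw [map_add, Finsupp.degree_single, h] at this
      omega)
    exact ⟨Fin.cons x u, by rw [Fin.sum_univ_succ, Fin.cons_zero, add_comm, ← h1, ← hu]; rfl⟩

theorem char_sum_smul {ι : Type*} [Fintype ι] (u : ι → Fin n →₀ ℕ) :
    (∑ r, Finsupp.single (u r) 1 : (Fin n →₀ ℕ) →₀ ℕ).sum (fun α k => k • α) = ∑ r, u r := by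
  rw [← Finsupp.sum_finsetSum_index (h := fun (α : Fin n →₀ ℕ) (k : ℕ) => k • α)
    (fun _ => zero_smul _ _) fun _ _ _ => add_smul _ _ _]
  simp

theorem char_mem_iff (μ : Fin n → ℕ) (m : Var a n →₀ ℕ) :
    (charSh m ∈ (mons n d).finsuppAntidiag a ∧ (charSh m).sum (fun α k => k • α) = ex μ) ↔
      (∀ r, ∑ i, m (r, i) = d) ∧ ∀ i, ∑ r, m (r, i) = μ i := by
  classical
  refine and_congr ?_ ?_
  · rw [Finset.mem_finsuppAntidiag']
    have h1 : (charSh m).sum (fun _ x => x) = a := by
      rw [charSh, ← Finsupp.sum_finsetSum_index (fun _ => rfl) fun _ _ _ => rfl]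
      simp
    simp only [h1, true_and]
    constructor
    · intro h r
      have : charBlk m r ∈ mons n d := by
        refine h (Finsupp.mem_support_iff.2 (ne_of_gt ?_))
        rw [charSh, Finsupp.finsetSum_apply]
        exact Finset.sum_pos' (fun _ _ => Nat.zero_le _) ⟨r, Finset.mem_univ _, by simp⟩
      exact (Finset.mem_finsuppAntidiag.1 this).1
    · intro h α hα
      obtain ⟨r, -, hr⟩ := Finset.mem_biUnion.1 (Finsupp.support_finsetSum hα)
      rw [Finset.mem_singleton.1 (Finsupp.support_single_subset hr)]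
      exact Finset.mem_finsuppAntidiag.2 ⟨h r, Finset.subset_univ _⟩
  · rw [charSh, char_sum_smul, Finsupp.ext_iff]
    simp [Finsupp.finsetSum_apply, charBlk]

/-- `Θ` maps `wt a n d μ` isomorphically onto the span of the monomials `m'` with
`m' ∈ (mons n d).finsuppAntidiag a` and `m'.sum (fun α k => k • α) = ex μ` (use `mem_wtSp_Eop`;
surjectivity: symmetrise a monomial). -/
theorem coeff_ple (a n d : ℕ) (μ : Fin n → ℕ) :
    coeff (ex μ) (ple n a d) = finrank ℂ (wt a n d μ) := by
  classical
  obtain ⟨T, h1, hT⟩ : ∃ T : Finset ((Fin n →₀ ℕ) →₀ ℕ), coeff (ex μ) (ple n a d) = T.card ∧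
      ∀ m, m ∈ T ↔ m ∈ (mons n d).finsuppAntidiag a ∧ m.sum (fun α k => k • α) = ex μ :=
    ⟨((mons n d).finsuppAntidiag a).filter fun m => m.sum (fun α k => k • α) = ex μ,
      by simp only [ple, coeff_sum, coeff_monomial, Finset.sum_boole],
      fun m => by rw [Finset.mem_filter]⟩
  have h2 : (wt a n d μ).map (charTheta a n) = restrictSupport ℂ (T : Set ((Fin n →₀ ℕ) →₀ ℕ)) := by
    apply le_antisymm
    · rintro _ ⟨f, hf, rfl⟩
      rw [f.as_sum, map_sum]
      refine Submodule.sum_mem _ fun m hm => ?_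
      rw [charTheta_monomial, monomial_mem_restrictSupport]
      have h3 : ∀ r, ∑ i, m (r, i) = d := fun r => by
        rw [← char_weight]
        exact (mem_blockSym.1 hf.1).1 r (mem_support_iff.1 hm)
      have h4 : ∀ i, ∑ r, m (r, i) = μ i := mem_wtSp_Eop.1 hf.2 m hm
      left
      rw [Finset.mem_coe, hT, char_mem_iff]
      exact ⟨h3, h4⟩
    · rw [restrictSupport_eq_span, Submodule.span_le]
      rintro _ ⟨m', hm', rfl⟩
      have hm := hm'
      rw [Finset.mem_coe, hT] at hm
      have hdeg : m'.degree = a := by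
        have := hm.1
        rw [Finset.mem_finsuppAntidiag'] at this
        exact this.1
      obtain ⟨u, hu⟩ := char_exists_fun a m' hdeg
      obtain ⟨m, hm₀⟩ : ∃ m : Var a n →₀ ℕ, ∀ r i, m (r, i) = u r i :=
        ⟨Finsupp.equivFunOnFinite.symm fun v => u v.1 v.2, fun _ _ => rfl⟩
      have hsh : charSh m = m' := by
        rw [← hu, charSh]
        refine Finset.sum_congr rfl fun r _ => ?_
        rw [show charBlk m r = u r from Finsupp.ext fun i => hm₀ r i]
      rw [← hsh, char_mem_iff] at hm
      have hw : (monomial m 1 : MvPolynomial (Var a n) ℂ) ∈ wtSp (Eop a n) fun i => (μ i : ℤ) := by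
        refine mem_wtSp_Eop.2 fun m₀ h₀ => ?_
        rw [Finset.mem_singleton.1 (support_monomial_subset h₀)]
        exact hm.2
      refine ⟨(a.factorial : ℂ)⁻¹ • charSym a n (monomial m 1), Submodule.smul_mem _ _
        ⟨charSym_mem_blockSym fun r => isWeightedHomogeneous_monomial _ _ _ ?_, fun i => ?_⟩, ?_⟩
      · rw [char_weight, hm.1]
      · rw [Eop_charSym, hw i, map_smul]
      · rw [map_smul, charTheta_sym, inv_smul_smul₀ (by exact_mod_cast a.factorial_ne_zero),
          charTheta_monomial, hsh]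
  have h3 : Function.Injective ((charTheta a n).domRestrict (wt a n d μ)) := by
    rw [injective_iff_map_eq_zero]
    exact fun f hf => Subtype.ext (charTheta_inj f.2.1 hf)
  rw [h1, ← LinearMap.finrank_range_of_inj h3, LinearMap.range_domRestrict, h2,
    finrank_eq_card_basis (basisRestrictSupport ℂ _)]
  simp

/-- multiply by `∏_r X (r, 0)` -/
theorem finrank_hw_le_succ (a n d : ℕ) (l : Fin (n + 1) → ℕ) :
    finrank ℂ (hw a (n + 1) d l) ≤
      finrank ℂ (hw a (n + 1) (d + 1) (l + Pi.single 0 a)) := by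
  let m : Var a (n + 1) →₀ ℕ := Finsupp.equivFunOnFinite.symm fun v => if v.2 = 0 then 1 else 0
  have hm : ∀ v, m v = if v.2 = 0 then 1 else 0 := fun _ => rfl
  let P : MvPolynomial (Var a (n + 1)) ℂ := monomial m 1
  have hP0 : P ≠ 0 := by simp [P]
  have hP1 : ∀ r, IsWeightedHomogeneous (blockWeight r) P 1 := fun r =>
    isWeightedHomogeneous_monomial _ _ _ (by simp [char_weight, hm])
  have hP2 : ∀ σ : Equiv.Perm (Fin a), rename (blockPerm σ) P = P := by
    intro σ
    rw [rename_monomial]
    congr 2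
    refine Finsupp.ext fun v => ?_
    obtain ⟨r, i⟩ := v
    obtain ⟨r, rfl⟩ := σ.surjective r
    exact char_mapDomain_apply σ.injective m r i
  have hP3 : P ∈ hwSp (Eop a (n + 1)) fun i => ((Pi.single 0 a : Fin (n + 1) → ℕ) i : ℤ) := by
    refine ⟨fun i => ?_, fun i j h => ?_⟩
    · rw [Eop_diag_monomial]
      by_cases hi : i = 0 <;> simp [hm, hi, P]
    · simp [Eop_apply, P, pderiv_monomial, hm, Fin.ne_zero_of_lt h]
  have : FiniteDimensional ℂ (hw a (n + 1) (d + 1) (l + Pi.single 0 a)) :=
    Submodule.finiteDimensional_of_le inf_le_left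
  refine LinearMap.finrank_le_finrank_of_injective
    (f := (LinearMap.mulRight ℂ P).restrict fun f hf => ?_) fun f g h => ?_
  · refine ⟨mem_blockSym.2 ⟨fun r => ((mem_blockSym.1 hf.1).1 r).mul (hP1 r), fun σ => ?_⟩,
      char_hw_mul hf.2 hP3⟩
    rw [LinearMap.mulRight_apply, map_mul, (mem_blockSym.1 hf.1).2 σ, hP2]
  · exact Subtype.ext (mul_right_cancel₀ hP0 (congrArg Subtype.val h))

/-- for `0 ≠ g ∈ hw c n d γ` the map
`f ↦ ∑_σ rename (blockPerm σ) (rename (Fin.castAdd c) f * rename (Fin.natAdd b) g)` sends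
`hw b n d l` to `hw (b + c) n d (l + γ)` and is injective because
`Θ` of it is `(b + c)! • Θ f * Θ g` in a domain. -/
theorem finrank_hw_le_add (b c n d : ℕ) (l γ : Fin n → ℕ) (hγ : hw c n d γ ≠ ⊥) :
    finrank ℂ (hw b n d l) ≤ finrank ℂ (hw (b + c) n d (l + γ)) := by
  obtain ⟨g, hg, hg0⟩ := (Submodule.ne_bot_iff _).1 hγ
  let e₁ : Var b n → Var (b + c) n := Prod.map (Fin.castAdd c) id
  let e₂ : Var c n → Var (b + c) n := Prod.map (Fin.natAdd b) id
  have hne : ∀ (r : Fin b) (s : Fin c), Fin.castAdd c r ≠ Fin.natAdd b s := by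
    intro r s h
    have := congrArg Fin.val h
    have := r.2
    simp only [Fin.val_castAdd, Fin.val_natAdd] at *
    omega
  have hΘ : ∀ (f : MvPolynomial (Var b n) ℂ) (g : MvPolynomial (Var c n) ℂ),
      charTheta (b + c) n (rename e₁ f * rename e₂ g) = charTheta b n f * charTheta c n g := by
    intro f g
    induction f using MvPolynomial.induction_on' with
    | add f f' hf hf' => simp only [map_add, add_mul, hf, hf']
    | monomial m x =>
      induction g using MvPolynomial.induction_on' with
      | add g g' hg hg' => simp only [map_add, mul_add, hg, hg']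
      | monomial m' y =>
        rw [rename_monomial, rename_monomial, monomial_mul, charTheta_monomial, charTheta_monomial,
          charTheta_monomial, monomial_mul]
        congr 2
        rw [charSh, Fin.sum_univ_add]
        congr 1
        · refine Finset.sum_congr rfl fun r _ => ?_
          congr 1
          ext i
          simp only [charBlk, ex_apply, Finsupp.add_apply, e₁, e₂]
          rw [char_mapDomain_apply (Fin.castAdd_injective _ _),
            char_mapDomain_notin _ fun s => (hne r s).symm, add_zero]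
        · refine Finset.sum_congr rfl fun r _ => ?_
          congr 1
          ext i
          simp only [charBlk, ex_apply, Finsupp.add_apply, e₁, e₂]
          rw [char_mapDomain_apply (Fin.natAdd_injective _ _),
            char_mapDomain_notin _ fun s => hne s r, zero_add]
  have hzero : ∀ {σ : Type} (f : MvPolynomial σ ℂ), IsWeightedHomogeneous (0 : σ → ℕ) f 0 := by
    intro σ f m _
    simp [Finsupp.weight_apply, Finsupp.sum]
  let φ : MvPolynomial (Var b n) ℂ →ₗ[ℂ] MvPolynomial (Var (b + c) n) ℂ :=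
    charSym (b + c) n ∘ₗ LinearMap.mulRight ℂ (rename e₂ g) ∘ₗ
      (rename e₁ : MvPolynomial (Var b n) ℂ →ₐ[ℂ] _).toLinearMap
  have hφ : ∀ f, φ f = charSym (b + c) n (rename e₁ f * rename e₂ g) := fun _ => rfl
  have : FiniteDimensional ℂ (hw (b + c) n d (l + γ)) :=
    Submodule.finiteDimensional_of_le inf_le_left
  refine LinearMap.finrank_le_finrank_of_injective
    (f := φ.restrict fun f hf => ?_) ((injective_iff_map_eq_zero _).2 fun f h => ?_)
  · rw [hφ]
    have h1 := char_hw_mul (char_hw_rename (Fin.castAdd c) hf.2) (char_hw_rename (Fin.natAdd b) hg.2)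
    refine ⟨charSym_mem_blockSym fun r => ?_, fun i => ?_, fun i j h => ?_⟩
    · induction r using Fin.addCases with
      | left r =>
        have h2 : blockWeight (Fin.castAdd c r) ∘ e₁ = blockWeight r := by
          funext v
          simp [blockWeight, e₁]
        have h3 : blockWeight (Fin.castAdd c r) ∘ e₂ = 0 := by
          funext v
          simp [blockWeight, e₂, (hne r _).symm]
        exact (char_homog_rename e₁ _ (h2 ▸ (mem_blockSym.1 hf.1).1 r)).mul
          (char_homog_rename e₂ _ (h3 ▸ hzero g))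
      | right r =>
        have h2 : blockWeight (Fin.natAdd b r) ∘ e₁ = 0 := by
          funext v
          simp [blockWeight, e₁, hne _ r]
        have h3 : blockWeight (Fin.natAdd b r) ∘ e₂ = blockWeight r := by
          funext v
          simp [blockWeight, e₂]
        have h4 := (char_homog_rename e₁ _ (h2 ▸ hzero f)).mul
          (char_homog_rename e₂ _ (h3 ▸ (mem_blockSym.1 hg.1).1 r))
        rwa [zero_add] at h4
    · rw [Eop_charSym, h1.1 i, map_smul]
    · rw [Eop_charSym, h1.2 i j h, map_zero]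
  · have h1 : φ f = 0 := congrArg Subtype.val h
    have h2 := congrArg (charTheta (b + c) n) h1
    rw [hφ, charTheta_sym, hΘ, map_zero, smul_eq_zero, mul_eq_zero] at h2
    rcases h2 with h2 | h2 | h2
    · exact absurd h2 (by exact_mod_cast (b + c).factorial_ne_zero)
    · exact Subtype.ext (charTheta_inj f.2.1 h2)
    · exact absurd (charTheta_inj hg.1 h2) hg0

theorem mu_eq (a d : ℕ) (l : Fin 6 → ℕ) (hl : Antitone l) :
    mu a d l = finrank ℂ (hw a 6 d l) :=
  finrank_hw_eq_coeff a 6 d (ple 6 a d) (coeff_ple a 6 d) l hl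

theorem mu_nonneg (a d : ℕ) (l : Fin 6 → ℕ) (hl : Antitone l) : 0 ≤ mu a d l := by
  rw [mu_eq a d l hl]; positivity

theorem mu_le_succ (a d : ℕ) (l : Fin 6 → ℕ) (hl : Antitone l) :
    mu a d l ≤ mu a (d + 1) (l + Pi.single 0 a) := by
  have h1 : Antitone (Pi.single 0 a : Fin 6 → ℕ) := by
    intro i j hij
    by_cases hj : j = 0
    · subst hj
      rw [Fin.le_zero_iff.1 hij]
    · simp [hj]
  rw [mu_eq a d l hl, mu_eq a (d + 1) (l + (Pi.single 0 a : Fin 6 → ℕ)) (hl.add h1)]
  exact_mod_cast finrank_hw_le_succ a 5 d l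

theorem mu_le_add (b c d : ℕ) (l γ : Fin 6 → ℕ) (hl : Antitone l) (hγ : Antitone γ)
    (h : 0 < mu c d γ) : mu b d l ≤ mu (b + c) d (l + γ) := by
  rw [mu_eq c d γ hγ] at h
  rw [mu_eq b d l hl, mu_eq (b + c) d (l + γ) (hl.add hγ)]
  refine Int.ofNat_le.2 (finrank_hw_le_add b c 6 d l γ fun h0 => ?_)
  rw [h0] at h
  simp at h

end Crest.Agent.R187
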