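import Crest.Agent.R187.Runs

/-! Kernel evaluation of a part of the checks. -/

set_option autoImplicit false
set_option Elab.async false

namespace Crest.Agent.R187

theorem cR7_0 : allFrom fR7 200 0 = true := by decide +kernel
theorem cR7_200 : allFrom fR7 200 200 = true := by decide +kernel
theorem cR7_400 : allFrom fR7 90 400 = true := by decide +kernel
theorem cR8_0 : allFrom fR8 200 0 = true := by decide +kernel
theorem cR8_200 : allFrom fR8 189 200 = true := by decide +kernel
theorem cR8_389 : allFrom fR8 134 389 = true := by decide +kernel
theorem cR8_523 : allFrom fR8 16 523 = true := by decide +kernel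
theorem cR9_0 : allFrom fR9 200 0 = true := by decide +kernel
theorem cR9_200 : allFrom fR9 10 200 = true := by decide +kernel
theorem cR10_0 : allFrom fR10 70 0 = true := by decide +kernel
theorem cR11_0 : allFrom fR11 70 0 = true := by decide +kernel
theorem cR12_0 : allFrom fR12 56 0 = true := by decide +kernel

end Crest.Agent.R187
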