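import Crest.Agent.R187.ChkA0

/-! Kernel evaluation of a part of the checks. -/

set_option autoImplicit false
set_option Elab.async false

namespace Crest.Agent.R187

theorem cF_2713 : allFrom fF 17 2713 = true := by decide +kernel
theorem cF_2730 : allFrom fF 20 2730 = true := by decide +kernel
theorem cF_2750 : allFrom fF 23 2750 = true := by decide +kernel
theorem cF_2773 : allFrom fF 32 2773 = true := by decide +kernel
theorem cF_2805 : allFrom fF 25 2805 = true := by decide +kernel
theorem cF_2830 : allFrom fF 39 2830 = true := by decide +kernel
theorem cF_2869 : allFrom fF 44 2869 = true := by decide +kernel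
theorem cF_2913 : allFrom fF 90 2913 = true := by decide +kernel

end Crest.Agent.R187
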