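import Crest.Agent.R187.ChkA1

/-! Kernel evaluation of a part of the checks. -/

set_option autoImplicit false
set_option Elab.async false

namespace Crest.Agent.R187

theorem cF_4089 : allFrom fF 43 4089 = true := by decide +kernel
theorem cF_4132 : allFrom fF 70 4132 = true := by decide +kernel
theorem cF_4202 : allFrom fF 11 4202 = true := by decide +kernel
theorem cF_4213 : allFrom fF 14 4213 = true := by decide +kernel
theorem cF_4227 : allFrom fF 16 4227 = true := by decide +kernel
theorem cF_4243 : allFrom fF 13 4243 = true := by decide +kernel
theorem cF_4256 : allFrom fF 18 4256 = true := by decide +kernel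

end Crest.Agent.R187
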