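import Crest.Agent.R187.ChkA2

/-! Kernel evaluation of a part of the checks. -/

set_option autoImplicit false
set_option Elab.async false

namespace Crest.Agent.R187

theorem cN_47 : allFrom fN 22 47 = true := by decide +kernel
theorem cN_69 : allFrom fN 17 69 = true := by decide +kernel
theorem cN_86 : allFrom fN 15 86 = true := by decide +kernel
theorem cN_101 : allFrom fN 12 101 = true := by decide +kernel
theorem cN_113 : allFrom fN 13 113 = true := by decide +kernel
theorem cN_126 : allFrom fN 11 126 = true := by decide +kernel
theorem cN_137 : allFrom fN 12 137 = true := by decide +kernel

end Crest.Agent.R187
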