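import Crest.Agent.R187.Runs

/-! Kernel evaluation of a part of the checks. -/

set_option autoImplicit false
set_option Elab.async false

namespace Crest.Agent.R187

theorem cR13_0 : allFrom fR13 56 0 = true := by decide +kernel
theorem cR14_0 : allFrom fR14 56 0 = true := by decide +kernel
theorem cR15_0 : allFrom fR15 56 0 = true := by decide +kernel
theorem cR16_0 : allFrom fR16 56 0 = true := by decide +kernel
theorem cR17_0 : allFrom fR17 56 0 = true := by decide +kernel
theorem cR18_0 : allFrom fR18 56 0 = true := by decide +kernel
theorem cR19_0 : allFrom fR19 56 0 = true := by decide +kernel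
theorem cR20_0 : allFrom fR20 56 0 = true := by decide +kernel
theorem cR21_0 : allFrom fR21 56 0 = true := by decide +kernel
theorem cR22_0 : allFrom fR22 56 0 = true := by decide +kernel
theorem cR23_0 : allFrom fR23 56 0 = true := by decide +kernel
theorem cR24_0 : allFrom fR24 56 0 = true := by decide +kernel
theorem cR25_0 : allFrom fR25 56 0 = true := by decide +kernel
theorem cR26_0 : allFrom fR26 56 0 = true := by decide +kernel
theorem cR27_0 : allFrom fR27 56 0 = true := by decide +kernel
theorem cR28_0 : allFrom fR28 56 0 = true := by decide +kernel
theorem cR29_0 : allFrom fR29 56 0 = true := by decide +kernel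
theorem cF_0 : allFrom fF 200 0 = true := by decide +kernel
theorem cF_200 : allFrom fF 200 200 = true := by decide +kernel
theorem cF_400 : allFrom fF 200 400 = true := by decide +kernel
theorem cF_600 : allFrom fF 200 600 = true := by decide +kernel
theorem cF_800 : allFrom fF 166 800 = true := by decide +kernel

end Crest.Agent.R187
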