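import Crest.Agent.R187.ChkB0

/-! Kernel evaluation of a part of the checks. -/

set_option autoImplicit false
set_option Elab.async false

namespace Crest.Agent.R187

theorem cF_3003 : allFrom fF 16 3003 = true := by decide +kernel
theorem cF_3019 : allFrom fF 15 3019 = true := by decide +kernel
theorem cF_3034 : allFrom fF 19 3034 = true := by decide +kernel
theorem cF_3053 : allFrom fF 22 3053 = true := by decide +kernel
theorem cF_3075 : allFrom fF 30 3075 = true := by decide +kernel
theorem cF_3105 : allFrom fF 24 3105 = true := by decide +kernel
theorem cF_3129 : allFrom fF 27 3129 = true := by decide +kernel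
theorem cF_3156 : allFrom fF 54 3156 = true := by decide +kernel

end Crest.Agent.R187
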