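import Crest.Agent.R187.ChkB1

/-! Kernel evaluation of a part of the checks. -/

set_option autoImplicit false
set_option Elab.async false

namespace Crest.Agent.R187

theorem cF_4274 : allFrom fF 19 4274 = true := by decide +kernel
theorem cF_4293 : allFrom fF 20 4293 = true := by decide +kernel
theorem cF_4313 : allFrom fF 22 4313 = true := by decide +kernel
theorem cF_4335 : allFrom fF 35 4335 = true := by decide +kernel
theorem cF_4370 : allFrom fF 40 4370 = true := by decide +kernel
theorem cF_4410 : allFrom fF 63 4410 = true := by decide +kernel
theorem cF_4473 : allFrom fF 34 4473 = true := by decide +kernel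
theorem cF_4507 : allFrom fF 14 4507 = true := by decide +kernel

end Crest.Agent.R187
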