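import Crest.Agent.R187.ChkB2

/-! Kernel evaluation of a part of the checks. -/

set_option autoImplicit false
set_option Elab.async false

namespace Crest.Agent.R187

theorem cN_149 : allFrom fN 10 149 = true := by decide +kernel
theorem cN_159 : allFrom fN 11 159 = true := by decide +kernel
theorem cN_170 : allFrom fN 22 170 = true := by decide +kernel
theorem cT_0 : allFrom fT 117 0 = true := by decide +kernel
theorem cT_117 : allFrom fT 60 117 = true := by decide +kernel
theorem cT_177 : allFrom fT 47 177 = true := by decide +kernel

end Crest.Agent.R187
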