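import Crest.Agent.R187.Runs

/-! Kernel evaluation of a part of the checks. -/

set_option autoImplicit false
set_option Elab.async false

namespace Crest.Agent.R187

theorem cF_966 : allFrom fF 169 966 = true := by decide +kernel
theorem cF_1135 : allFrom fF 103 1135 = true := by decide +kernel
theorem cF_1238 : allFrom fF 53 1238 = true := by decide +kernel
theorem cF_1291 : allFrom fF 98 1291 = true := by decide +kernel
theorem cF_1389 : allFrom fF 128 1389 = true := by decide +kernel
theorem cF_1517 : allFrom fF 33 1517 = true := by decide +kernel
theorem cF_1550 : allFrom fF 41 1550 = true := by decide +kernel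

end Crest.Agent.R187
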