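import Crest.Agent.R187.ChkC0

/-! Kernel evaluation of a part of the checks. -/

set_option autoImplicit false
set_option Elab.async false

namespace Crest.Agent.R187

theorem cF_3210 : allFrom fF 90 3210 = true := by decide +kernel
theorem cF_3300 : allFrom fF 12 3300 = true := by decide +kernel
theorem cF_3312 : allFrom fF 16 3312 = true := by decide +kernel
theorem cF_3328 : allFrom fF 18 3328 = true := by decide +kernel
theorem cF_3346 : allFrom fF 20 3346 = true := by decide +kernel
theorem cF_3366 : allFrom fF 21 3366 = true := by decide +kernel
theorem cF_3387 : allFrom fF 22 3387 = true := by decide +kernel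

end Crest.Agent.R187
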