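import Crest.Agent.R187.ChkC1

/-! Kernel evaluation of a part of the checks. -/

set_option autoImplicit false
set_option Elab.async false

namespace Crest.Agent.R187

theorem cF_4521 : allFrom fF 10 4521 = true := by decide +kernel
theorem cF_4531 : allFrom fF 17 4531 = true := by decide +kernel
theorem cF_4548 : allFrom fF 24 4548 = true := by decide +kernel
theorem cF_4572 : allFrom fF 36 4572 = true := by decide +kernel
theorem cF_4608 : allFrom fF 192 4608 = true := by decide +kernel
theorem cM_0 : allFrom fM 53 0 = true := by decide +kernel
theorem cM_53 : allFrom fM 17 53 = true := by decide +kernel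
theorem cM_70 : allFrom fM 13 70 = true := by decide +kernel

end Crest.Agent.R187
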