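import Crest.Agent.R187.ChkC2

/-! Kernel evaluation of a part of the checks. -/

set_option autoImplicit false
set_option Elab.async false

namespace Crest.Agent.R187

theorem cT_224 : allFrom fT 45 224 = true := by decide +kernel
theorem cT_269 : allFrom fT 38 269 = true := by decide +kernel
theorem cT_307 : allFrom fT 36 307 = true := by decide +kernel
theorem cT_343 : allFrom fT 35 343 = true := by decide +kernel
theorem cT_378 : allFrom fT 32 378 = true := by decide +kernel
theorem cT_410 : allFrom fT 30 410 = true := by decide +kernel
theorem cT_440 : allFrom fT 29 440 = true := by decide +kernel

end Crest.Agent.R187
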