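import Crest.Agent.R187.Runs

/-! Kernel evaluation of a part of the checks. -/

set_option autoImplicit false
set_option Elab.async false

namespace Crest.Agent.R187

theorem cF_1591 : allFrom fF 57 1591 = true := by decide +kernel
theorem cF_1648 : allFrom fF 106 1648 = true := by decide +kernel
theorem cF_1754 : allFrom fF 68 1754 = true := by decide +kernel
theorem cF_1822 : allFrom fF 25 1822 = true := by decide +kernel
theorem cF_1847 : allFrom fF 37 1847 = true := by decide +kernel
theorem cF_1884 : allFrom fF 30 1884 = true := by decide +kernel
theorem cF_1914 : allFrom fF 56 1914 = true := by decide +kernel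
theorem cF_1970 : allFrom fF 103 1970 = true := by decide +kernel

end Crest.Agent.R187
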