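import Crest.Agent.R187.ChkD0

/-! Kernel evaluation of a part of the checks. -/

set_option autoImplicit false
set_option Elab.async false

namespace Crest.Agent.R187

theorem cF_3409 : allFrom fF 24 3409 = true := by decide +kernel
theorem cF_3433 : allFrom fF 37 3433 = true := by decide +kernel
theorem cF_3470 : allFrom fF 42 3470 = true := by decide +kernel
theorem cF_3512 : allFrom fF 88 3512 = true := by decide +kernel
theorem cF_3600 : allFrom fF 11 3600 = true := by decide +kernel
theorem cF_3611 : allFrom fF 15 3611 = true := by decide +kernel
theorem cF_3626 : allFrom fF 17 3626 = true := by decide +kernel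
theorem cF_3643 : allFrom fF 20 3643 = true := by decide +kernel

end Crest.Agent.R187
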