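import Crest.Agent.R187.ChkD1

/-! Kernel evaluation of a part of the checks. -/

set_option autoImplicit false
set_option Elab.async false

namespace Crest.Agent.R187

theorem cM_83 : allFrom fM 11 83 = true := by decide +kernel
theorem cM_94 : allFrom fM 10 94 = true := by decide +kernel
theorem cM_104 : allFrom fM 8 104 = true := by decide +kernel
theorem cM_112 : allFrom fM 9 112 = true := by decide +kernel
theorem cM_121 : allFrom fM 8 121 = true := by decide +kernel
theorem cM_129 : allFrom fM 7 129 = true := by decide +kernel
theorem cM_136 : allFrom fM 8 136 = true := by decide +kernel

end Crest.Agent.R187
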