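import Crest.Agent.R187.ChkD2

/-! Kernel evaluation of a part of the checks. -/

set_option autoImplicit false
set_option Elab.async false

namespace Crest.Agent.R187

theorem cT_469 : allFrom fT 27 469 = true := by decide +kernel
theorem cT_496 : allFrom fT 28 496 = true := by decide +kernel
theorem cT_524 : allFrom fT 16 524 = true := by decide +kernel
theorem cD_0 : allFrom fD 1 0 = true := by decide +kernel
theorem cD_1 : allFrom fD 1 1 = true := by decide +kernel
theorem cD_2 : allFrom fD 1 2 = true := by decide +kernel
theorem cD_3 : allFrom fD 3 3 = true := by decide +kernel
theorem cD_6 : allFrom fD 11 6 = true := by decide +kernel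
theorem cD_17 : allFrom fD 28 17 = true := by decide +kernel

end Crest.Agent.R187
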