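import Crest.Agent.R187.Runs

/-! Kernel evaluation of a part of the checks. -/

set_option autoImplicit false
set_option Elab.async false

namespace Crest.Agent.R187

theorem cF_2073 : allFrom fF 44 2073 = true := by decide +kernel
theorem cF_2117 : allFrom fF 25 2117 = true := by decide +kernel
theorem cF_2142 : allFrom fF 25 2142 = true := by decide +kernel
theorem cF_2167 : allFrom fF 27 2167 = true := by decide +kernel
theorem cF_2194 : allFrom fF 37 2194 = true := by decide +kernel
theorem cF_2231 : allFrom fF 44 2231 = true := by decide +kernel
theorem cF_2275 : allFrom fF 99 2275 = true := by decide +kernel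
theorem cF_2374 : allFrom fF 40 2374 = true := by decide +kernel

end Crest.Agent.R187
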