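import Crest.Agent.R187.ChkE0

/-! Kernel evaluation of a part of the checks. -/

set_option autoImplicit false
set_option Elab.async false

namespace Crest.Agent.R187

theorem cF_3663 : allFrom fF 14 3663 = true := by decide +kernel
theorem cF_3677 : allFrom fF 28 3677 = true := by decide +kernel
theorem cF_3705 : allFrom fF 23 3705 = true := by decide +kernel
theorem cF_3728 : allFrom fF 24 3728 = true := by decide +kernel
theorem cF_3752 : allFrom fF 39 3752 = true := by decide +kernel
theorem cF_3791 : allFrom fF 61 3791 = true := by decide +kernel
theorem cF_3852 : allFrom fF 53 3852 = true := by decide +kernel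
theorem cF_3905 : allFrom fF 13 3905 = true := by decide +kernel

end Crest.Agent.R187
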