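import Crest.Agent.R187.ChkE1

/-! Kernel evaluation of a part of the checks. -/

set_option autoImplicit false
set_option Elab.async false

namespace Crest.Agent.R187

theorem cM_144 : allFrom fM 7 144 = true := by decide +kernel
theorem cM_151 : allFrom fM 6 151 = true := by decide +kernel
theorem cM_157 : allFrom fM 7 157 = true := by decide +kernel
theorem cM_164 : allFrom fM 6 164 = true := by decide +kernel
theorem cM_170 : allFrom fM 7 170 = true := by decide +kernel
theorem cM_177 : allFrom fM 6 177 = true := by decide +kernel

end Crest.Agent.R187
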