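import Crest.Agent.R187.ChkE2

/-! Kernel evaluation of a part of the checks. -/

set_option autoImplicit false
set_option Elab.async false

namespace Crest.Agent.R187

theorem cD_45 : allFrom fD 4 45 = true := by decide +kernel
theorem cD_49 : allFrom fD 15 49 = true := by decide +kernel
theorem cD_64 : allFrom fD 26 64 = true := by decide +kernel
theorem cD_90 : allFrom fD 9 90 = true := by decide +kernel
theorem cD_99 : allFrom fD 33 99 = true := by decide +kernel
theorem cD_132 : allFrom fD 9 132 = true := by decide +kernel
theorem cD_141 : allFrom fD 38 141 = true := by decide +kernel
theorem cD_179 : allFrom fD 41 179 = true := by decide +kernel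
theorem cD_220 : allFrom fD 27 220 = true := by decide +kernel
theorem cD_247 : allFrom fD 38 247 = true := by decide +kernel

end Crest.Agent.R187
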