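import Crest.Agent.R187.Runs

/-! Kernel evaluation of a part of the checks. -/

set_option autoImplicit false
set_option Elab.async false

namespace Crest.Agent.R187

theorem cF_2414 : allFrom fF 19 2414 = true := by decide +kernel
theorem cF_2433 : allFrom fF 23 2433 = true := by decide +kernel
theorem cF_2456 : allFrom fF 30 2456 = true := by decide +kernel
theorem cF_2486 : allFrom fF 25 2486 = true := by decide +kernel
theorem cF_2511 : allFrom fF 38 2511 = true := by decide +kernel
theorem cF_2549 : allFrom fF 43 2549 = true := by decide +kernel
theorem cF_2592 : allFrom fF 102 2592 = true := by decide +kernel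
theorem cF_2694 : allFrom fF 19 2694 = true := by decide +kernel

end Crest.Agent.R187
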