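import Crest.Agent.R187.ChkF0

/-! Kernel evaluation of a part of the checks. -/

set_option autoImplicit false
set_option Elab.async false

namespace Crest.Agent.R187

theorem cF_3918 : allFrom fF 12 3918 = true := by decide +kernel
theorem cF_3930 : allFrom fF 16 3930 = true := by decide +kernel
theorem cF_3946 : allFrom fF 19 3946 = true := by decide +kernel
theorem cF_3965 : allFrom fF 20 3965 = true := by decide +kernel
theorem cF_3985 : allFrom fF 21 3985 = true := by decide +kernel
theorem cF_4006 : allFrom fF 22 4006 = true := by decide +kernel
theorem cF_4028 : allFrom fF 23 4028 = true := by decide +kernel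
theorem cF_4051 : allFrom fF 38 4051 = true := by decide +kernel

end Crest.Agent.R187
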