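import Crest.Agent.R187.ChkF1

/-! Kernel evaluation of a part of the checks. -/

set_option autoImplicit false
set_option Elab.async false

namespace Crest.Agent.R187

theorem cM_183 : allFrom fM 7 183 = true := by decide +kernel
theorem cM_190 : allFrom fM 5 190 = true := by decide +kernel
theorem cM_195 : allFrom fM 6 195 = true := by decide +kernel
theorem cM_201 : allFrom fM 5 201 = true := by decide +kernel
theorem cM_206 : allFrom fM 6 206 = true := by decide +kernel
theorem cM_212 : allFrom fM 5 212 = true := by decide +kernel
theorem cM_217 : allFrom fM 11 217 = true := by decide +kernel
theorem cN_0 : allFrom fN 47 0 = true := by decide +kernel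

end Crest.Agent.R187
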