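import Crest.Agent.R187.ChkF2

/-! Kernel evaluation of a part of the checks. -/

set_option autoImplicit false
set_option Elab.async false

namespace Crest.Agent.R187

theorem cD_285 : allFrom fD 56 285 = true := by decide +kernel
theorem cD_341 : allFrom fD 58 341 = true := by decide +kernel
theorem cD_399 : allFrom fD 59 399 = true := by decide +kernel
theorem cD_458 : allFrom fD 88 458 = true := by decide +kernel
theorem cD_546 : allFrom fD 114 546 = true := by decide +kernel
theorem cD_660 : allFrom fD 132 660 = true := by decide +kernel
theorem cD_792 : allFrom fD 182 792 = true := by decide +kernel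
theorem cD_974 : allFrom fD 214 974 = true := by decide +kernel
theorem cD_1188 : allFrom fD 220 1188 = true := by decide +kernel
theorem cD_1408 : allFrom fD 132 1408 = true := by decide +kernel
theorem cM6_0 : allFrom fM6 22 0 = true := by decide +kernel
theorem cM6_22 : allFrom fM6 22 22 = true := by decide +kernel
theorem cM6_44 : allFrom fM6 22 44 = true := by decide +kernel

end Crest.Agent.R187
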