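import Crest.Agent.R187.DP
import Crest.Agent.R187.ChkA3
import Crest.Agent.R187.ChkB3
import Crest.Agent.R187.ChkC3
import Crest.Agent.R187.ChkD3
import Crest.Agent.R187.ChkE3
import Crest.Agent.R187.ChkF3

/-! The computational part of the sixth case of Foulkes' conjecture. -/

set_option autoImplicit false

namespace Crest.Agent.R187

theorem allR7 : AllLt fR7 490 := by
  have h : AllLt fR7 0 := AllLt.zero _
  have h : AllLt fR7 200 := h.add cR7_0
  have h : AllLt fR7 400 := h.add cR7_200
  have h : AllLt fR7 490 := h.add cR7_400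
  exact h

theorem allR8 : AllLt fR8 539 := by
  have h : AllLt fR8 0 := AllLt.zero _
  have h : AllLt fR8 200 := h.add cR8_0
  have h : AllLt fR8 389 := h.add cR8_200
  have h : AllLt fR8 523 := h.add cR8_389
  have h : AllLt fR8 539 := h.add cR8_523
  exact h

theorem allR9 : AllLt fR9 210 := by
  have h : AllLt fR9 0 := AllLt.zero _
  have h : AllLt fR9 200 := h.add cR9_0
  have h : AllLt fR9 210 := h.add cR9_200
  exact h

theorem allR10 : AllLt fR10 70 := by
  have h : AllLt fR10 0 := AllLt.zero _
  have h : AllLt fR10 70 := h.add cR10_0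
  exact h

theorem allR11 : AllLt fR11 70 := by
  have h : AllLt fR11 0 := AllLt.zero _
  have h : AllLt fR11 70 := h.add cR11_0
  exact h

theorem allR12 : AllLt fR12 56 := by
  have h : AllLt fR12 0 := AllLt.zero _
  have h : AllLt fR12 56 := h.add cR12_0
  exact h

theorem allR13 : AllLt fR13 56 := by
  have h : AllLt fR13 0 := AllLt.zero _
  have h : AllLt fR13 56 := h.add cR13_0
  exact h

theorem allR14 : AllLt fR14 56 := by
  have h : AllLt fR14 0 := AllLt.zero _
  have h : AllLt fR14 56 := h.add cR14_0
  exact h

theorem allR15 : AllLt fR15 56 := by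
  have h : AllLt fR15 0 := AllLt.zero _
  have h : AllLt fR15 56 := h.add cR15_0
  exact h

theorem allR16 : AllLt fR16 56 := by
  have h : AllLt fR16 0 := AllLt.zero _
  have h : AllLt fR16 56 := h.add cR16_0
  exact h

theorem allR17 : AllLt fR17 56 := by
  have h : AllLt fR17 0 := AllLt.zero _
  have h : AllLt fR17 56 := h.add cR17_0
  exact h

theorem allR18 : AllLt fR18 56 := by
  have h : AllLt fR18 0 := AllLt.zero _
  have h : AllLt fR18 56 := h.add cR18_0
  exact h

theorem allR19 : AllLt fR19 56 := by
  have h : AllLt fR19 0 := AllLt.zero _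
  have h : AllLt fR19 56 := h.add cR19_0
  exact h

theorem allR20 : AllLt fR20 56 := by
  have h : AllLt fR20 0 := AllLt.zero _
  have h : AllLt fR20 56 := h.add cR20_0
  exact h

theorem allR21 : AllLt fR21 56 := by
  have h : AllLt fR21 0 := AllLt.zero _
  have h : AllLt fR21 56 := h.add cR21_0
  exact h

theorem allR22 : AllLt fR22 56 := by
  have h : AllLt fR22 0 := AllLt.zero _
  have h : AllLt fR22 56 := h.add cR22_0
  exact h

theorem allR23 : AllLt fR23 56 := by
  have h : AllLt fR23 0 := AllLt.zero _
  have h : AllLt fR23 56 := h.add cR23_0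
  exact h

theorem allR24 : AllLt fR24 56 := by
  have h : AllLt fR24 0 := AllLt.zero _
  have h : AllLt fR24 56 := h.add cR24_0
  exact h

theorem allR25 : AllLt fR25 56 := by
  have h : AllLt fR25 0 := AllLt.zero _
  have h : AllLt fR25 56 := h.add cR25_0
  exact h

theorem allR26 : AllLt fR26 56 := by
  have h : AllLt fR26 0 := AllLt.zero _
  have h : AllLt fR26 56 := h.add cR26_0
  exact h

theorem allR27 : AllLt fR27 56 := by
  have h : AllLt fR27 0 := AllLt.zero _
  have h : AllLt fR27 56 := h.add cR27_0
  exact h

theorem allR28 : AllLt fR28 56 := by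
  have h : AllLt fR28 0 := AllLt.zero _
  have h : AllLt fR28 56 := h.add cR28_0
  exact h

theorem allR29 : AllLt fR29 56 := by
  have h : AllLt fR29 0 := AllLt.zero _
  have h : AllLt fR29 56 := h.add cR29_0
  exact h

theorem allF : AllLt fF 4800 := by
  have h : AllLt fF 0 := AllLt.zero _
  have h : AllLt fF 200 := h.add cF_0
  have h : AllLt fF 400 := h.add cF_200
  have h : AllLt fF 600 := h.add cF_400
  have h : AllLt fF 800 := h.add cF_600
  have h : AllLt fF 966 := h.add cF_800
  have h : AllLt fF 1135 := h.add cF_966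
  have h : AllLt fF 1238 := h.add cF_1135
  have h : AllLt fF 1291 := h.add cF_1238
  have h : AllLt fF 1389 := h.add cF_1291
  have h : AllLt fF 1517 := h.add cF_1389
  have h : AllLt fF 1550 := h.add cF_1517
  have h : AllLt fF 1591 := h.add cF_1550
  have h : AllLt fF 1648 := h.add cF_1591
  have h : AllLt fF 1754 := h.add cF_1648
  have h : AllLt fF 1822 := h.add cF_1754
  have h : AllLt fF 1847 := h.add cF_1822
  have h : AllLt fF 1884 := h.add cF_1847
  have h : AllLt fF 1914 := h.add cF_1884
  have h : AllLt fF 1970 := h.add cF_1914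
  have h : AllLt fF 2073 := h.add cF_1970
  have h : AllLt fF 2117 := h.add cF_2073
  have h : AllLt fF 2142 := h.add cF_2117
  have h : AllLt fF 2167 := h.add cF_2142
  have h : AllLt fF 2194 := h.add cF_2167
  have h : AllLt fF 2231 := h.add cF_2194
  have h : AllLt fF 2275 := h.add cF_2231
  have h : AllLt fF 2374 := h.add cF_2275
  have h : AllLt fF 2414 := h.add cF_2374
  have h : AllLt fF 2433 := h.add cF_2414
  have h : AllLt fF 2456 := h.add cF_2433
  have h : AllLt fF 2486 := h.add cF_2456
  have h : AllLt fF 2511 := h.add cF_2486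
  have h : AllLt fF 2549 := h.add cF_2511
  have h : AllLt fF 2592 := h.add cF_2549
  have h : AllLt fF 2694 := h.add cF_2592
  have h : AllLt fF 2713 := h.add cF_2694
  have h : AllLt fF 2730 := h.add cF_2713
  have h : AllLt fF 2750 := h.add cF_2730
  have h : AllLt fF 2773 := h.add cF_2750
  have h : AllLt fF 2805 := h.add cF_2773
  have h : AllLt fF 2830 := h.add cF_2805
  have h : AllLt fF 2869 := h.add cF_2830
  have h : AllLt fF 2913 := h.add cF_2869
  have h : AllLt fF 3003 := h.add cF_2913
  have h : AllLt fF 3019 := h.add cF_3003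
  have h : AllLt fF 3034 := h.add cF_3019
  have h : AllLt fF 3053 := h.add cF_3034
  have h : AllLt fF 3075 := h.add cF_3053
  have h : AllLt fF 3105 := h.add cF_3075
  have h : AllLt fF 3129 := h.add cF_3105
  have h : AllLt fF 3156 := h.add cF_3129
  have h : AllLt fF 3210 := h.add cF_3156
  have h : AllLt fF 3300 := h.add cF_3210
  have h : AllLt fF 3312 := h.add cF_3300
  have h : AllLt fF 3328 := h.add cF_3312
  have h : AllLt fF 3346 := h.add cF_3328
  have h : AllLt fF 3366 := h.add cF_3346
  have h : AllLt fF 3387 := h.add cF_3366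
  have h : AllLt fF 3409 := h.add cF_3387
  have h : AllLt fF 3433 := h.add cF_3409
  have h : AllLt fF 3470 := h.add cF_3433
  have h : AllLt fF 3512 := h.add cF_3470
  have h : AllLt fF 3600 := h.add cF_3512
  have h : AllLt fF 3611 := h.add cF_3600
  have h : AllLt fF 3626 := h.add cF_3611
  have h : AllLt fF 3643 := h.add cF_3626
  have h : AllLt fF 3663 := h.add cF_3643
  have h : AllLt fF 3677 := h.add cF_3663
  have h : AllLt fF 3705 := h.add cF_3677
  have h : AllLt fF 3728 := h.add cF_3705
  have h : AllLt fF 3752 := h.add cF_3728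
  have h : AllLt fF 3791 := h.add cF_3752
  have h : AllLt fF 3852 := h.add cF_3791
  have h : AllLt fF 3905 := h.add cF_3852
  have h : AllLt fF 3918 := h.add cF_3905
  have h : AllLt fF 3930 := h.add cF_3918
  have h : AllLt fF 3946 := h.add cF_3930
  have h : AllLt fF 3965 := h.add cF_3946
  have h : AllLt fF 3985 := h.add cF_3965
  have h : AllLt fF 4006 := h.add cF_3985
  have h : AllLt fF 4028 := h.add cF_4006
  have h : AllLt fF 4051 := h.add cF_4028
  have h : AllLt fF 4089 := h.add cF_4051
  have h : AllLt fF 4132 := h.add cF_4089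
  have h : AllLt fF 4202 := h.add cF_4132
  have h : AllLt fF 4213 := h.add cF_4202
  have h : AllLt fF 4227 := h.add cF_4213
  have h : AllLt fF 4243 := h.add cF_4227
  have h : AllLt fF 4256 := h.add cF_4243
  have h : AllLt fF 4274 := h.add cF_4256
  have h : AllLt fF 4293 := h.add cF_4274
  have h : AllLt fF 4313 := h.add cF_4293
  have h : AllLt fF 4335 := h.add cF_4313
  have h : AllLt fF 4370 := h.add cF_4335
  have h : AllLt fF 4410 := h.add cF_4370
  have h : AllLt fF 4473 := h.add cF_4410
  have h : AllLt fF 4507 := h.add cF_4473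
  have h : AllLt fF 4521 := h.add cF_4507
  have h : AllLt fF 4531 := h.add cF_4521
  have h : AllLt fF 4548 := h.add cF_4531
  have h : AllLt fF 4572 := h.add cF_4548
  have h : AllLt fF 4608 := h.add cF_4572
  have h : AllLt fF 4800 := h.add cF_4608
  exact h

theorem allM : AllLt fM 228 := by
  have h : AllLt fM 0 := AllLt.zero _
  have h : AllLt fM 53 := h.add cM_0
  have h : AllLt fM 70 := h.add cM_53
  have h : AllLt fM 83 := h.add cM_70
  have h : AllLt fM 94 := h.add cM_83
  have h : AllLt fM 104 := h.add cM_94
  have h : AllLt fM 112 := h.add cM_104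
  have h : AllLt fM 121 := h.add cM_112
  have h : AllLt fM 129 := h.add cM_121
  have h : AllLt fM 136 := h.add cM_129
  have h : AllLt fM 144 := h.add cM_136
  have h : AllLt fM 151 := h.add cM_144
  have h : AllLt fM 157 := h.add cM_151
  have h : AllLt fM 164 := h.add cM_157
  have h : AllLt fM 170 := h.add cM_164
  have h : AllLt fM 177 := h.add cM_170
  have h : AllLt fM 183 := h.add cM_177
  have h : AllLt fM 190 := h.add cM_183
  have h : AllLt fM 195 := h.add cM_190
  have h : AllLt fM 201 := h.add cM_195
  have h : AllLt fM 206 := h.add cM_201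
  have h : AllLt fM 212 := h.add cM_206
  have h : AllLt fM 217 := h.add cM_212
  have h : AllLt fM 228 := h.add cM_217
  exact h

theorem allN : AllLt fN 192 := by
  have h : AllLt fN 0 := AllLt.zero _
  have h : AllLt fN 47 := h.add cN_0
  have h : AllLt fN 69 := h.add cN_47
  have h : AllLt fN 86 := h.add cN_69
  have h : AllLt fN 101 := h.add cN_86
  have h : AllLt fN 113 := h.add cN_101
  have h : AllLt fN 126 := h.add cN_113
  have h : AllLt fN 137 := h.add cN_126
  have h : AllLt fN 149 := h.add cN_137
  have h : AllLt fN 159 := h.add cN_149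
  have h : AllLt fN 170 := h.add cN_159
  have h : AllLt fN 192 := h.add cN_170
  exact h

theorem allT : AllLt fT 540 := by
  have h : AllLt fT 0 := AllLt.zero _
  have h : AllLt fT 117 := h.add cT_0
  have h : AllLt fT 177 := h.add cT_117
  have h : AllLt fT 224 := h.add cT_177
  have h : AllLt fT 269 := h.add cT_224
  have h : AllLt fT 307 := h.add cT_269
  have h : AllLt fT 343 := h.add cT_307
  have h : AllLt fT 378 := h.add cT_343
  have h : AllLt fT 410 := h.add cT_378
  have h : AllLt fT 440 := h.add cT_410
  have h : AllLt fT 469 := h.add cT_440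
  have h : AllLt fT 496 := h.add cT_469
  have h : AllLt fT 524 := h.add cT_496
  have h : AllLt fT 540 := h.add cT_524
  exact h

theorem allD : AllLt fD 1540 := by
  have h : AllLt fD 0 := AllLt.zero _
  have h : AllLt fD 1 := h.add cD_0
  have h : AllLt fD 2 := h.add cD_1
  have h : AllLt fD 3 := h.add cD_2
  have h : AllLt fD 6 := h.add cD_3
  have h : AllLt fD 17 := h.add cD_6
  have h : AllLt fD 45 := h.add cD_17
  have h : AllLt fD 49 := h.add cD_45
  have h : AllLt fD 64 := h.add cD_49
  have h : AllLt fD 90 := h.add cD_64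
  have h : AllLt fD 99 := h.add cD_90
  have h : AllLt fD 132 := h.add cD_99
  have h : AllLt fD 141 := h.add cD_132
  have h : AllLt fD 179 := h.add cD_141
  have h : AllLt fD 220 := h.add cD_179
  have h : AllLt fD 247 := h.add cD_220
  have h : AllLt fD 285 := h.add cD_247
  have h : AllLt fD 341 := h.add cD_285
  have h : AllLt fD 399 := h.add cD_341
  have h : AllLt fD 458 := h.add cD_399
  have h : AllLt fD 546 := h.add cD_458
  have h : AllLt fD 660 := h.add cD_546
  have h : AllLt fD 792 := h.add cD_660
  have h : AllLt fD 974 := h.add cD_792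
  have h : AllLt fD 1188 := h.add cD_974
  have h : AllLt fD 1408 := h.add cD_1188
  have h : AllLt fD 1540 := h.add cD_1408
  exact h

theorem allM6 : AllLt fM6 66 := by
  have h : AllLt fM6 0 := AllLt.zero _
  have h : AllLt fM6 22 := h.add cM6_0
  have h : AllLt fM6 44 := h.add cM6_22
  have h : AllLt fM6 66 := h.add cM6_44
  exact h

theorem goodR7 : Good rR7 7 :=
  good_of (run_sound (σ := 48) (by decide +kernel) allR7) (by decide)

theorem goodR8 : Good rR8 8 :=
  good_of (run_sound (σ := 54) (by decide +kernel) allR8) (by decide)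

theorem goodR9 : Good rR9 9 :=
  good_of (run_sound (σ := 60) (by decide +kernel) allR9) (by decide)

theorem goodR10 : Good rR10 10 :=
  good_of (run_sound (σ := 66) (by decide +kernel) allR10) (by decide)

theorem goodR11 : Good rR11 11 :=
  good_of (run_sound (σ := 72) (by decide +kernel) allR11) (by decide)

theorem goodR12 : Good rR12 12 :=
  good_of (run_sound (σ := 78) (by decide +kernel) allR12) (by decide)

theorem goodR13 : Good rR13 13 :=
  good_of (run_sound (σ := 84) (by decide +kernel) allR13) (by decide)

theorem goodR14 : Good rR14 14 :=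
  good_of (run_sound (σ := 90) (by decide +kernel) allR14) (by decide)

theorem goodR15 : Good rR15 15 :=
  good_of (run_sound (σ := 96) (by decide +kernel) allR15) (by decide)

theorem goodR16 : Good rR16 16 :=
  good_of (run_sound (σ := 102) (by decide +kernel) allR16) (by decide)

theorem goodR17 : Good rR17 17 :=
  good_of (run_sound (σ := 108) (by decide +kernel) allR17) (by decide)

theorem goodR18 : Good rR18 18 :=
  good_of (run_sound (σ := 114) (by decide +kernel) allR18) (by decide)

theorem goodR19 : Good rR19 19 :=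
  good_of (run_sound (σ := 120) (by decide +kernel) allR19) (by decide)

theorem goodR20 : Good rR20 20 :=
  good_of (run_sound (σ := 126) (by decide +kernel) allR20) (by decide)

theorem goodR21 : Good rR21 21 :=
  good_of (run_sound (σ := 132) (by decide +kernel) allR21) (by decide)

theorem goodR22 : Good rR22 22 :=
  good_of (run_sound (σ := 138) (by decide +kernel) allR22) (by decide)

theorem goodR23 : Good rR23 23 :=
  good_of (run_sound (σ := 144) (by decide +kernel) allR23) (by decide)

theorem goodR24 : Good rR24 24 :=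
  good_of (run_sound (σ := 150) (by decide +kernel) allR24) (by decide)

theorem goodR25 : Good rR25 25 :=
  good_of (run_sound (σ := 156) (by decide +kernel) allR25) (by decide)

theorem goodR26 : Good rR26 26 :=
  good_of (run_sound (σ := 162) (by decide +kernel) allR26) (by decide)

theorem goodR27 : Good rR27 27 :=
  good_of (run_sound (σ := 168) (by decide +kernel) allR27) (by decide)

theorem goodR28 : Good rR28 28 :=
  good_of (run_sound (σ := 174) (by decide +kernel) allR28) (by decide)

theorem goodR29 : Good rR29 29 :=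
  good_of (run_sound (σ := 180) (by decide +kernel) allR29) (by decide)

theorem goodF : Good rF 6 :=
  good_of (run_sound (σ := 96) (by decide +kernel) allF) (by decide)

theorem goodM : Good rM 6 :=
  good_of (run_sound (σ := 114) (by decide +kernel) allM) (by decide)

theorem goodN : Good rN 6 :=
  good_of (run_sound (σ := 144) (by decide +kernel) allN) (by decide)

theorem goodT : Good rT 6 :=
  good_of (run_sound (σ := 180) (by decide +kernel) allT) (by decide)

theorem goodS : ∀ k, Good (nth runsS RunD.nil k) 6
  | 0 => good_nil _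
  | 1 => goodF
  | 2 => goodM
  | 3 => goodN
  | 4 => goodT
  | _ + 5 => good_nil _

theorem goodR : ∀ b, Good (nth runsR RunD.nil b) b
  | 0 => good_nil _
  | 1 => good_nil _
  | 2 => good_nil _
  | 3 => good_nil _
  | 4 => good_nil _
  | 5 => good_nil _
  | 6 => good_nil _
  | 7 => goodR7
  | 8 => goodR8
  | 9 => goodR9
  | 10 => goodR10
  | 11 => goodR11
  | 12 => goodR12
  | 13 => goodR13
  | 14 => goodR14
  | 15 => goodR15
  | 16 => goodR16
  | 17 => goodR17
  | 18 => goodR18
  | 19 => goodR19
  | 20 => goodR20
  | 21 => goodR21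
  | 22 => goodR22
  | 23 => goodR23
  | 24 => goodR24
  | 25 => goodR25
  | 26 => goodR26
  | 27 => goodR27
  | 28 => goodR28
  | 29 => goodR29
  | _ + 30 => good_nil _

theorem allU : AllLt (fun c => allFrom uChk 160 (Nat.mul 160 c)) 11 :=
  (AllLt.zero _).add (cnt := 11) (by decide +kernel)

theorem one_pos' : 0 < mu 1 6 (lam (1 * 6) 0 0 0 0 0) := by
  have h1 : Nat.blt 3 (rR rF 1 0 0 0) = true := by decide +kernel
  have h2 : Nat.blt 0 (muAt rF 1 0 0 0 0 0) = true := by decide +kernel
  rw [Nat.blt_eq] at h1 h2
  rw [goodF.2 1 0 0 0 0 0 h1 (by norm_num)] at h2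
  omega

theorem mu_le_mu {b : ℕ} (h7 : 7 ≤ b) (h29 : b ≤ 29) (l : Fin 6 → ℕ) (hl : Antitone l) :
    mu 6 b l ≤ mu b 6 l := by
  by_cases hs : ∑ i, l i = 6 * b
  · exact dp_sound goodS goodR one_pos' (genOK_of goodF gensL (by decide +kernel))
      (msok_of (uok_of allU) allM6) allD h7 h29 l hl hs
  · rw [mu_eq_zero 6 b l hs]
    exact mu_nonneg _ _ _ hl

end Crest.Agent.R187
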