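import Crest.Agent.R187.Defs

/-! Surjectivity of the Foulkes-Howe map for `b ≥ a (a - 1)` (statement S0287).

Blocks are indexed by `Fin a`; everything is proved for a finset `s` of blocks inside the fixed
ring `A = MvPolynomial (Var a n) ℂ`, by induction on `s`. -/

set_option autoImplicit false

open MvPolynomial Crest.AlgebraR.FoulkesHowe

namespace Crest.Agent.R187

variable {a n : ℕ}

/-- the linear form `l_i(y) = ∑_k y_k x_{ik}` of block `i` -/
noncomputable def lin (i : Fin a) (y : Fin n → ℂ) : MvPolynomial (Var a n) ℂ :=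
  ∑ k, y k • X (i, k)

/-- `F_s(y) = ∏_{i ∈ s} l_i(y)` -/
noncomputable def FF (s : Finset (Fin a)) (y : Fin n → ℂ) : MvPolynomial (Var a n) ℂ :=
  ∏ i ∈ s, lin i y

/-- forms of degree `k` in block `i` -/
noncomputable def mm (n : ℕ) (i : Fin a) (k : ℕ) : Submodule ℂ (MvPolynomial (Var a n) ℂ) :=
  Submodule.span ℂ (Set.range fun y => lin i y ^ k)

/-- span of the `N`-th powers `F_s(y)^N` -/
noncomputable def cF (n : ℕ) (s : Finset (Fin a)) (N : ℕ) :
    Submodule ℂ (MvPolynomial (Var a n) ℂ) :=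
  Submodule.span ℂ (Set.range fun y => FF s y ^ N)

/-- forms of degree `b` in each block of `s` -/
noncomputable def BB (n : ℕ) (s : Finset (Fin a)) (b : ℕ) :
    Submodule ℂ (MvPolynomial (Var a n) ℂ) :=
  ∏ i ∈ s, mm n i b

/-- invariance under the permutations of the blocks of `s` -/
def Inv (s : Finset (Fin a)) (f : MvPolynomial (Var a n) ℂ) : Prop :=
  ∀ σ : Equiv.Perm (Fin a), (∀ j ∉ s, σ j = j) → rename (blockPerm σ) f = f

/-- if all values of a polynomial at complex points lie in `W`, so do its coefficients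
(pass to the quotient / apply linear functionals vanishing on `W`) -/
theorem coeff_mem_of_eval_mem {A : Type*} [CommRing A] [Algebra ℂ A] (W : Submodule ℂ A)
    (p : Polynomial A) (h : ∀ t : ℂ, p.eval (algebraMap ℂ A t) ∈ W) (i : ℕ) : p.coeff i ∈ W := by
  rw [← Subspace.forall_mem_dualAnnihilator_apply_eq_zero_iff]
  intro φ hφ
  rw [Submodule.mem_dualAnnihilator] at hφ
  have hq : ∑ j ∈ Finset.range (p.natDegree + 1), Polynomial.monomial j (φ (p.coeff j)) = 0 := by
    refine Polynomial.zero_of_eval_zero _ fun t => ?_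
    rw [← hφ _ (h t), Polynomial.eval_finsetSum, Polynomial.eval_eq_sum_range (p := p), map_sum]
    refine Finset.sum_congr rfl fun j _ => ?_
    rw [Polynomial.eval_monomial, ← map_pow, mul_comm (p.coeff j), ← Algebra.smul_def, map_smul,
      smul_eq_mul, mul_comm]
  by_cases hi : i ≤ p.natDegree
  · have := congrArg (Polynomial.coeff · i) hq
    simpa [Polynomial.finsetSum_coeff, Polynomial.coeff_monomial, Nat.lt_succ_iff, hi] using this
  · rw [Polynomial.coeff_eq_zero_of_natDegree_lt (not_le.1 hi), map_zero]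

theorem dm_expand {A : Type*} [CommRing A] (u v : A) (N : ℕ) :
    (Polynomial.C u + Polynomial.C v * Polynomial.X) ^ N = ∑ m ∈ Finset.range (N + 1),
      Polynomial.C ((N.choose m : A) * (u ^ m * v ^ (N - m))) * Polynomial.X ^ (N - m) := by
  rw [add_pow]
  refine Finset.sum_congr rfl fun m _ => ?_
  simp only [map_mul, map_pow, map_natCast, mul_pow]
  ring

theorem dm_coeff {A : Type*} [CommRing A] (u v : A) (N e : ℕ) (γ : Polynomial A) :
    ((Polynomial.C u + Polynomial.C v * Polynomial.X) ^ N * γ).coeff (e + N) =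
      ∑ m ∈ Finset.range (N + 1), (N.choose m : A) * (u ^ m * v ^ (N - m)) * γ.coeff (e + m) := by
  rw [dm_expand, Finset.sum_mul, Polynomial.finsetSum_coeff]
  refine Finset.sum_congr rfl fun m hm => ?_
  have hm' : m ≤ N := Nat.lt_succ_iff.1 (Finset.mem_range.1 hm)
  rw [mul_assoc, Polynomial.coeff_C_mul, show e + N = e + m + (N - m) by omega,
    Polynomial.coeff_X_pow_mul]

theorem dm_pow_mem {A : Type*} [CommRing A] [Algebra ℂ A] (M : ℕ → Submodule ℂ A) (u : A)
    (hu : ∀ k, ∀ x ∈ M k, u * x ∈ M (k + 1)) (m k : ℕ) {x : A} (hx : x ∈ M k) :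
    u ^ m * x ∈ M (k + m) := by
  induction m with
  | zero => simpa using hx
  | succ m ih => rw [pow_succ', mul_assoc]; exact hu _ _ ih

theorem dm_natCast_mul_mem {A : Type*} [CommRing A] [Algebra ℂ A] {W : Submodule ℂ A} (m : ℕ)
    {x : A} (hx : x ∈ W) : (m : A) * x ∈ W := by
  rw [← nsmul_eq_mul]; exact W.nsmul_mem hx m

theorem dm_mem_of_natCast_mul {A : Type*} [CommRing A] [Algebra ℂ A] {W : Submodule ℂ A} {m : ℕ}
    (hm : m ≠ 0) {x : A} (hx : (m : A) * x ∈ W) : x ∈ W := by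
  rw [← nsmul_eq_mul, ← Nat.cast_smul_eq_nsmul ℂ] at hx
  exact (W.smul_mem_iff (Nat.cast_ne_zero.2 hm)).1 hx

/-- Dedekind-Mertens.  Strong induction on `i ≤ d`: `v ^ (N + i) * γ.coeff (d - i) ∈ M i`, read off
from the coefficient of `t ^ (d + N - i)` of `(u + v t) ^ N * γ` multiplied by `v ^ i`. -/
theorem dedekind_mertens {A : Type*} [CommRing A] [Algebra ℂ A] (M : ℕ → Submodule ℂ A) (u v : A)
    (hu : ∀ k, ∀ x ∈ M k, u * x ∈ M (k + 1)) (hv : ∀ k, ∀ x ∈ M k, v * x ∈ M (k + 1))
    (γ : Polynomial A) (d N : ℕ) (hd : γ.natDegree ≤ d)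
    (h : ∀ i, ((Polynomial.C u + Polynomial.C v * Polynomial.X) ^ N * γ).coeff i ∈ M 0) :
    v ^ (N + d) * γ.coeff 0 ∈ M d := by
  have key : ∀ i e, e + i = d → v ^ (N + i) * γ.coeff e ∈ M i := by
    intro i
    induction i using Nat.strong_induction_on with
    | _ i ih =>
      intro e he
      have h1 := dm_pow_mem M v hv i 0 (h (e + N))
      rw [zero_add, dm_coeff, Finset.sum_range_succ', mul_add, Finset.mul_sum] at h1
      have h2 : ∑ m ∈ Finset.range N, v ^ i * ((N.choose (m + 1) : A) *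
          (u ^ (m + 1) * v ^ (N - (m + 1))) * γ.coeff (e + (m + 1))) ∈ M i := by
        refine Submodule.sum_mem _ fun m hm => ?_
        have hm' := Finset.mem_range.1 hm
        by_cases hmi : m + 1 ≤ i
        · have h3 := dm_natCast_mul_mem (N.choose (m + 1)) (dm_pow_mem M u hu (m + 1) _
            (ih (i - (m + 1)) (by omega) (e + (m + 1)) (by omega)))
          rw [show i - (m + 1) + (m + 1) = i by omega,
            show N + (i - (m + 1)) = i + (N - (m + 1)) by omega] at h3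
          convert h3 using 1
          ring
        · rw [Polynomial.coeff_eq_zero_of_natDegree_lt (by omega)]
          simp
      convert (M i).sub_mem h1 h2 using 1
      simp only [Nat.choose_zero_right, Nat.cast_one, pow_zero, Nat.sub_zero, add_zero]
      ring
  exact key d 0 (zero_add d)

theorem dm_lin_add (i : Fin a) (y z : Fin n → ℂ) (t : ℂ) :
    lin i (y + t • z) = lin i y + lin i z * algebraMap ℂ _ t := by
  rw [mul_comm, ← Algebra.smul_def]
  simp only [lin, Pi.add_apply, Pi.smul_apply, smul_eq_mul, add_smul, mul_smul,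
    Finset.sum_add_distrib, Finset.smul_sum]

theorem dm_pow_mem_mm (i : Fin a) (y : Fin n → ℂ) (k : ℕ) : lin i y ^ k ∈ mm n i k :=
  Submodule.subset_span ⟨y, rfl⟩

theorem dm_pow_mem_cF (s : Finset (Fin a)) (y : Fin n → ℂ) (k : ℕ) : FF s y ^ k ∈ cF n s k :=
  Submodule.subset_span ⟨y, rfl⟩

theorem dm_one_mem_mm (i : Fin a) : 1 ∈ mm n i 0 := by simpa using dm_pow_mem_mm i 0 0

theorem dm_FF_mem (s : Finset (Fin a)) (y : Fin n → ℂ) : FF s y ∈ cF n s 1 := by
  simpa using dm_pow_mem_cF s y 1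

/-- polarisation: `l(y)^k l(z)^k'` is a coefficient of `l(y + t z)^(k+k')` up to a binomial -/
theorem mm_mul_le (i : Fin a) (k k' : ℕ) : mm n i k * mm n i k' ≤ mm n i (k + k') := by
  rw [mm, mm, Submodule.span_mul_span, Submodule.span_le]
  rintro _ ⟨_, ⟨y, rfl⟩, _, ⟨z, rfl⟩, rfl⟩
  have h := coeff_mem_of_eval_mem (mm n i (k + k'))
    ((Polynomial.C (lin i y) + Polynomial.C (lin i z) * Polynomial.X) ^ (k + k'))
    (fun t => by simpa [dm_lin_add] using dm_pow_mem_mm i (y + t • z) (k + k')) k'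
  rw [dm_expand, Polynomial.finsetSum_coeff, Finset.sum_eq_single k] at h
  · rw [Nat.add_sub_cancel_left, Polynomial.coeff_C_mul_X_pow, if_pos rfl] at h
    exact dm_mem_of_natCast_mul (Nat.choose_pos (Nat.le_add_right k k')).ne' h
  · intro m hm hmk
    have := Finset.mem_range.1 hm
    rw [Polynomial.coeff_C_mul_X_pow, if_neg (by omega)]
  · intro h
    exact absurd (Finset.mem_range.2 (by omega)) h

/-- the polynomial `t ↦ F_s(y + t z)` -/
noncomputable def dmG (s : Finset (Fin a)) (y z : Fin n → ℂ) :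
    Polynomial (MvPolynomial (Var a n) ℂ) :=
  ∏ j ∈ s, (Polynomial.C (lin j y) + Polynomial.C (lin j z) * Polynomial.X)

theorem dmG_eval (s : Finset (Fin a)) (y z : Fin n → ℂ) (t : ℂ) :
    (dmG s y z).eval (algebraMap ℂ _ t) = FF s (y + t • z) := by
  simp only [dmG, FF, Polynomial.eval_prod, dm_lin_add, Polynomial.eval_add, Polynomial.eval_mul,
    Polynomial.eval_C, Polynomial.eval_X]

theorem dmG_natDegree (s : Finset (Fin a)) (y z : Fin n → ℂ) : (dmG s y z).natDegree ≤ s.card := by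
  refine (Polynomial.natDegree_prod_le _ _).trans ?_
  rw [Finset.card_eq_sum_ones]
  refine Finset.sum_le_sum fun j _ => ?_
  rw [add_comm]
  exact Polynomial.natDegree_linear_le

/-- apply `dedekind_mertens` to `γ(t) = F_s(y + t z)^N` (degree `≤ |s| N`), `u = l_i y`,
`v = l_i z`, `M j = cF (insert i s) N * mm i j` -/
theorem cF_mul_mm_le {s : Finset (Fin a)} {i : Fin a} (hi : i ∉ s) (N k : ℕ)
    (hk : s.card * N ≤ k) : cF n s N * mm n i (k + N) ≤ cF n (insert i s) N * mm n i k := by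
  rw [cF, mm, Submodule.span_mul_span, Submodule.span_le]
  rintro _ ⟨_, ⟨y, rfl⟩, _, ⟨z, rfl⟩, rfl⟩
  have hl : ∀ w k, ∀ x ∈ cF n (insert i s) N * mm n i k,
      lin i w * x ∈ cF n (insert i s) N * mm n i (k + 1) := by
    intro w k x hx
    have h1 : cF n (insert i s) N * mm n i k * mm n i 1 ≤ cF n (insert i s) N * mm n i (k + 1) := by
      rw [mul_assoc]
      gcongr
      exact mm_mul_le i k 1
    rw [mul_comm (lin i w)]
    exact h1 (Submodule.mul_mem_mul hx (by simpa using dm_pow_mem_mm i w 1))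
  have h := dedekind_mertens (fun j => cF n (insert i s) N * mm n i j) (lin i y) (lin i z)
    (hl y) (hl z) (dmG s y z ^ N) k N
    (Polynomial.natDegree_pow_le.trans (by
      rw [mul_comm]; exact (Nat.mul_le_mul_right N (dmG_natDegree s y z)).trans hk))
    (coeff_mem_of_eval_mem _ _ fun t => by
      rw [← mul_pow, dmG, ← Finset.prod_insert (f := fun j =>
        Polynomial.C (lin j y) + Polynomial.C (lin j z) * Polynomial.X) hi, ← dmG,
        Polynomial.eval_pow, dmG_eval]
      simpa using Submodule.mul_mem_mul (dm_pow_mem_cF (insert i s) (y + t • z) N)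
        (dm_one_mem_mm i))
  have e := dmG_eval s y z 0
  rw [map_zero, zero_smul, add_zero] at e
  rw [Polynomial.coeff_zero_eq_eval_zero, Polynomial.eval_pow, e, add_comm,
    mul_comm (lin i z ^ _)] at h
  exact h

/-- Step 2: induction on `s` with `cF_mul_mm_le` -/
theorem BB_le_cF_mul (s : Finset (Fin a)) (N k : ℕ) (hk : (s.card - 1) * N ≤ k) :
    BB n s (k + N) ≤ cF n s N * BB n s k := by
  induction s using Finset.induction_on with
  | empty =>
    simp only [BB, Finset.prod_empty, mul_one, Submodule.one_le]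
    simpa [FF] using dm_pow_mem_cF (n := n) (∅ : Finset (Fin a)) 0 N
  | insert i s hi ih =>
    rw [Finset.card_insert_of_notMem hi, Nat.add_sub_cancel] at hk
    have h1 := ih ((Nat.mul_le_mul_right N (Nat.sub_le _ _)).trans hk)
    have h2 := cF_mul_mm_le (n := n) hi N k hk
    unfold BB at h1 ⊢
    rw [Finset.prod_insert hi, Finset.prod_insert hi]
    calc mm n i (k + N) * ∏ j ∈ s, mm n j (k + N)
        ≤ mm n i (k + N) * (cF n s N * ∏ j ∈ s, mm n j k) := by gcongr
      _ = cF n s N * mm n i (k + N) * ∏ j ∈ s, mm n j k := by ring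
      _ ≤ cF n (insert i s) N * mm n i k * ∏ j ∈ s, mm n j k := by gcongr
      _ = _ := mul_assoc _ _ _

theorem dm_lin_mul_FF {s : Finset (Fin a)} {i : Fin a} (hi : i ∈ s) (y : Fin n → ℂ) :
    lin i y * FF (s.erase i) y = FF s y := Finset.mul_prod_erase s (fun j => lin j y) hi

theorem dm_prod_FF (s : Finset (Fin a)) (y : Fin n → ℂ) {T : Finset (Fin a)} (hT : T.Nonempty)
    (hTs : T ⊆ s) : ∏ i ∈ T, FF (s.erase i) y = FF s y ^ (T.card - 1) * FF (s \ T) y := by
  induction hT using Finset.Nonempty.cons_induction with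
  | singleton i => simp [Finset.sdiff_singleton_eq_erase]
  | cons j T hj hT ih =>
    rw [Finset.cons_subset] at hTs
    have h1 := dm_lin_mul_FF (Finset.mem_sdiff.2 ⟨hTs.1, hj⟩) y
    have h2 : (s \ T).erase j = s \ Finset.cons j T hj := by
      ext x; simp; tauto
    obtain ⟨c, hc⟩ : ∃ c, T.card = c + 1 := ⟨_, (Nat.succ_pred_eq_of_pos hT.card_pos).symm⟩
    rw [Finset.prod_cons, ih hTs.2, ← h1, h2, Finset.card_cons, hc, Nat.add_sub_cancel,
      Nat.add_sub_cancel, pow_succ, ← dm_lin_mul_FF hTs.1 y]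
    ring

theorem dm_esymm_mem (s : Finset (Fin a)) (x y : Fin n → ℂ) {r : ℕ} (hr : 0 < r) :
    ∑ T ∈ s.powersetCard r, ∏ i ∈ T, lin i x * FF (s.erase i) y ∈ cF n s 1 ^ r := by
  have h1 := coeff_mem_of_eval_mem (cF n s 1) (dmG s y x)
    (fun t => by rw [dmG_eval]; exact dm_FF_mem _ _) r
  have h2 : (dmG s y x).coeff r = ∑ T ∈ s.powersetCard r, (∏ i ∈ T, lin i x) * FF (s \ T) y := by
    simp_rw [dmG, add_comm (Polynomial.C (lin _ y))]
    rw [Finset.prod_add, Polynomial.finsetSum_coeff, Finset.powersetCard_eq_filter,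
      Finset.sum_filter]
    refine Finset.sum_congr rfl fun T _ => ?_
    rw [Finset.prod_mul_distrib, Finset.prod_const, ← map_prod, ← map_prod,
      Polynomial.coeff_mul_C, Polynomial.coeff_C_mul_X_pow, ite_mul, zero_mul]
    simp only [eq_comm, FF]
  obtain ⟨c, rfl⟩ : ∃ c, r = c + 1 := ⟨_, (Nat.succ_pred_eq_of_pos hr).symm⟩
  rw [pow_succ]
  convert Submodule.mul_mem_mul (Submodule.pow_mem_pow _ (dm_FF_mem s y) c) h1 using 1
  rw [h2, Finset.mul_sum]
  refine Finset.sum_congr rfl fun T hT => ?_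
  rw [Finset.mem_powersetCard] at hT
  rw [Finset.prod_mul_distrib, dm_prod_FF s y (Finset.card_pos.1 (by omega)) hT.1, hT.2,
    Nat.add_sub_cancel]
  ring

theorem dm_sign_mul_mem {A : Type*} [CommRing A] [Algebra ℂ A] {W : Submodule ℂ A} (m : ℕ)
    {x : A} (hx : x ∈ W) : (-1) ^ m * x ∈ W := by
  rcases neg_one_pow_eq_or A m with h | h <;> simpa [h] using hx

/-- Newton: with `z_i = l_i(x) ∏_{j ≠ i} l_j(y)` the sum is the power sum `p_k(z)`;
`e_r(z) = F(y)^(r-1) * (coefficient of t^r in F(y + t x)) ∈ cF 1 ^ r`; use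
`MvPolynomial.psum_eq_mul_esymm_sub_sum`. -/
theorem psum_mem (s : Finset (Fin a)) (x y : Fin n → ℂ) (k : ℕ) :
    ∑ i ∈ s, lin i x ^ k * FF (s.erase i) y ^ k ∈ cF n s 1 ^ k := by
  simp_rw [← mul_pow]
  induction k using Nat.strong_induction_on with
  | _ k ih =>
    rcases Nat.eq_zero_or_pos k with rfl | hk
    · exact Submodule.sum_mem _ fun i _ => by simp [Submodule.one_le.1 le_rfl]
    let z : s → MvPolynomial (Var a n) ℂ := fun i => lin i.1 x * FF (s.erase i.1) y
    have hp : ∀ m, aeval z (psum s ℂ m) = ∑ i ∈ s, (lin i x * FF (s.erase i) y) ^ m := by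
      intro m
      rw [psum, map_sum, ← Finset.sum_coe_sort s]
      simp [z]
    have he : ∀ m, 0 < m → aeval z (esymm s ℂ m) ∈ cF n s 1 ^ m := by
      intro m hm
      have e : Finset.univ.val.map z = s.val.map fun i => lin i x * FF (s.erase i) y :=
        Multiset.attach_map_val' s.val fun i => lin i x * FF (s.erase i) y
      rw [aeval_esymm_eq_multiset_esymm, e, Finset.esymm_map_val]
      exact dm_esymm_mem s x y hm
    rw [← hp, psum_eq_mul_esymm_sub_sum _ _ k hk]
    simp only [map_sub, map_mul, map_pow, map_neg, map_one, map_natCast, map_sum, mul_assoc]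
    refine Submodule.sub_mem _ (dm_sign_mul_mem _ (dm_natCast_mul_mem _ (he k hk)))
      (Submodule.sum_mem _ fun b hb => dm_sign_mul_mem _ ?_)
    simp only [Finset.mem_filter, Finset.HasAntidiagonal.mem_antidiagonal, Set.mem_Ioo] at hb
    rw [← hb.1, pow_add, hp]
    exact Submodule.mul_mem_mul (he _ hb.2.1) (ih _ (by omega))

theorem dm_rename_lin (σ : Equiv.Perm (Fin a)) (j : Fin a) (y : Fin n → ℂ) :
    rename (blockPerm σ) (lin j y) = lin (σ j) y := by
  simp [lin, blockPerm]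

theorem dm_map_mm (σ : Equiv.Perm (Fin a)) (j : Fin a) (b : ℕ) :
    Submodule.mapHom (rename (blockPerm σ)) (mm n j b) = mm n (σ j) b := by
  change Submodule.map _ _ = _
  rw [mm, Submodule.map_span, ← Set.range_comp, mm]
  congr 2
  funext y
  simp [dm_rename_lin]

theorem dm_rename_BB {s : Finset (Fin a)} {σ : Equiv.Perm (Fin a)} (hσ : ∀ j ∉ s, σ j = j) {b : ℕ}
    {g : MvPolynomial (Var a n) ℂ} (hg : g ∈ BB n s b) : rename (blockPerm σ) g ∈ BB n s b := by
  have : Submodule.mapHom (rename (blockPerm σ)) (BB n s b) = BB n s b := by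
    rw [BB, map_prod]
    simp only [dm_map_mm]
    exact σ.prod_comp s (fun j => mm n j b) fun j hj => by_contra fun h => hj (hσ j h)
  rw [← this]
  exact ⟨g, hg, rfl⟩

theorem dm_inv_FF (s : Finset (Fin a)) (y : Fin n → ℂ) : Inv s (FF s y) := by
  intro σ hσ
  rw [FF, map_prod]
  simp only [dm_rename_lin]
  exact σ.prod_comp s (fun j => lin j y) fun j hj => by_contra fun h => hj (hσ j h)

theorem dm_pow_le {A : Type*} [CommRing A] [Algebra ℂ A] {M : Submodule ℂ A} {S : Subalgebra ℂ A}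
    (h : ∀ x ∈ M, x ∈ S) {b : ℕ} {x : A} (hx : x ∈ M ^ b) : x ∈ S :=
  Submodule.pow_induction_on_left M S.algebraMap_mem (fun _ _ => S.add_mem)
    (fun m hm _ hx => S.mul_mem (h m hm) hx) hx

theorem dm_inv_cF {s : Finset (Fin a)} {N : ℕ} {g : MvPolynomial (Var a n) ℂ}
    (hg : g ∈ cF n s N) : Inv s g := by
  intro σ hσ
  refine LinearMap.eqOn_span' (f := (rename (blockPerm σ)).toLinearMap) (g := LinearMap.id) ?_ hg
  rintro _ ⟨y, rfl⟩
  simp [dm_inv_FF s y σ hσ]

theorem dm_inv_cF_pow {s : Finset (Fin a)} {b : ℕ} {g : MvPolynomial (Var a n) ℂ}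
    (hg : g ∈ cF n s 1 ^ b) : Inv s g := fun σ hσ =>
  dm_pow_le (S := AlgHom.equalizer (rename (blockPerm σ)) (AlgHom.id ℂ _))
    (fun _ hx => dm_inv_cF hx σ hσ) hg

theorem dm_inv_mm {s : Finset (Fin a)} {i : Fin a} (hi : i ∉ s) {b : ℕ}
    {g : MvPolynomial (Var a n) ℂ} (hg : g ∈ mm n i b) : Inv s g := by
  intro σ hσ
  refine LinearMap.eqOn_span' (f := (rename (blockPerm σ)).toLinearMap) (g := LinearMap.id) ?_ hg
  rintro _ ⟨y, rfl⟩
  simp [dm_rename_lin, hσ i hi]

/-- averaging over the permutations of the blocks of `s` -/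
theorem dm_average {s : Finset (Fin a)} {b : ℕ} {P W : Submodule ℂ (MvPolynomial (Var a n) ℂ)}
    {S : Set (MvPolynomial (Var a n) ℂ)} (hP : P ≤ Submodule.span ℂ S) (hS : ∀ h ∈ S, Inv s h)
    (hW : ∀ h ∈ S, ∀ g ∈ BB n s b, Inv s g → h * g ∈ W)
    {f : MvPolynomial (Var a n) ℂ} (hf : f ∈ P * BB n s b) (hinv : Inv s f) : f ∈ W := by
  classical
  let G : Finset (Equiv.Perm (Fin a)) := Finset.univ.filter fun σ => ∀ j ∉ s, σ j = j
  have hG : ∀ σ, σ ∈ G ↔ ∀ j ∉ s, σ j = j := fun σ => by simp [G]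
  let Av : MvPolynomial (Var a n) ℂ →ₗ[ℂ] MvPolynomial (Var a n) ℂ :=
    ∑ σ ∈ G, (rename (blockPerm σ)).toLinearMap
  have hAv : ∀ g, Av g = ∑ σ ∈ G, rename (blockPerm σ) g := fun g => by
    simp [Av, LinearMap.sum_apply]
  have h1 : ∀ g, Inv s (Av g) := by
    intro g τ hτ
    rw [hAv, map_sum]
    refine Finset.sum_equiv (Equiv.mulLeft τ) (fun σ => ?_) fun σ _ => ?_
    · rw [hG, hG]
      refine forall₂_congr fun j hj => ?_
      rw [Equiv.coe_mulLeft, Equiv.Perm.mul_apply, ← τ.injective.eq_iff, hτ j hj]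
    · rw [rename_rename]; rfl
  have h2 : P * BB n s b ≤ W.comap Av := by
    refine le_trans (mul_le_mul' hP le_rfl) ?_
    rw [Submodule.mul_le]
    intro h hh g hg
    refine (Submodule.span_le (p := W.comap (Av ∘ₗ LinearMap.mulRight ℂ g))).2 ?_ hh
    intro h hh
    have e : Av (h * g) = h * Av g := by
      rw [hAv, hAv, Finset.mul_sum]
      exact Finset.sum_congr rfl fun σ hσ => by rw [map_mul, hS h hh σ ((hG σ).1 hσ)]
    change Av (h * g) ∈ W
    rw [e]
    refine hW h hh _ ?_ (h1 g)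
    rw [hAv]
    exact Submodule.sum_mem _ fun σ hσ => dm_rename_BB ((hG σ).1 hσ) hg
  have h3 : Av f = (G.card : MvPolynomial (Var a n) ℂ) * f := by
    rw [hAv, Finset.sum_congr rfl fun σ hσ => hinv σ ((hG σ).1 hσ), Finset.sum_const, nsmul_eq_mul]
  have h4 : Av f ∈ W := h2 hf
  rw [h3] at h4
  exact dm_mem_of_natCast_mul (Finset.card_pos.2 ⟨1, (hG 1).2 fun _ _ => rfl⟩).ne' h4

theorem dm_cF_pow_mul_mm {s : Finset (Fin a)} {i : Fin a} (hi : i ∉ s) (b k : ℕ)
    (hk : s.card ≤ k) : cF n s 1 ^ b * mm n i (k + b) ≤ cF n (insert i s) 1 ^ b * mm n i k := by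
  induction b with
  | zero => simp
  | succ b ih =>
    have h := cF_mul_mm_le (n := n) hi 1 (k + b) (by omega)
    calc cF n s 1 ^ (b + 1) * mm n i (k + (b + 1))
        = cF n s 1 ^ b * (cF n s 1 * mm n i (k + b + 1)) := by rw [pow_succ, mul_assoc, add_assoc]
      _ ≤ cF n s 1 ^ b * (cF n (insert i s) 1 * mm n i (k + b)) := by gcongr
      _ = cF n (insert i s) 1 * (cF n s 1 ^ b * mm n i (k + b)) := by ring
      _ ≤ cF n (insert i s) 1 * (cF n (insert i s) 1 ^ b * mm n i k) := by gcongr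
      _ = _ := by ring

/-- Step 1, given the theorem for `s.erase i`.  Averaging over the permutations of `s.erase i`
gives `f ∈ mm i b * cF (s.erase i) 1 ^ b`; then `f * l_i(y)^(|s|-1) ∈ cF s 1 ^ b * mm i (|s|-1)`
by `cF_mul_mm_le` with `N = 1` applied `b` times; apply the linear map
`u ↦ ∑_{j ∈ s} rename (swap i j) u * F_{s.erase j}(y)^(|s|-1)` and `psum_mem`. -/
theorem mul_FF_pow_mem {s : Finset (Fin a)} {i : Fin a} (hi : i ∈ s) (b : ℕ)
    (ih : ∀ g ∈ BB n (s.erase i) b, Inv (s.erase i) g → g ∈ cF n (s.erase i) 1 ^ b)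
    {f : MvPolynomial (Var a n) ℂ} (hf : f ∈ BB n s b) (hinv : Inv s f) (y : Fin n → ℂ) :
    FF s y ^ (s.card - 1) * f ∈ cF n s 1 ^ (s.card - 1 + b) := by
  set c := s.card - 1 with hc
  have h1 : f ∈ mm n i b * cF n (s.erase i) 1 ^ b := by
    refine dm_average (s := s.erase i) (b := b) (P := mm n i b) (S := mm n i b)
      Submodule.subset_span (fun h hh => dm_inv_mm (Finset.notMem_erase i s) hh)
      (fun h hh g hg hg' => Submodule.mul_mem_mul hh (ih g hg hg')) ?_
      fun σ hσ => hinv σ fun j hj => hσ j fun h => hj (Finset.mem_of_mem_erase h)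
    rw [BB, Finset.mul_prod_erase s (fun j => mm n j b) hi]
    exact hf
  have h2 : f * lin i y ^ c ∈ cF n s 1 ^ b * mm n i c := by
    have h := dm_cF_pow_mul_mm (n := n) (Finset.notMem_erase i s) b c
      (by rw [Finset.card_erase_of_mem hi])
    rw [Finset.insert_erase hi] at h
    have h' : mm n i b * cF n (s.erase i) 1 ^ b * mm n i c ≤
        cF n (s.erase i) 1 ^ b * mm n i (c + b) := by
      rw [mul_comm (mm n i b), mul_assoc, mul_comm (mm n i b)]
      gcongr
      exact mm_mul_le i c b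
    exact h (h' (Submodule.mul_mem_mul h1 (dm_pow_mem_mm i y c)))
  let L : MvPolynomial (Var a n) ℂ →ₗ[ℂ] MvPolynomial (Var a n) ℂ :=
    ∑ j ∈ s, LinearMap.mulRight ℂ (FF (s.erase j) y ^ c) ∘ₗ
      (rename (blockPerm (Equiv.swap i j))).toLinearMap
  have hL : ∀ g x, Inv s g →
      L (g * lin i x ^ c) = g * ∑ j ∈ s, lin j x ^ c * FF (s.erase j) y ^ c := by
    intro g x hg
    rw [LinearMap.sum_apply, Finset.mul_sum]
    refine Finset.sum_congr rfl fun j hj => ?_
    have := hg (Equiv.swap i j) fun l hl => Equiv.swap_apply_of_ne_of_ne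
      (by rintro rfl; exact hl hi) (by rintro rfl; exact hl hj)
    simp [this, dm_rename_lin, mul_assoc]
  have h3 : cF n s 1 ^ b * mm n i c ≤ (cF n s 1 ^ (c + b)).comap L := by
    rw [Submodule.mul_le]
    intro g hg h hh
    refine (Submodule.span_le (p := (cF n s 1 ^ (c + b)).comap
      (L ∘ₗ LinearMap.mulLeft ℂ g))).2 ?_ hh
    rintro _ ⟨x, rfl⟩
    change L (g * lin i x ^ c) ∈ cF n s 1 ^ (c + b)
    rw [hL g x (dm_inv_cF_pow hg), add_comm, pow_add]
    exact Submodule.mul_mem_mul hg (psum_mem s x y c)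
  have h4 : L (f * lin i y ^ c) ∈ cF n s 1 ^ (c + b) := h3 h2
  rw [hL f y hinv, Finset.sum_congr rfl fun j hj => by rw [← mul_pow, dm_lin_mul_FF hj],
    Finset.sum_const, nsmul_eq_mul, mul_left_comm, mul_comm f] at h4
  exact dm_mem_of_natCast_mul (Finset.card_pos.2 ⟨i, hi⟩).ne' h4

/-- induction on `s.card`: `BB_le_cF_mul` with `N = |s| - 1`, average over the permutations of `s`,
`mul_FF_pow_mem` -/
theorem mem_cF_pow (s : Finset (Fin a)) (b : ℕ) (hb : s.card * (s.card - 1) ≤ b)
    {f : MvPolynomial (Var a n) ℂ} (hf : f ∈ BB n s b) (hinv : Inv s f) : f ∈ cF n s 1 ^ b := by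
  induction s using Finset.strongInduction generalizing b f with
  | H s ih =>
    rcases s.eq_empty_or_nonempty with rfl | ⟨i, hi⟩
    · have h1 : (1 : MvPolynomial (Var a n) ℂ) ∈ cF n ∅ 1 ^ b := by
        simpa [FF] using Submodule.pow_mem_pow _ (dm_FF_mem (n := n) (∅ : Finset (Fin a)) 0) b
      exact Submodule.one_le.2 h1 (by simpa [BB] using hf)
    obtain ⟨c, hc⟩ : ∃ c, s.card = c + 1 :=
      ⟨_, (Nat.succ_pred_eq_of_pos (Finset.card_pos.2 ⟨i, hi⟩)).symm⟩
    have hc' : s.card - 1 = c := by omega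
    rw [hc', hc, add_mul, one_mul] at hb
    obtain ⟨k, rfl⟩ : ∃ k, b = k + c := ⟨b - c, by omega⟩
    have hk : c * c ≤ k := by omega
    refine dm_average (s := s) (b := k) (P := cF n s c) le_rfl ?_ ?_
      (BB_le_cF_mul s c k (by rwa [hc']) hf) hinv
    · rintro _ ⟨y, rfl⟩
      exact dm_inv_cF (dm_pow_mem_cF s y c)
    · rintro _ ⟨y, rfl⟩ g hg hg'
      have := mul_FF_pow_mem hi k (fun g hg hg' => ih _ (Finset.erase_ssubset hi) k (by
        rw [Finset.card_erase_of_mem hi, hc']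
        exact (Nat.mul_le_mul_left c (Nat.sub_le _ _)).trans hk) hg hg') hg hg' y
      rwa [hc', add_comm] at this

theorem dm_prod_mem_mm (i : Fin a) (d : Fin n → ℕ) (T : Finset (Fin n)) :
    ∏ k ∈ T, (X (i, k) : MvPolynomial (Var a n) ℂ) ^ d k ∈ mm n i (∑ k ∈ T, d k) := by
  induction T using Finset.induction_on with
  | empty => simpa using dm_one_mem_mm i
  | insert k T hk ih =>
    rw [Finset.prod_insert hk, Finset.sum_insert hk]
    refine mm_mul_le i _ _ (Submodule.mul_mem_mul ?_ ih)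
    convert dm_pow_mem_mm i (Pi.single k 1) (d k)
    simp [lin, Pi.single_apply]

theorem dm_prod_mem_prod {A ι : Type*} [CommRing A] [Algebra ℂ A] (s : Finset ι)
    {M : ι → Submodule ℂ A} {x : ι → A} (h : ∀ i, x i ∈ M i) : ∏ i ∈ s, x i ∈ ∏ i ∈ s, M i := by
  classical
  induction s using Finset.induction_on with
  | empty => simp [Submodule.one_le.1 le_rfl]
  | insert i s hi ih =>
    rw [Finset.prod_insert hi, Finset.prod_insert hi]
    exact Submodule.mul_mem_mul (h i) ih

/-- every monomial of `f` is a product over the blocks of monomials of degree `b` -/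
theorem blockSym_le_BB (b : ℕ) : blockSym a n b ≤ BB n Finset.univ b := by
  intro f hf
  rw [f.as_sum]
  refine Submodule.sum_mem _ fun d hd => ?_
  rw [monomial_eq, Finsupp.prod_fintype _ _ (by simp), Fintype.prod_prod_type, C_mul']
  refine Submodule.smul_mem _ _ (dm_prod_mem_prod _ fun i => ?_)
  have h := (mem_blockSym.1 hf).1 i (mem_support_iff.1 hd)
  rw [Finsupp.weight_apply, Finsupp.sum_fintype _ _ (by simp), Fintype.sum_prod_type,
    Finset.sum_eq_single i (fun j _ hj => by simp [blockWeight, hj]) (by simp)] at h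
  convert dm_prod_mem_mm i (fun k => d (i, k)) Finset.univ
  simpa [blockWeight] using h.symm

theorem FF_mem_blockSym (y : Fin n → ℂ) : FF Finset.univ y ∈ blockSym a n 1 := by
  refine mem_blockSym.2 ⟨fun i => ?_, fun σ => dm_inv_FF _ y σ (by simp)⟩
  have h : ∀ j ∈ (Finset.univ : Finset (Fin a)),
      IsWeightedHomogeneous (blockWeight i) (lin j y) (if j = i then 1 else 0) := fun j _ =>
    Submodule.sum_mem (weightedHomogeneousSubmodule ℂ (blockWeight i) _) fun k _ =>
      Submodule.smul_mem _ _ (isWeightedHomogeneous_X ℂ (blockWeight i) (j, k))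
  simpa [FF] using IsWeightedHomogeneous.prod _ _ _ h

theorem blockSym_le_cF_pow (b : ℕ) (hb : a * (a - 1) ≤ b) :
    blockSym a n b ≤ cF n Finset.univ 1 ^ b := by
  intro f hf
  refine mem_cF_pow Finset.univ b (by simpa using hb) (blockSym_le_BB b hf) ?_
  intro σ _
  exact (mem_blockSym.1 hf).2 σ

theorem mem_adjoin (b : ℕ) (hb : a * (a - 1) ≤ b) {f : MvPolynomial (Var a n) ℂ}
    (hf : f ∈ blockSym a n b) :
    f ∈ Algebra.adjoin ℂ (blockSym a n 1 : Set (MvPolynomial (Var a n) ℂ)) := by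
  refine dm_pow_le (fun x hx => ?_) (blockSym_le_cF_pow b hb hf)
  refine Algebra.subset_adjoin ((Submodule.span_le (p := blockSym a n 1)).2 ?_ hx)
  rintro _ ⟨y, rfl⟩
  simpa using FF_mem_blockSym y

end Crest.Agent.R187
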