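import Crest.Agent.R187.UB

/-! Soundness of the final cover. -/

set_option autoImplicit false

open MvPolynomial

namespace Crest.Agent.R187

theorem force_eq' {α : Type} (x : ℕ) (f : ℕ → α) : force x f = f x := by cases x <;> rfl

def lam (n l6 l5 l4 l3 l2 : ℕ) : Fin 6 → ℕ := ![n - (l2 + l3 + l4 + l5 + l6), l2, l3, l4, l5, l6]

theorem lam_antitone {n l6 l5 l4 l3 l2 : ℕ} (h1 : l6 ≤ l5) (h2 : l5 ≤ l4) (h3 : l4 ≤ l3)
    (h4 : l3 ≤ l2) (h5 : 2 * l2 + l3 + l4 + l5 + l6 ≤ n) : Antitone (lam n l6 l5 l4 l3 l2) := by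
  rw [Fin.antitone_iff_succ_le]
  intro i
  fin_cases i <;> simp [lam] <;> omega

/-- the run `r` computes multiplicities in `Sym^j (Sym^d)` -/
def Good (r : RunD) (d : ℕ) : Prop := r.w ≤ 95 ∧ ∀ j l6 l5 l4 l3 l2, l3 + 3 < rR r j l6 l5 l4 →
  l2 + l3 + l4 + l5 + l6 ≤ j * d →
    muAt r j l6 l5 l4 l3 l2 = (mu j d (lam (j * d) l6 l5 l4 l3 l2)).toNat

theorem rR_eq (r : RunD) (j l6 l5 l4 : ℕ) :
    rR r j l6 l5 l4 = if j ≤ r.B then rows r.bs r.d j l6 (l5 + 1) (l4 + 2) else 0 :=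
  brec_ble _ _ _ _

theorem muAt_eq (r : RunD) (j l6 l5 l4 l3 l2 : ℕ) : muAt r j l6 l5 l4 l3 l2 =
    dig r.w (rZ r j l6 l5 l4) (l2 + 4 + r.σ * (l3 + 3)) - 2 ^ (r.w - 1) := by
  rw [← land_shift_eq_dig]; rfl

theorem good_nil (d : ℕ) : Good RunD.nil d := by
  refine ⟨by decide, fun j l6 l5 l4 l3 l2 h _ => ?_⟩
  rw [rR_eq] at h
  split_ifs at h
  · exact absurd h (Nat.not_lt_zero _)
  · omega

theorem good_of {bs : List Box} {Ts : List Lev} {d w σ B m mB : ℕ}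
    (h : RunOK bs Ts d w σ B m mB ∧ B * d + 6 ≤ σ ∧ m + 2 ≤ w ∧ mB + 2 ≤ w) (hw : w ≤ 95) :
    Good ⟨bs, Ts, d, w, σ, B⟩ d := by
  obtain ⟨h1, h2, h3, h3'⟩ := h
  refine ⟨hw, fun j l6 l5 l4 l3 l2 hR hs => ?_⟩
  rw [rR_eq] at hR
  dsimp only at hR
  split_ifs at hR with hj
  swap
  · omega
  have e : rZ ⟨bs, Ts, d, w, σ, B⟩ j l6 l5 l4 =
      Zv (nth Ts [] j) w (w * (σ * rows bs d j l6 (l5 + 1) (l4 + 2))) l6 (l5 + 1) l4 := by
    rw [rZ, force_eq', force_eq', rR_eq, if_pos hj]; rfl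
  have hσ : l2 + 4 < σ := by
    have := Nat.mul_le_mul_right d hj
    omega
  have hlt : l2 + 4 + σ * (l3 + 3) < σ * rows bs d j l6 (l5 + 1) (l4 + 2) := by
    have := Nat.mul_le_mul_left σ (show l3 + 3 + 1 ≤ _ from hR)
    rw [mul_add σ (l3 + 3)] at this
    omega
  have h4 := dig_Zv h1 h2 h3 h3' hj l6 l5 l4 hlt
  have h5 : dg (cc j d) (15 + j * d) σ l6 (l5 + 1) (l4 + 2) (l2 + 4 + σ * (l3 + 3)) =
      mu j d (lam (j * d) l6 l5 l4 l3 l2) := by
    rw [dg, mu, Nat.add_mul_mod_self_left, Nat.mod_eq_of_lt hσ,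
      Nat.add_mul_div_left _ _ (by omega), Nat.div_eq_of_lt hσ, zero_add]
    congr 2
    funext i
    fin_cases i <;> simp [lam, rho]
    omega
  rw [muAt_eq, e]
  dsimp only
  rw [h5] at h4
  have h6 : ((2 ^ (w - 1) : ℕ) : ℤ) = 2 ^ (w - 1) := by push_cast; rfl
  omega

/-! ## the target -/

/-- minimal level -/
def lv (g5 g4 t i : ℕ) : ℕ := (6 * t + 5 * g5 + 4 * g4 + 2 * (i % 96) + 3 * (i / 96) + 5) / 6

def lamS (b g5 g4 t i : ℕ) : Fin 6 → ℕ :=
  lam (6 * b) t (t + g5) (t + g5 + g4) (t + g5 + g4 + i / 96) (t + g5 + g4 + i / 96 + i % 96)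

theorem lamS_antitone {b g5 g4 t i : ℕ} (h : lv g5 g4 t i ≤ b) : Antitone (lamS b g5 g4 t i) := by
  unfold lv at h
  apply lam_antitone <;> omega

noncomputable def tg (g5 g4 t i : ℕ) : ℤ := mu (lv g5 g4 t i) 6 (lamS (lv g5 g4 t i) g5 g4 t i)

theorem tg_nonneg (g5 g4 t i : ℕ) : 0 ≤ tg g5 g4 t i := mu_nonneg _ _ _ (lamS_antitone le_rfl)

theorem triV_eq (w y c : ℕ) : triV w y c = dig w y c - 2 ^ (w - 1) := by
  rw [← land_shift_eq_dig]; rfl

theorem dig_tri {a b c : ℕ} (ha : a < 2 ^ 96) (hb : b < 2 ^ 96) (hc : c < 2 ^ 96) (i : ℕ) :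
    dig 96 (a ||| b <<< (96 * 1) ||| c <<< (96 * 2)) i =
      if i = 0 then a else if i = 1 then b else if i = 2 then c else 0 := by
  rw [dig_lor, dig_lor, dig_shiftLeft, dig_shiftLeft, dig_of_lt ha, dig_of_lt hb, dig_of_lt hc]
  rcases i with _ | _ | _ | i <;> simp

theorem dig_baseRow {r : RunD} (hr : Good r 6) {b g5 g4 t q g3 : ℕ} (hb : b < 30)
    (hq : q + (t + g5 + g4 + (t + g5) + t) = 6 * b) (h3 : 3 * (t + g5 + g4 + g3) ≤ q)
    (hR : t + g5 + g4 + g3 + 3 < rR r b t (t + g5) (t + g5 + g4)) (i : ℕ) :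
    dig 96 (baseRow r b t (t + g5) (t + g5 + g4) q g3) i < 2 ^ 95 ∧
      (i < 96 → (dig 96 (baseRow r b t (t + g5) (t + g5 + g4) q g3) i : ℤ) ≤
        tg g5 g4 t (96 * g3 + i)) ∧
      (96 ≤ i → dig 96 (baseRow r b t (t + g5) (t + g5 + g4) q g3) i = 0) := by
  obtain ⟨l3, hl3⟩ : ∃ l3, l3 = t + g5 + g4 + g3 := ⟨_, rfl⟩
  obtain ⟨s2, hs2⟩ : ∃ s2, s2 = (q - l3) / 2 := ⟨_, rfl⟩
  obtain ⟨y, hy⟩ : ∃ y, y = Nat.land (rZ r b t (t + g5) (t + g5 + g4) >>>
    (r.w * (s2 + 2 + r.σ * (l3 + 3)))) (mask (r.w * 3)) := ⟨_, rfl⟩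
  have e : baseRow r b t (t + g5) (t + g5 + g4) q g3 =
      ((triV r.w y 0 ||| triV r.w y 1 <<< (96 * 1) ||| triV r.w y 2 <<< (96 * 2)) <<<
        (96 * (s2 - l3))) >>> (96 * 2) := by
    rw [baseRow, force_eq', force_eq', hy, hs2, hl3]; rfl
  have hv : ∀ c, triV r.w y c < 2 ^ 95 := fun c => by
    rw [triV_eq]
    exact (Nat.sub_le _ _).trans_lt ((dig_lt _ _ _).trans_le
      (Nat.pow_le_pow_right (by norm_num) hr.1))
  have hv' : ∀ c, triV r.w y c < 2 ^ 96 := fun c => (hv c).trans (by norm_num)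
  have hval : ∀ c, c < 3 → s2 - l3 ≤ 2 + i → c = 2 + i - (s2 - l3) → i < 96 →
      (triV r.w y c : ℤ) ≤ tg g5 g4 t (96 * g3 + i) := by
    intro c hc h1 h2 hi
    have k1 : triV r.w y c = muAt r b t (t + g5) (t + g5 + g4) l3 (l3 + i) := by
      rw [triV_eq, muAt_eq, hy, dig_land_mask, if_pos hc, dig_shiftRight]
      congr 2
      omega
    have k2 : lv g5 g4 t (96 * g3 + i) = b := by unfold lv; omega
    have k3 : lamS b g5 g4 t (96 * g3 + i) = lam (b * 6) t (t + g5) (t + g5 + g4) l3 (l3 + i) := by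
      rw [lamS, show (96 * g3 + i) / 96 = g3 by omega, show (96 * g3 + i) % 96 = i by omega, hl3,
        mul_comm]
    have k4 := tg_nonneg g5 g4 t (96 * g3 + i)
    rw [k1, hr.2 _ _ _ _ _ _ (by rwa [hl3]) (by omega)]
    rw [tg, k2, k3] at k4 ⊢
    omega
  rw [e, dig_shiftRight, dig_shiftLeft]
  have k4 := tg_nonneg g5 g4 t (96 * g3 + i)
  split_ifs with h1
  · rw [dig_tri (hv' _) (hv' _) (hv' _)]
    split_ifs with c0 c1 c2
    · exact ⟨hv _, hval _ (by omega) h1 c0.symm, fun h => by omega⟩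
    · exact ⟨hv _, hval _ (by omega) h1 c1.symm, fun h => by omega⟩
    · exact ⟨hv _, hval _ (by omega) h1 c2.symm, fun h => by omega⟩
    · exact ⟨by norm_num, fun _ => k4, fun _ => rfl⟩
  · exact ⟨by norm_num, fun _ => k4, fun _ => rfl⟩

theorem dig_baseRows {r : RunD} (hr : Good r 6) {b g5 g4 t q : ℕ} (hb : b < 30) (cnt : ℕ)
    (hq : cnt ≠ 0 → q + (t + g5 + g4 + (t + g5) + t) = 6 * b)
    (h3 : cnt ≠ 0 → 3 * (t + g5 + g4 + cnt) ≤ q + 3)
    (hR : cnt ≠ 0 → t + g5 + g4 + cnt + 3 ≤ rR r b t (t + g5) (t + g5 + g4)) (i : ℕ) :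
    dig 96 (baseRows r b t (t + g5) (t + g5 + g4) q cnt) i < 2 ^ 95 ∧
      (dig 96 (baseRows r b t (t + g5) (t + g5 + g4) q cnt) i : ℤ) ≤ tg g5 g4 t i ∧
      (96 * cnt ≤ i → dig 96 (baseRows r b t (t + g5) (t + g5 + g4) q cnt) i = 0) := by
  induction cnt with
  | zero =>
    have : baseRows r b t (t + g5) (t + g5 + g4) q 0 = 0 := rfl
    rw [this, dig_zero]
    exact ⟨by norm_num, tg_nonneg _ _ _ _, fun _ => rfl⟩
  | succ cnt ih =>
    have q1 := hq (by omega)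
    have q2 := h3 (by omega)
    have q3 := hR (by omega)
    obtain ⟨i1, i2, i3⟩ := ih (fun _ => q1) (fun _ => by omega) (fun _ => by omega)
    have e : baseRows r b t (t + g5) (t + g5 + g4) q (cnt + 1) =
        baseRows r b t (t + g5) (t + g5 + g4) q cnt |||
          baseRow r b t (t + g5) (t + g5 + g4) q cnt <<< (96 * (96 * cnt)) := by
      rw [← mul_assoc]; rfl
    rw [e, dig_lor, dig_shiftLeft]
    split_ifs with h
    · obtain ⟨j1, j2, j3⟩ := dig_baseRow hr hb q1 (g3 := cnt) (by omega) (by omega) (i - 96 * cnt)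
      rw [i3 h, Nat.zero_or]
      refine ⟨j1, ?_, fun h' => j3 (by omega)⟩
      by_cases h' : i - 96 * cnt < 96
      · have := j2 h'
        rwa [show 96 * cnt + (i - 96 * cnt) = i by omega] at this
      · rw [j3 (by omega)]; exact tg_nonneg _ _ _ _
    · rw [Nat.or_zero]
      exact ⟨i1, i2, fun h' => by omega⟩

theorem dig_baseB {r : RunD} (hr : Good r 6) {b : ℕ} (hb : b < 30) (g5 g4 t i : ℕ) :
    dig 96 (baseB r b t (t + g5) (t + g5 + g4)) i < 2 ^ 95 ∧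
      (dig 96 (baseB r b t (t + g5) (t + g5 + g4)) i : ℤ) ≤ tg g5 g4 t i := by
  have e : baseB r b t (t + g5) (t + g5 + g4) = baseRows r b t (t + g5) (t + g5 + g4)
      (6 * b - (t + g5 + g4 + (t + g5) + t))
      (rR r b t (t + g5) (t + g5 + g4) - 3 - (rR r b t (t + g5) (t + g5 + g4) - 3 -
        ((6 * b - (t + g5 + g4 + (t + g5) + t)) / 3 + 1)) - (t + g5 + g4)) := by
    rw [baseB, force_eq']; rfl
  rw [e]
  have := dig_baseRows hr hb (g5 := g5) (g4 := g4) (t := t)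
    (q := 6 * b - (t + g5 + g4 + (t + g5) + t))
    (rR r b t (t + g5) (t + g5 + g4) - 3 - (rR r b t (t + g5) (t + g5 + g4) - 3 -
        ((6 * b - (t + g5 + g4 + (t + g5) + t)) / 3 + 1)) - (t + g5 + g4))
    (fun _ => by omega) (fun _ => by omega) (fun _ => by omega) i
  exact ⟨this.1, this.2.1⟩

theorem covBase_spec (RS : List RunD) (rs l6 l5 l4 GT init k n : ℕ)
    (h : (covBase RS rs l6 l5 l4 GT init n).testBit k = true) : init.testBit k = true ∨
      ∃ b < n, (baseB (nth RS RunD.nil (runId rs b)) b l6 l5 l4 + GT).testBit k = true := by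
  induction n with
  | zero => exact Or.inl h
  | succ n ih =>
    have e : covBase RS rs l6 l5 l4 GT init (n + 1) =
        if runId rs n = 0 then covBase RS rs l6 l5 l4 GT init n else
          covBase RS rs l6 l5 l4 GT init n |||
            (baseB (nth RS RunD.nil (runId rs n)) n l6 l5 l4 + GT) := by
      rw [← brec_beq]; rfl
    rw [e] at h
    have ih' : (covBase RS rs l6 l5 l4 GT init n).testBit k = true → init.testBit k = true ∨
        ∃ b < n + 1, (baseB (nth RS RunD.nil (runId rs b)) b l6 l5 l4 + GT).testBit k = true :=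
      fun h => (ih h).imp id fun ⟨b, hb, h⟩ => ⟨b, by omega, h⟩
    split_ifs at h
    · exact ih' h
    · rw [Nat.testBit_lor, Bool.or_eq_true] at h
      rcases h with h | h
      · exact ih' h
      · exact Or.inr ⟨n, by omega, h⟩

theorem covGen_spec (T : Lev) (g5 g4 t M GT k : ℕ) (gens : List Box)
    (h : (covGen T gens g5 g4 t M GT).testBit k = true) : GT.testBit k = true ∨
      ∃ x ∈ gens, x.2.2.1 ≤ g4 ∧ x.2.2.2.1 ≤ g5 ∧ x.2.2.2.2 ≤ t ∧
        (Nat.land (nth3 T (g5 - x.2.2.2.1) (g4 - x.2.2.1) (t - x.2.2.2.2)) M <<<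
          (96 * (x.1 + 96 * x.2.1)) + GT).testBit k = true := by
  induction gens with
  | nil => exact Or.inl h
  | cons x gens ih =>
    have e : covGen T (x :: gens) g5 g4 t M GT =
        if x.2.2.1 - g4 + (x.2.2.2.1 - g5) + (x.2.2.2.2 - t) = 0 then
          covGen T gens g5 g4 t M GT |||
            (Nat.land (nth3 T (g5 - x.2.2.2.1) (g4 - x.2.2.1) (t - x.2.2.2.2)) M <<<
              (96 * (x.1 + 96 * x.2.1)) + GT)
        else covGen T gens g5 g4 t M GT := by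
      rw [← brec_beq]; rfl
    rw [e] at h
    split_ifs at h with hc
    · rw [Nat.testBit_lor, Bool.or_eq_true] at h
      rcases h with h | h
      · exact (ih h).imp id fun ⟨y, hy, h⟩ => ⟨y, List.mem_cons_of_mem x hy, h⟩
      · exact Or.inr ⟨x, List.mem_cons_self, by omega, by omega, by omega, h⟩
    · exact (ih h).imp id fun ⟨y, hy, h⟩ => ⟨y, List.mem_cons_of_mem x hy, h⟩

/-- the generators occur -/
def GenOK (gens : List Box) : Prop := ∀ x ∈ gens, ∃ c, 1 ≤ c ∧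
  6 * c = 2 * x.1 + 3 * x.2.1 + 4 * x.2.2.1 + 5 * x.2.2.2.1 + 6 * x.2.2.2.2 ∧ x.1 ≤ 8 ∧
  0 < mu c 6 (lam (c * 6) x.2.2.2.2 (x.2.2.2.2 + x.2.2.2.1) (x.2.2.2.2 + x.2.2.2.1 + x.2.2.1)
    (x.2.2.2.2 + x.2.2.2.1 + x.2.2.1 + x.2.1) (x.2.2.2.2 + x.2.2.2.1 + x.2.2.1 + x.2.1 + x.1))

theorem genOK_of {r : RunD} (hr : Good r 6) (gens : List Box) (h : genChk r gens = true) :
    GenOK gens := by
  induction gens with
  | nil => intro x hx; exact absurd hx List.not_mem_nil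
  | cons x gens ih =>
    obtain ⟨s, hs⟩ : ∃ s, s = 2 * x.1 + 3 * x.2.1 + 4 * x.2.2.1 + 5 * x.2.2.2.1 + 6 * x.2.2.2.2 :=
      ⟨_, rfl⟩
    have e : genChk r (x :: gens) = (Nat.beq (6 * (s / 6)) s && Nat.ble 1 (s / 6) && Nat.ble x.1 8 &&
        Nat.blt (x.2.2.2.2 + x.2.2.2.1 + x.2.2.1 + x.2.1 + 3) (rR r (s / 6) x.2.2.2.2
          (x.2.2.2.2 + x.2.2.2.1) (x.2.2.2.2 + x.2.2.2.1 + x.2.2.1)) &&
        Nat.blt 0 (muAt r (s / 6) x.2.2.2.2 (x.2.2.2.2 + x.2.2.2.1) (x.2.2.2.2 + x.2.2.2.1 + x.2.2.1)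
          (x.2.2.2.2 + x.2.2.2.1 + x.2.2.1 + x.2.1) (x.2.2.2.2 + x.2.2.2.1 + x.2.2.1 + x.2.1 + x.1)) &&
        genChk r gens) := by
      rw [hs]; rfl
    rw [e] at h
    simp only [Bool.and_eq_true, Nat.beq_eq, Nat.ble_eq, Nat.blt_eq] at h
    obtain ⟨⟨⟨⟨⟨h1, h2⟩, h3⟩, h4⟩, h5⟩, h6⟩ := h
    intro y hy
    rcases List.mem_cons.1 hy with rfl | hy
    · refine ⟨s / 6, h2, by omega, h3, ?_⟩
      rw [hr.2 _ _ _ _ _ _ h4 (by omega)] at h5
      omega
    · exact ih h6 y hy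

theorem dig_umF (f : ℕ) : ∀ ρ i, ρ ≤ 174 → 3 * f ≤ ρ + 3 →
    dig 96 (umF f ρ) i = if i / 96 < f ∧ 2 * (i % 96) + 3 * (i / 96) ≤ ρ then 1 else 0 := by
  induction f with
  | zero => intro ρ i _ _; rw [if_neg (by omega)]; exact dig_zero _ _
  | succ f ih =>
    intro ρ i h1 h2
    have e : umF (f + 1) ρ = ones 96 (ρ / 2 + 1) ||| umF f (ρ - 3) <<< (96 * 96) := rfl
    rw [e, dig_lor, dig_ones (by norm_num), dig_shiftLeft]
    by_cases hi : 96 ≤ i
    · rw [if_pos hi, if_neg (by omega), Nat.zero_or]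
      by_cases hf : f = 0
      · subst hf
        rw [if_neg (by omega)]; exact dig_zero _ _
      rw [ih _ _ (by omega) (by omega)]
      split_ifs <;> first | rfl | omega
    · rw [if_neg hi, Nat.or_zero]
      split_ifs <;> first | rfl | omega

theorem dig_um {ρ : ℕ} (h : ρ ≤ 174) (i : ℕ) :
    dig 96 (um ρ) i = if 2 * (i % 96) + 3 * (i / 96) ≤ ρ then 1 else 0 := by
  have e : um ρ = umF (ρ / 3 + 1) ρ := by rw [um, force_eq']; rfl
  rw [e, dig_umF _ _ _ h (by omega)]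
  split_ifs <;> first | rfl | omega

theorem dig_mul_um {ρ c : ℕ} (h : ρ ≤ 174) (hc : c < 2 ^ 96) (i : ℕ) :
    dig 96 (Nat.mul c (um ρ)) i = if 2 * (i % 96) + 3 * (i / 96) ≤ ρ then c else 0 := by
  rw [Nat.mul_eq, dig_mul, dig_um h]
  · split_ifs <;> simp
  · intro i
    rw [dig_um h]
    split_ifs <;> omega

theorem dig_gm {ρ : ℕ} (h : ρ ≤ 174) (i : ℕ) :
    dig 96 (gm ρ) i = if 2 * (i % 96) + 3 * (i / 96) ≤ ρ then 2 ^ 95 else 0 :=
  dig_mul_um h (by norm_num) i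

theorem dig_vm {ρ : ℕ} (h : ρ ≤ 174) (i : ℕ) :
    dig 96 (vm ρ) i = if 2 * (i % 96) + 3 * (i / 96) ≤ ρ then 2 ^ 84 - 1 else 0 :=
  dig_mul_um h (by norm_num) i

theorem guard_of_land {x ρ i : ℕ} (hρ : ρ ≤ 174) (h : Nat.land x (gm ρ) = gm ρ)
    (hi : 2 * (i % 96) + 3 * (i / 96) ≤ ρ) : x.testBit (96 * i + 95) = true := by
  have h1 : (gm ρ).testBit (96 * i + 95) = true := by
    rw [testBit_guard, dig_gm hρ, if_pos hi]
  have h2 : (x &&& gm ρ).testBit (96 * i + 95) = true := by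
    rw [show x &&& gm ρ = gm ρ from h]; exact h1
  rw [Nat.testBit_land, Bool.and_eq_true] at h2
  exact h2.1

theorem badMask_spec (l : List ℕ) (i : ℕ) (h : (badMask l).testBit (96 * i + 95) = true) : i ∈ l := by
  induction l with
  | nil => exact absurd h (by simp [badMask])
  | cons a l ih =>
    have e : badMask (a :: l) = badMask l ||| 1 <<< (96 * a + 95) := rfl
    rw [e, Nat.testBit_lor, Bool.or_eq_true] at h
    rcases h with h | h
    · exact List.mem_cons_of_mem _ (ih h)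
    · rw [Nat.one_shiftLeft, Nat.testBit_two_pow, decide_eq_true_iff] at h
      rw [show i = a by omega]
      exact List.mem_cons_self

theorem allL_spec (f : ℕ → Bool) (l : List ℕ) (h : allL f l = true) : ∀ i ∈ l, f i = true := by
  induction l with
  | nil => intro i hi; exact absurd hi List.not_mem_nil
  | cons a l ih =>
    have e : allL f (a :: l) = if f a = true then allL f l else false := brec_eq _ _ _
    rw [e] at h
    split_ifs at h with ha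
    intro i hi
    rcases List.mem_cons.1 hi with rfl | hi
    · exact ha
    · exact ih h i hi

theorem mu_mono (h1 : 0 < mu 1 6 (lam (1 * 6) 0 0 0 0 0)) {b g5 g4 t i : ℕ} (hb : lv g5 g4 t i ≤ b)
    (c : ℕ) : mu b 6 (lamS b g5 g4 t i) ≤ mu (b + c) 6 (lamS (b + c) g5 g4 t i) := by
  induction c with
  | zero => exact le_rfl
  | succ c ih =>
    refine ih.trans ((mu_le_add (b + c) 1 6 _ _ (lamS_antitone (by omega))
      (lam_antitone le_rfl le_rfl le_rfl le_rfl (by norm_num)) h1).trans (le_of_eq ?_))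
    rw [add_assoc]
    congr 1
    unfold lv at hb
    funext k
    fin_cases k <;> simp [lamS, lam]
    omega

noncomputable def ubS (g5 g4 t i : ℕ) : ℤ :=
  ubZ fun j => ![g4 + g5 + 2 + i / 96 + 2 + i % 96, g4 + g5 + 2 + i / 96 + 1, g5 + 2 + g4, g5 + 1, 0] j + t

theorem mu_le_ubS {b g5 g4 t i : ℕ} (hb : lv g5 g4 t i ≤ b) :
    720 * mu 6 b (lamS b g5 g4 t i) ≤ ubS g5 g4 t i := by
  refine (mu_le_ubZ b _ (lamS_antitone hb) ?_).trans (le_of_eq ?_)
  · unfold lv at hb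
    simp [lamS, lam, Fin.sum_univ_six]
    omega
  · unfold ubS
    congr 1
    funext k
    fin_cases k <;> simp [lamS, lam, rho] <;> omega

theorem tailLoop_spec {RS RR : List RunD} (hS : ∀ k, Good (nth RS RunD.nil k) 6)
    (hR : ∀ b, Good (nth RR RunD.nil b) b) (h1 : 0 < mu 1 6 (lam (1 * 6) 0 0 0 0 0))
    {rs c g5 g4 t i : ℕ} (hc : (c : ℤ) = 2 ^ 95 - ubS g5 g4 t i) (f : ℕ) : ∀ b, lv g5 g4 t i ≤ b →
      tailLoop RS RR rs c t (t + g5) (t + g5 + g4) (t + g5 + g4 + i / 96)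
        (t + g5 + g4 + i / 96 + i % 96) f b = true →
      ∀ b', b ≤ b' → b' < b + f → mu 6 b' (lamS b' g5 g4 t i) ≤ mu b' 6 (lamS b' g5 g4 t i) := by
  induction f with
  | zero => intro b _ _ b' h2 h3; omega
  | succ f ih =>
    intro b hb h b' h2 h3
    obtain ⟨l3, hl3⟩ : ∃ l3, l3 = t + g5 + g4 + i / 96 := ⟨_, rfl⟩
    obtain ⟨l2, hl2⟩ : ∃ l2, l2 = t + g5 + g4 + i / 96 + i % 96 := ⟨_, rfl⟩
    rw [← hl2, ← hl3] at h ih
    have e : tailLoop RS RR rs c t (t + g5) (t + g5 + g4) l3 l2 (f + 1) b =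
        if l3 + 4 ≤ rR (nth RS RunD.nil (runId rs b)) b t (t + g5) (t + g5 + g4) then
          (if 39614081257132168796771975168 ≤
              720 * muAt (nth RS RunD.nil (runId rs b)) b t (t + g5) (t + g5 + g4) l3 l2 + c then true
            else
            (if l3 + 4 ≤ rR (nth RR RunD.nil b) 6 t (t + g5) (t + g5 + g4) then
              (if muAt (nth RR RunD.nil b) 6 t (t + g5) (t + g5 + g4) l3 l2 ≤
                  muAt (nth RS RunD.nil (runId rs b)) b t (t + g5) (t + g5 + g4) l3 l2 then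
                tailLoop RS RR rs c t (t + g5) (t + g5 + g4) l3 l2 f (b + 1) else false)
            else false))
        else false := by
      rw [← brec_ble, ← brec_ble, ← brec_ble, ← brec_ble]; rfl
    rw [e] at h
    have hlv := hb
    unfold lv at hlv
    have a1 : lam (b * 6) t (t + g5) (t + g5 + g4) l3 l2 = lamS b g5 g4 t i := by
      rw [lamS, hl2, hl3, mul_comm]
    have a2 : lam (6 * b) t (t + g5) (t + g5 + g4) l3 l2 = lamS b g5 g4 t i := by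
      rw [lamS, hl2, hl3]
    have n1 := mu_nonneg b 6 _ (lamS_antitone hb)
    split_ifs at h with c1 c2 c3 c4
    · rw [(hS _).2 _ _ _ _ _ _ c1 (by omega), a1] at c2
      obtain ⟨k, rfl⟩ := Nat.exists_eq_add_of_le h2
      have k1 := mu_mono h1 hb k
      have k2 := mu_le_ubS (show lv g5 g4 t i ≤ b + k by omega)
      omega
    · rcases h2.eq_or_lt with rfl | h2
      · rw [(hS _).2 _ _ _ _ _ _ c1 (by omega), (hR _).2 _ _ _ _ _ _ c3 (by omega), a1, a2] at c4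
        omega
      · exact ih (b + 1) (by omega) h b' h2 (by omega)

theorem tailChk_spec {RS RR : List RunD} (hS : ∀ k, Good (nth RS RunD.nil k) 6)
    (hR : ∀ b, Good (nth RR RunD.nil b) b) (h1 : 0 < mu 1 6 (lam (1 * 6) 0 0 0 0 0))
    {rs Y g5 g4 t i : ℕ} (hc : (dig 96 Y i : ℤ) = 2 ^ 95 - ubS g5 g4 t i)
    (h : tailChk RS RR rs Y t (t + g5) (t + g5 + g4) (6 * t + 5 * g5 + 4 * g4) i = true)
    {b : ℕ} (hb : lv g5 g4 t i ≤ b) (h7 : 7 ≤ b) (h29 : b ≤ 29) :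
    mu 6 b (lamS b g5 g4 t i) ≤ mu b 6 (lamS b g5 g4 t i) := by
  have e : tailChk RS RR rs Y t (t + g5) (t + g5 + g4) (6 * t + 5 * g5 + 4 * g4) i =
      tailLoop RS RR rs (dig 96 Y i) t (t + g5) (t + g5 + g4) (t + g5 + g4 + i / 96)
        (t + g5 + g4 + i / 96 + i % 96) (30 - (lv g5 g4 t i + (7 - lv g5 g4 t i)))
        (lv g5 g4 t i + (7 - lv g5 g4 t i)) := by
    rw [← land_shift_eq_dig]
    simp only [tailChk, force_eq']
    rfl
  rw [e] at h
  exact tailLoop_spec hS hR h1 hc _ _ (by omega) h b (by omega) (by omega)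

theorem sliceChk_spec {RS RR : List RunD} {gens : List Box} {T RI : Lev} {BAD : List Lev}
    {g5 g4 Ye Yo t : ℕ} (h : sliceChk RS RR gens T RI BAD g5 g4 Ye Yo t = true) {ρ : ℕ}
    (hρ : ρ = 174 - (6 * t + 5 * g5 + 4 * g4)) :
    nth3 T g5 g4 t &&& vm ρ = nth3 T g5 g4 t ∧
    (∃ rs n, n ≤ 30 ∧ Nat.land (covBase RS rs t (t + g5) (t + g5 + g4) (gm ρ - nth3 T g5 g4 t)
      (covGen T gens g5 g4 t (mask (96 * (96 * (ρ / 3 + 1)))) (gm ρ - nth3 T g5 g4 t)) n) (gm ρ) =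
      gm ρ) ∧
    ∃ rs bad, Nat.land ((Nat.land (if t % 2 = 0 then Ye else Yo) (mask (96 * (96 * (ρ / 3 + 1)))) +
      720 * nth3 T g5 g4 t) ||| badMask bad) (gm ρ) = gm ρ ∧
      allL (tailChk RS RR rs (if t % 2 = 0 then Ye else Yo) t (t + g5) (t + g5 + g4)
        (6 * t + 5 * g5 + 4 * g4)) bad = true := by
  simp only [sliceChk, force_eq', brec_beq, Nat.add_eq, Nat.mul_eq, Nat.sub_eq] at h
  rw [← hρ] at h
  rw [← mul_assoc]
  by_cases c1 : (nth3 T g5 g4 t).land (vm ρ) = nth3 T g5 g4 t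
  swap
  · rw [if_neg c1] at h; exact absurd h (by decide)
  rw [if_pos c1] at h
  refine ⟨c1, ?_⟩
  obtain ⟨c2, h⟩ : _ ∧ _ := by simpa only [Bool.if_false_right, Bool.and_eq_true,
    decide_eq_true_eq] using h
  exact ⟨⟨_, _, by split_ifs <;> omega, c2⟩, _, _, h⟩

theorem dig_yOf' {n : ℕ} {E O : ℕ × ℕ × ℕ × ℕ} {f g : ℕ → ℤ} (hE : Quad n E f) (hO : Quad n O g)
    (hb : E.2.2.1 + E.2.2.2 + (O.2.2.1 + O.2.2.2) ≤ 4398046511104) : ∀ i < n,
    (dig 96 (yOf (96 * n) E.1 E.2.1 E.2.2.1 E.2.2.2 O.2.1 O.1 O.2.2.2 O.2.2.1) i : ℤ) =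
      2 ^ 95 - (f i + -1 * g i) ∧ |f i + -1 * g i| ≤ 2 ^ 93 := by
  obtain ⟨O', h1, h2, h3, h4, h5⟩ : ∃ O' : ℕ × ℕ × ℕ × ℕ, O'.1 = O.2.1 ∧ O'.2.1 = O.1 ∧
      O'.2.2.1 = O.2.2.2 ∧ O'.2.2.2 = O.2.2.1 ∧ Quad n O' fun i => -1 * g i :=
    ⟨_, rfl, rfl, rfl, rfl, hO.neg⟩
  rw [← h1, ← h2, ← h3, ← h4]
  exact dig_yOf hE h5 (by rw [h3, h4, add_comm O.2.2.2]; exact hb)

theorem pairChk_spec {RS RR : List RunD} {gens : List Box} {MS : List ℕ} {T RI : Lev}
    {BAD : List Lev} (hM : MSOK MS) {g5 g4 t : ℕ} (hd : 6 * t + 5 * g5 + 4 * g4 ≤ 174)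
    (h : pairChk RS RR gens MS T RI BAD (44 * g5 + g4) = true) :
    ∃ Ye Yo, sliceChk RS RR gens T RI BAD g5 g4 Ye Yo t = true ∧
      ∀ i < 96 * ((174 - (5 * g5 + 4 * g4)) / 3 + 1),
        (dig 96 (if t % 2 = 0 then Ye else Yo) i : ℤ) = 2 ^ 95 - ubS g5 g4 t i ∧
          |ubS g5 g4 t i| ≤ 2 ^ 93 := by
  have e1 : Nat.div (44 * g5 + g4) 44 = g5 := by
    show (44 * g5 + g4) / 44 = g5
    omega
  have e2 : Nat.mod (44 * g5 + g4) 44 = g4 := by
    show (44 * g5 + g4) % 44 = g4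
    omega
  rw [pairChk, force_eq', force_eq', e1, e2, brec_ble,
    if_pos (show Nat.add (Nat.mul 5 g5) (Nat.mul 4 g4) ≤ 174 from
      (by omega : 5 * g5 + 4 * g4 ≤ 174)), force_eq', force_eq', force_eq'] at h
  obtain ⟨nr, hnr⟩ : ∃ nr, nr = (174 - (5 * g5 + 4 * g4)) / 3 + 1 := ⟨_, rfl⟩
  have eN : Nat.mul 9216 (Nat.add (Nat.div (Nat.sub 174 (Nat.add (Nat.mul 5 g5) (Nat.mul 4 g4))) 3) 1) =
      9216 * nr := by rw [hnr]; rfl
  have es : Nat.mul 9216 (Nat.add (Nat.add g4 g5) 2) = 9216 * (g4 + g5 + 2) := rfl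
  rw [eN, es] at h
  rw [← hnr]
  have qE := ubAcc_spec hM (g5 := g5) (g4 := g4) (h0 := g4 + g5 + 2) (nr := nr) (by omega)
    (by omega) (by omega) trmE (by decide)
  have qO := ubAcc_spec hM (g5 := g5) (g4 := g4) (h0 := g4 + g5 + 2) (nr := nr) (by omega)
    (by omega) (by omega) trmO (by decide)
  generalize ubAcc MS g5 g4 (9216 * (g4 + g5 + 2)) (mask (9216 * nr)) trmE = E at h qE
  generalize ubAcc MS g5 g4 (9216 * (g4 + g5 + 2)) (mask (9216 * nr)) trmO = O at h qO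
  rw [pairBody, brec_ble, show 9216 * nr = 96 * (96 * nr) by ring] at h
  split_ifs at h with hb
  have hb' : E.2.2.1 + E.2.2.2 + (O.2.2.1 + O.2.2.2) ≤ 4398046511104 := hb
  refine ⟨_, _, allFrom_spec h t (Nat.zero_le _) ?_, fun i hi => ?_⟩
  · show t < 0 + ((174 - (5 * g5 + 4 * g4)) / 6 + 1)
    omega
  · rw [ubS, ubZ_eq_tv]
    split_ifs with ht
    · rw [(Nat.even_iff.2 ht).neg_one_pow, one_mul]
      exact dig_yOf qE qO hb' i hi
    · rw [(Nat.odd_iff.2 (by omega)).neg_one_pow]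
      exact dig_yOf' qE qO hb' i hi

theorem tg_add {g5 g4 t i a2 a3 a4 a5 a6 c : ℕ} (h : i % 96 + a2 < 96)
    (hc : 6 * c = 2 * a2 + 3 * a3 + 4 * a4 + 5 * a5 + 6 * a6)
    (hpos : 0 < mu c 6 (lam (c * 6) a6 (a6 + a5) (a6 + a5 + a4) (a6 + a5 + a4 + a3)
      (a6 + a5 + a4 + a3 + a2))) :
    lv (g5 + a5) (g4 + a4) (t + a6) (i + (a2 + 96 * a3)) = lv g5 g4 t i + c ∧
      tg g5 g4 t i ≤ tg (g5 + a5) (g4 + a4) (t + a6) (i + (a2 + 96 * a3)) := by
  have m1 : (i + (a2 + 96 * a3)) % 96 = i % 96 + a2 := by omega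
  have m2 : (i + (a2 + 96 * a3)) / 96 = i / 96 + a3 := by omega
  have hlv : lv (g5 + a5) (g4 + a4) (t + a6) (i + (a2 + 96 * a3)) = lv g5 g4 t i + c := by
    unfold lv
    rw [m1, m2]
    generalize i % 96 = x
    generalize i / 96 = y
    omega
  refine ⟨hlv, (mu_le_add _ c 6 _ _ (lamS_antitone (le_refl (lv g5 g4 t i)))
    (lam_antitone (by omega) (by omega) (by omega) (by omega) (by omega)) hpos).trans
    (le_of_eq ?_)⟩
  rw [tg, hlv]
  congr 1
  have hle : 6 * t + 5 * g5 + 4 * g4 + 2 * (i % 96) + 3 * (i / 96) ≤ 6 * lv g5 g4 t i := by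
    unfold lv; omega
  unfold lamS
  rw [m1, m2]
  generalize i % 96 = x at *
  generalize i / 96 = y at *
  generalize lv g5 g4 t i = e at *
  funext k
  fin_cases k <;> simp [lam] <;> omega

section

variable {RS RR : List RunD} {gens : List Box} {T RI : Lev} {BAD : List Lev}

theorem dp_inv {g5 g4 t Ye Yo : ℕ} (hc : sliceChk RS RR gens T RI BAD g5 g4 Ye Yo t = true) (i : ℕ) :
    dig 96 (nth3 T g5 g4 t) i < 2 ^ 84 ∧ (dig 96 (nth3 T g5 g4 t) i ≠ 0 →
      2 * (i % 96) + 3 * (i / 96) ≤ 174 - (6 * t + 5 * g5 + 4 * g4)) := by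
  have k1 := (sliceChk_spec hc rfl).1
  rw [← k1, dig_land, dig_vm (by omega)]
  split_ifs with hi
  · exact ⟨Nat.and_le_right.trans_lt (by norm_num), fun _ => hi⟩
  · simp

theorem le_of_guard {X S ρ i : ℕ} (hρ : ρ ≤ 174) (hi : 2 * (i % 96) + 3 * (i / 96) ≤ ρ)
    (hX : ∀ s, dig 96 X s < 2 ^ 84 ∧ (dig 96 X s ≠ 0 → 2 * (s % 96) + 3 * (s / 96) ≤ ρ))
    (hS : ∀ s, dig 96 S s < 2 ^ 95) (h : (S + (gm ρ - X)).testBit (96 * i + 95) = true) :
    dig 96 X i ≤ dig 96 S i := by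
  have hGT : ∀ s, dig 96 (gm ρ - X) s = dig 96 (gm ρ) s - dig 96 X s := by
    refine dig_sub (by norm_num) fun s => ?_
    obtain ⟨a1, a2⟩ := hX s
    rw [dig_gm hρ]
    split_ifs with h
    · omega
    · by_contra h'
      exact h (a2 (by omega))
  rw [testBit_guard, dig_add, hGT, dig_gm hρ, if_pos hi] at h
  · have := (hX i).1
    omega
  · intro s
    have := hS s
    rw [hGT, dig_gm hρ]
    split_ifs <;> omega

theorem dp_low (hS : ∀ k, Good (nth RS RunD.nil k) 6) (hG : GenOK gens)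
    (hP : ∀ g5 g4 t, 6 * t + 5 * g5 + 4 * g4 ≤ 174 →
      ∃ Ye Yo, sliceChk RS RR gens T RI BAD g5 g4 Ye Yo t = true) (e : ℕ) :
    ∀ g5 g4 t i, 6 * t + 5 * g5 + 4 * g4 ≤ 174 → lv g5 g4 t i = e →
      (dig 96 (nth3 T g5 g4 t) i : ℤ) ≤ tg g5 g4 t i := by
  induction e using Nat.strong_induction_on with
  | _ e ih =>
    intro g5 g4 t i hd he
    by_cases h0 : dig 96 (nth3 T g5 g4 t) i = 0
    · rw [h0]; exact tg_nonneg _ _ _ _
    obtain ⟨Ye, Yo, hc⟩ := hP g5 g4 t hd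
    have hi := (dp_inv hc i).2 h0
    obtain ⟨rs, n, hn, k1⟩ := (sliceChk_spec hc rfl).2.1
    have k2 := guard_of_land (Nat.sub_le _ _) k1 hi
    have src := fun S => le_of_guard (S := S) (Nat.sub_le _ _) hi (dp_inv hc)
    rcases covBase_spec _ _ _ _ _ _ _ _ _ k2 with k3 | ⟨c, hc', k3⟩
    · rcases covGen_spec _ _ _ _ _ _ _ _ k3 with k4 | ⟨x, hx, x4, x5, x6, k4⟩
      · have := src 0 (fun s => by rw [dig_zero]; norm_num) (by rwa [zero_add])
        rw [dig_zero] at this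
        exact absurd (Nat.le_zero.1 this) h0
      · obtain ⟨c, c1, c2, c3, c4⟩ := hG x hx
        obtain ⟨g4, rfl⟩ := Nat.exists_eq_add_of_le' x4
        obtain ⟨g5, rfl⟩ := Nat.exists_eq_add_of_le' x5
        obtain ⟨t, rfl⟩ := Nat.exists_eq_add_of_le' x6
        rw [Nat.add_sub_cancel, Nat.add_sub_cancel, Nat.add_sub_cancel] at k4
        have hd' : 6 * t + 5 * g5 + 4 * g4 ≤ 174 := by clear * - hd; omega
        obtain ⟨Ye', Yo', hc'⟩ := hP g5 g4 t hd'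
        have k5 := src _ (fun s => by
          rw [dig_shiftLeft]
          split_ifs
          · rw [dig_land_mask]
            split_ifs
            · exact (dp_inv hc' _).1.trans (by norm_num)
            · norm_num
          · norm_num) k4
        rw [dig_shiftLeft] at k5
        split_ifs at k5 with s1
        swap
        · exact absurd (Nat.le_zero.1 k5) h0
        rw [dig_land_mask] at k5
        split_ifs at k5 with s2
        swap
        · exact absurd (Nat.le_zero.1 k5) h0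
        obtain ⟨i, rfl⟩ := Nat.exists_eq_add_of_le' s1
        rw [Nat.add_sub_cancel] at k5
        have k6 := (dp_inv hc' i).2 fun h => h0 (Nat.le_zero.1 (h ▸ k5))
        obtain ⟨k7, k8⟩ := tg_add (g5 := g5) (g4 := g4) (t := t) (i := i)
          (by clear * - k6 c3; omega) c2 c4
        have k9 := ih _ (by clear * - k7 he c1; omega) _ _ _ i hd' rfl
        exact le_trans (by exact_mod_cast k5) (k9.trans k8)
    · have k4 := dig_baseB (hS (runId rs c)) (b := c) (hc'.trans_le hn) g5 g4 t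
      have k5 := src _ (fun s => (k4 s).1) k3
      exact le_trans (by exact_mod_cast k5) (k4 i).2

theorem exists_lamS {b : ℕ} (h29 : b ≤ 29) (l : Fin 6 → ℕ) (hl : Antitone l)
    (hs : ∑ i, l i = 6 * b) : ∃ g5 g4 t i, l = lamS b g5 g4 t i ∧ lv g5 g4 t i ≤ b ∧
      6 * t + 5 * g5 + 4 * g4 + (2 * (i % 96) + 3 * (i / 96)) ≤ 174 := by
  have a1 : l 5 ≤ l 4 := hl (by decide)
  have a2 : l 4 ≤ l 3 := hl (by decide)
  have a3 : l 3 ≤ l 2 := hl (by decide)
  have a4 : l 2 ≤ l 1 := hl (by decide)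
  have a5 : l 1 ≤ l 0 := hl (by decide)
  rw [Fin.sum_univ_six] at hs
  have m1 : (l 1 - l 2 + 96 * (l 2 - l 3)) % 96 = l 1 - l 2 := by omega
  have m2 : (l 1 - l 2 + 96 * (l 2 - l 3)) / 96 = l 2 - l 3 := by omega
  refine ⟨l 4 - l 5, l 3 - l 4, l 5, l 1 - l 2 + 96 * (l 2 - l 3), ?_, ?_, ?_⟩
  · rw [lamS, m1, m2]
    clear m1 m2
    funext k
    fin_cases k <;> simp [lam] <;> omega
  · rw [lv, m1, m2]
    clear m1 m2
    omega
  · rw [m1, m2]
    clear m1 m2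
    omega

theorem dp_sound {MS : List ℕ}
    (hS : ∀ k, Good (nth RS RunD.nil k) 6) (hR : ∀ b, Good (nth RR RunD.nil b) b)
    (h1 : 0 < mu 1 6 (lam (1 * 6) 0 0 0 0 0)) (hG : GenOK gens) (hM : MSOK MS)
    (h : AllLt (pairChk RS RR gens MS T RI BAD) 1540) {b : ℕ} (h7 : 7 ≤ b) (h29 : b ≤ 29)
    (l : Fin 6 → ℕ) (hl : Antitone l) (hs : ∑ i, l i = 6 * b) : mu 6 b l ≤ mu b 6 l := by
  have hP : ∀ g5 g4 t, 6 * t + 5 * g5 + 4 * g4 ≤ 174 → _ := fun g5 g4 t hd =>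
    pairChk_spec hM hd (h (44 * g5 + g4) (by omega))
  obtain ⟨g5, g4, t, i, rfl, hb, hi⟩ := exists_lamS h29 l hl hs
  have hd : 6 * t + 5 * g5 + 4 * g4 ≤ 174 := by omega
  have low := dp_low hS hG (fun g5 g4 t hd => (hP g5 g4 t hd).imp fun _ h => h.imp fun _ h => h.1)
    _ g5 g4 t i hd rfl
  obtain ⟨Ye, Yo, hc, hY⟩ := hP g5 g4 t hd
  obtain ⟨rs, bad, k1, k2⟩ := (sliceChk_spec hc rfl).2.2
  have inv := dp_inv hc
  generalize (if t % 2 = 0 then Ye else Yo) = Y at hY k1 k2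
  have hi1 : 2 * (i % 96) + 3 * (i / 96) ≤ 174 - (6 * t + 5 * g5 + 4 * g4) := by omega
  have hi2 : i < 96 * ((174 - (6 * t + 5 * g5 + 4 * g4)) / 3 + 1) := by omega
  have hi3 : 96 * ((174 - (6 * t + 5 * g5 + 4 * g4)) / 3 + 1) ≤
    96 * ((174 - (5 * g5 + 4 * g4)) / 3 + 1) := by omega
  have k3 := guard_of_land (i := i) (Nat.sub_le _ _) k1 hi1
  have k4 := (hY i (hi2.trans_le hi3)).1
  rw [Nat.testBit_lor, Bool.or_eq_true] at k3
  rcases k3 with k3 | k3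
  · have hX : ∀ s, dig 96 (720 * nth3 T g5 g4 t) s = 720 * dig 96 (nth3 T g5 g4 t) s :=
      dig_mul fun s => by have := (inv s).1; clear * - this; omega
    rw [testBit_guard, dig_add, hX, dig_land_mask, if_pos hi2] at k3
    · obtain ⟨c, rfl⟩ := Nat.exists_eq_add_of_le hb
      have k6 := mu_mono h1 (le_refl (lv g5 g4 t i)) c
      have k7 := mu_le_ubS hb
      unfold tg at low
      clear * - k3 k4 k6 k7 low
      omega
    · intro s
      have := (inv s).1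
      rw [hX, dig_land_mask]
      split_ifs with hs'
      · obtain ⟨k5, k6⟩ := hY s (hs'.trans_le hi3)
        rw [abs_le] at k6
        clear * - this k5 k6
        omega
      · clear * - this
        omega
  · exact tailChk_spec hS hR h1 k4 (allL_spec _ _ k2 i (badMask_spec _ _ k3)) hb h7 h29

end

end Crest.Agent.R187
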