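import Crest.Agent.R187.RunDef

/-! Kernel friendly programs checking the final cover. -/

set_option autoImplicit false

namespace Crest.Agent.R187

noncomputable section

structure RunD where
  bs : List Box
  Ts : List Lev
  d : Nat
  w : Nat
  σ : Nat
  B : Nat

def RunD.nil : RunD := ⟨[], [], 0, 0, 0, 0⟩

def rR (r : RunD) (j l6 l5 l4 : Nat) : Nat :=
  IF Nat.ble j r.B THEN rows r.bs r.d j l6 (Nat.add l5 1) (Nat.add l4 2) ELSE 0

def rZ (r : RunD) (j l6 l5 l4 : Nat) : Nat :=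
  force (Nat.mul r.w (Nat.mul r.σ (rR r j l6 l5 l4))) fun N => force (Nat.add l5 1) fun n5 =>
    Zv (nth r.Ts [] j) r.w N l6 n5 l4

def muAt (r : RunD) (j l6 l5 l4 l3 l2 : Nat) : Nat :=
  Nat.sub (Nat.land (Nat.shiftRight (rZ r j l6 l5 l4)
    (Nat.mul r.w (Nat.add (Nat.add l2 4) (Nat.mul r.σ (Nat.add l3 3))))) (mask r.w))
    (Nat.pow 2 (Nat.sub r.w 1))

/-! ### lower bounds from exact values -/

def triV (w y c : Nat) : Nat :=
  Nat.sub (Nat.land (Nat.shiftRight y (Nat.mul w c)) (mask w)) (Nat.pow 2 (Nat.sub w 1))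

def baseRow (r : RunD) (b l6 l5 l4 q g3 : Nat) : Nat :=
  force (Nat.add l4 g3) fun l3 => force (Nat.div (Nat.sub q l3) 2) fun s2 =>
    (fun y => Nat.shiftRight (Nat.shiftLeft
      (Nat.lor (Nat.lor (triV r.w y 0) (Nat.shiftLeft (triV r.w y 1) 96))
        (Nat.shiftLeft (triV r.w y 2) 192)) (Nat.mul 96 (Nat.sub s2 l3))) 192)
    (Nat.land (Nat.shiftRight (rZ r b l6 l5 l4)
      (Nat.mul r.w (Nat.add (Nat.add s2 2) (Nat.mul r.σ (Nat.add l3 3))))) (mask (Nat.mul r.w 3)))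

def baseRows (r : RunD) (b l6 l5 l4 q cnt : Nat) : Nat :=
  Nat.rec (motive := fun _ => Nat) 0
    (fun g3 acc => Nat.lor acc (Nat.shiftLeft (baseRow r b l6 l5 l4 q g3) (Nat.mul 9216 g3))) cnt

def baseB (r : RunD) (b l6 l5 l4 : Nat) : Nat :=
  force (Nat.sub (Nat.mul 6 b) (Nat.add (Nat.add l4 l5) l6)) fun q =>
    (fun R => baseRows r b l6 l5 l4 q
      (Nat.sub (Nat.sub R (Nat.sub R (Nat.add (Nat.div q 3) 1))) l4))
      (Nat.sub (rR r b l6 l5 l4) 3)

def runId (rs b : Nat) : Nat := Nat.land (Nat.shiftRight rs (Nat.mul 3 b)) 7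

def covBase (RS : List RunD) (rs l6 l5 l4 GT init n : Nat) : Nat :=
  Nat.rec (motive := fun _ => Nat) init
    (fun b acc => force (runId rs b) fun id =>
      IF Nat.beq id 0 THEN acc ELSE
        Nat.lor acc (Nat.add (baseB (nth RS RunD.nil id) b l6 l5 l4) GT)) n

/-! ### lower bounds from generators -/

def nth3 (T : Lev) (a b c : Nat) : Nat := nth (nth (nth T [] a) [] b) 0 c

/-- a generator is given by its gaps `(g2, g3, g4, g5, t)` -/
def covGen (T : Lev) (gens : List Box) (g5 g4 t M GT : Nat) : Nat :=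
  List.rec (motive := fun _ => Nat) GT
    (fun x _ acc =>
      IF Nat.beq (Nat.add (Nat.add (Nat.sub x.2.2.1 g4) (Nat.sub x.2.2.2.1 g5))
          (Nat.sub x.2.2.2.2 t)) 0 THEN
        Nat.lor acc (Nat.add (Nat.shiftLeft (Nat.land
          (force (Nat.sub g5 x.2.2.2.1) fun a => force (Nat.sub g4 x.2.2.1) fun b =>
            force (Nat.sub t x.2.2.2.2) fun c => nth3 T a b c) M)
          (Nat.mul 96 (Nat.add x.1 (Nat.mul 96 x.2.1)))) GT)
      ELSE acc) gens

def genChk (r : RunD) (gens : List Box) : Bool :=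
  List.rec (motive := fun _ => Bool) true
    (fun x _ ih =>
      force (Nat.add (Nat.add (Nat.add (Nat.add (Nat.mul 2 x.1) (Nat.mul 3 x.2.1))
        (Nat.mul 4 x.2.2.1)) (Nat.mul 5 x.2.2.2.1)) (Nat.mul 6 x.2.2.2.2)) fun s =>
      force (Nat.add x.2.2.2.2 x.2.2.2.1) fun l5 => force (Nat.add l5 x.2.2.1) fun l4 =>
      force (Nat.add l4 x.2.1) fun l3 => force (Nat.div s 6) fun c =>
        Nat.beq (Nat.mul 6 c) s && Nat.ble 1 c && Nat.ble x.1 8 &&
          Nat.blt (Nat.add l3 3) (rR r c x.2.2.2.2 l5 l4) &&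
          Nat.blt 0 (muAt r c x.2.2.2.2 l5 l4 l3 (Nat.add l3 x.1)) && ih) gens

def umF (f ρ : Nat) : Nat :=
  Nat.rec (motive := fun _ => Nat → Nat) (fun _ => 0)
    (fun _ ih ρ => Nat.lor (onesN 96 (Nat.mul 96 (Nat.add (Nat.div ρ 2) 1)))
      (Nat.shiftLeft (force (Nat.sub ρ 3) ih) 9216)) f ρ

/-- indicator of the region `2 g2 + 3 g3 ≤ ρ` -/
def um (ρ : Nat) : Nat := force (Nat.add (Nat.div ρ 3) 1) fun f => umF f ρ

def gm (ρ : Nat) : Nat := Nat.mul 39614081257132168796771975168 (um ρ)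

def vm (ρ : Nat) : Nat := Nat.mul 19342813113834066795298815 (um ρ)

/-! ### upper bounds -/

abbrev I5 := Int × Int × Int × Int × Int

def colL (q : I5) (m : Nat) : I5 :=
  Nat.rec (motive := fun _ => I5) (1, 0, 0, 0, 0)
    (fun _ c => (-(q.1 * c.1 + q.2.1 * c.2.1 + q.2.2.1 * c.2.2.1 + q.2.2.2.1 * c.2.2.2.1 +
      q.2.2.2.2 * c.2.2.2.2), c.1, c.2.1, c.2.2.1, c.2.2.2.1)) m

def cmp (c : I5) : Nat → Int
  | 1 => c.2.1
  | 2 => c.2.2.1
  | 3 => c.2.2.2.1
  | _ => c.2.2.2.2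

def clsL : List I5 :=
  [(-5, 10, -10, 5, -1), (-3, 2, 2, -3, 1), (-1, -2, 2, 1, -1), (1, -2, -2, 1, 1),
   (-2, 1, -1, 2, -1), (0, -1, -1, 0, 1), (1, 1, -1, -1, -1), (-1, 0, 0, -1, 1),
   (1, 0, 0, -1, -1), (0, 0, 0, 0, -1), (1, 1, 1, 1, 1)]

def uu (c a x : Nat) : Int := cmp (colL (nth clsL (0, 0, 0, 0, 0) c) x) a

def uChk (i : Nat) : Bool :=
  force (Nat.div i 160) fun c => force (Nat.mod i 160) fun x =>
    Nat.ble (Int.natAbs (uu c 1 x)) 33554432 && Nat.ble (Int.natAbs (uu c 2 x)) 33554432 &&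
    Nat.ble (Int.natAbs (uu c 3 x)) 33554432 && Nat.ble (Int.natAbs (uu c 4 x)) 33554432

def uPack (c a n : Nat) : Nat :=
  Nat.rec (motive := fun _ => Nat) 0
    (fun x acc => Nat.add acc (Nat.shiftLeft (Int.toNat (uu c a x + 33554432)) (Nat.mul 96 x))) n

def uRow (c a h : Nat) : Int :=
  Int.ofNat (Nat.land (Nat.shiftRight (uPack c a 160) (Nat.mul 96 (Nat.add h 2))) (mask 9216))

def mRow (c a b h : Nat) : Nat :=
  force (Nat.add h 1) fun y =>
    Int.toNat (uu c b y * uRow c a h - uu c a y * uRow c b h +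
      (2251799813685248 - (uu c b y - uu c a y) * 33554432) * Int.ofNat (onesN 96 9216))

def master (c a b n : Nat) : Nat :=
  Nat.rec (motive := fun _ => Nat) 0
    (fun h acc => Nat.add acc (Nat.shiftLeft (mRow c a b h) (Nat.mul 9216 h))) n

def prA (p : Nat) : Nat := nth [4, 4, 4, 3, 3, 2] 0 p
def prB (p : Nat) : Nat := nth [3, 2, 1, 2, 1, 1] 0 p

def msChk (MS : List Nat) (i : Nat) : Bool :=
  force (Nat.div i 6) fun c => force (prA (Nat.mod i 6)) fun a => force (prB (Nat.mod i 6)) fun b =>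
    Nat.beq (nth MS 0 i) (master c a b 61)

def rowM (MS : List Nat) (i g5 : Nat) : Nat :=
  Nat.land (Nat.shiftRight (nth MS 0 i) (Nat.mul 9216 g5)) (mask 9216)

/-- a term is `(sign, size, index of the packed minor, index of the coefficient minor)` -/
abbrev Trm := Bool × Nat × Nat × Nat

def ubStep (MS : List Nat) (g5 g4 sh M : Nat) (x : Trm) (st : Nat × Nat × Nat × Nat) :
    Nat × Nat × Nat × Nat :=
  force (Nat.land (Nat.shiftRight (rowM MS x.2.2.2 g5) (Nat.mul 96 g4)) (mask 96)) fun cd =>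
    force (Nat.mul x.2.1 (Nat.add (Nat.sub cd 2251799813685248) (Nat.sub 2251799813685248 cd)))
      fun ca =>
      (fun v => IF (IF x.1 THEN Nat.ble 2251799813685248 cd ELSE Nat.ble cd 2251799813685248) THEN
          (Nat.add st.1 v, st.2.1, st.2.2.1, Nat.add st.2.2.2 ca)
        ELSE (st.1, Nat.add st.2.1 v, Nat.add st.2.2.1 ca, st.2.2.2))
      (Nat.mul ca (Nat.land (Nat.shiftRight (nth MS 0 x.2.2.1) sh) M))

def ubAcc (MS : List Nat) (g5 g4 sh M : Nat) (ts : List Trm) : Nat × Nat × Nat × Nat :=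
  List.rec (motive := fun _ => Nat × Nat × Nat × Nat) (0, 0, 0, 0)
    (fun x _ st => ubStep MS g5 g4 sh M x st) ts

def trmE : List Trm :=
  [(true, 1, 0, 5), (false, 1, 1, 4), (true, 1, 2, 3), (true, 1, 3, 2), (false, 1, 4, 1), (true, 1, 5, 0),
   (true, 45, 12, 17), (false, 45, 13, 16), (true, 45, 14, 15), (true, 45, 15, 14), (false, 45, 16, 13),
   (true, 45, 17, 12),
   (true, 40, 24, 29), (false, 40, 25, 28), (true, 40, 26, 27), (true, 40, 27, 26), (false, 40, 28, 25),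
   (true, 40, 29, 24),
   (true, 40, 36, 41), (false, 40, 37, 40), (true, 40, 38, 39), (true, 40, 39, 38), (false, 40, 40, 37),
   (true, 40, 41, 36),
   (true, 90, 48, 53), (false, 90, 49, 52), (true, 90, 50, 51), (true, 90, 51, 50), (false, 90, 52, 49),
   (true, 90, 53, 48),
   (true, 144, 54, 59), (false, 144, 55, 58), (true, 144, 56, 57), (true, 144, 57, 56),
   (false, 144, 58, 55), (true, 144, 59, 54)]

def trmO : List Trm :=
  [(true, 15, 6, 11), (false, 15, 7, 10), (true, 15, 8, 9), (true, 15, 9, 8), (false, 15, 10, 7),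
   (true, 15, 11, 6),
   (true, 15, 18, 23), (false, 15, 19, 22), (true, 15, 20, 21), (true, 15, 21, 20), (false, 15, 22, 19),
   (true, 15, 23, 18),
   (true, 120, 30, 35), (false, 120, 31, 34), (true, 120, 32, 33), (true, 120, 33, 32),
   (false, 120, 34, 31), (true, 120, 35, 30),
   (true, 90, 42, 47), (false, 90, 43, 46), (true, 90, 44, 45), (true, 90, 45, 44), (false, 90, 46, 43),
   (true, 90, 47, 42),
   (true, 120, 60, 65), (false, 120, 61, 64), (true, 120, 62, 63), (true, 120, 63, 62),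
   (false, 120, 64, 61), (true, 120, 65, 60)]

/-- digits `2 ^ 95 - (E + O)`, where `E = (P, Q, sp, sn)` and `O = (P', Q', sp', sn')` -/
def yOf (N P Q sp sn P' Q' sp' sn' : Nat) : Nat :=
  Nat.sub (Nat.add (Nat.add (Nat.mul (onesN 96 N)
    (Nat.sub (Nat.add 39614081257132168796771975168 (Nat.mul (Nat.add sn sn') 2251799813685248))
      (Nat.mul (Nat.add sp sp') 2251799813685248))) Q) Q') (Nat.add P P')

/-! ### exceptional tails -/

def badMask (l : List Nat) : Nat :=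
  List.rec (motive := fun _ => Nat) 0
    (fun i _ acc => Nat.lor acc (Nat.shiftLeft 1 (Nat.add (Nat.mul 96 i) 95))) l

def tailLoop (RS RR : List RunD) (rs c l6 l5 l4 l3 l2 f b : Nat) : Bool :=
  Nat.rec (motive := fun _ => Nat → Bool) (fun _ => true)
    (fun _ ih b => force (runId rs b) fun id =>
      IF Nat.ble (Nat.add l3 4) (rR (nth RS RunD.nil id) b l6 l5 l4) THEN
        force (muAt (nth RS RunD.nil id) b l6 l5 l4 l3 l2) fun s =>
          IF Nat.ble 39614081257132168796771975168 (Nat.add (Nat.mul 720 s) c) THEN true ELSE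
            (IF Nat.ble (Nat.add l3 4) (rR (nth RR RunD.nil b) 6 l6 l5 l4) THEN
              (IF Nat.ble (muAt (nth RR RunD.nil b) 6 l6 l5 l4 l3 l2) s THEN
                force (Nat.add b 1) ih ELSE false)
            ELSE false)
      ELSE false) f b

def tailChk (RS RR : List RunD) (rs Y l6 l5 l4 base i : Nat) : Bool :=
  force (Nat.mod i 96) fun g2 => force (Nat.div i 96) fun g3 =>
    force (Nat.add l4 g3) fun l3 => force (Nat.add l3 g2) fun l2 =>
      force (Nat.div (Nat.add (Nat.add (Nat.add base (Nat.mul 2 g2)) (Nat.mul 3 g3)) 5) 6) fun e =>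
        force (Nat.add e (Nat.sub 7 e)) fun b =>
          force (Nat.land (Nat.shiftRight Y (Nat.mul 96 i)) (mask 96)) fun c =>
            tailLoop RS RR rs c l6 l5 l4 l3 l2 (Nat.sub 30 b) b

def allL (f : Nat → Bool) (l : List Nat) : Bool :=
  List.rec (motive := fun _ => Bool) true (fun i _ ih => IF f i THEN ih ELSE false) l

def sliceChk (RS RR : List RunD) (gens : List Box) (T RI : Lev) (BAD : List Lev)
    (g5 g4 Ye Yo t : Nat) : Bool :=
  force (Nat.add (Nat.add (Nat.mul 6 t) (Nat.mul 5 g5)) (Nat.mul 4 g4)) fun base =>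
  force (Nat.sub 174 base) fun ρ => force (Nat.mul 9216 (Nat.add (Nat.div ρ 3) 1)) fun N =>
  force (Nat.add t g5) fun l5 => force (Nat.add l5 g4) fun l4 => force (nth3 RI g5 g4 t) fun rs =>
    (fun X Y bad =>
      IF Nat.beq (Nat.land X (vm ρ)) X THEN
        (IF Nat.beq (Nat.land (covBase RS rs t l5 l4 (Nat.sub (gm ρ) X)
            (covGen T gens g5 g4 t (mask N) (Nat.sub (gm ρ) X))
            (IF Nat.beq rs 0 THEN 0 ELSE 30)) (gm ρ)) (gm ρ) THEN
          (IF Nat.beq (Nat.land (Nat.lor (Nat.add (Nat.land Y (mask N)) (Nat.mul 720 X))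
              (badMask bad)) (gm ρ)) (gm ρ) THEN
            allL (tailChk RS RR rs Y t l5 l4 base) bad
          ELSE false)
        ELSE false)
      ELSE false)
    (nth3 T g5 g4 t) (IF Nat.beq (Nat.mod t 2) 0 THEN Ye ELSE Yo)
    (nth (nth (nth BAD [] g5) [] g4) [] t)

def pairBody (RS RR : List RunD) (gens : List Box) (T RI : Lev) (BAD : List Lev)
    (g5 g4 ρ N : Nat) (E O : Nat × Nat × Nat × Nat) : Bool :=
  IF Nat.ble (Nat.add (Nat.add E.2.2.1 E.2.2.2) (Nat.add O.2.2.1 O.2.2.2)) 4398046511104 THEN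
    allFrom (sliceChk RS RR gens T RI BAD g5 g4
      (yOf N E.1 E.2.1 E.2.2.1 E.2.2.2 O.1 O.2.1 O.2.2.1 O.2.2.2)
      (yOf N E.1 E.2.1 E.2.2.1 E.2.2.2 O.2.1 O.1 O.2.2.2 O.2.2.1))
      (Nat.add (Nat.div ρ 6) 1) 0
  ELSE false

def pairChk (RS RR : List RunD) (gens : List Box) (MS : List Nat) (T RI : Lev) (BAD : List Lev)
    (p : Nat) : Bool :=
  force (Nat.div p 44) fun g5 => force (Nat.mod p 44) fun g4 =>
    IF Nat.ble (Nat.add (Nat.mul 5 g5) (Nat.mul 4 g4)) 174 THEN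
      force (Nat.sub 174 (Nat.add (Nat.mul 5 g5) (Nat.mul 4 g4))) fun ρ =>
      force (Nat.mul 9216 (Nat.add (Nat.div ρ 3) 1)) fun N =>
      force (Nat.mul 9216 (Nat.add (Nat.add g4 g5) 2)) fun sh =>
        pairBody RS RR gens T RI BAD g5 g4 ρ N (ubAcc MS g5 g4 sh (mask N) trmE)
          (ubAcc MS g5 g4 sh (mask N) trmO)
    ELSE true

end

end Crest.Agent.R187
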