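import Crest.Agent.R187.RunGen

/-! Generator of the tables of the final cover.  Nothing is proved about it: its output is checked
by the programs of `DPDef`. -/

set_option autoImplicit false

namespace Crest.Agent.R187.Gen

structure ARun where
  bs : List Box
  Ts : Array ALev
  d : Nat
  w : Nat
  σ : Nat
  B : Nat
  deriving Inhabited

def onesN (w N : Nat) : Nat := (2 ^ N - 1) / (2 ^ w - 1)

def rR (r : ARun) (j l6 l5 l4 : Nat) : Nat :=
  if j ≤ r.B then rows r.bs r.d j l6 (l5 + 1) (l4 + 2) else 0

def rZ (r : ARun) (j l6 l5 l4 : Nat) : Nat :=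
  (rowAt r.Ts[j]! l6 (l5 + 1)).getD (l4 + 2) 0 +
    (onesN r.w (r.w * (r.σ * rR r j l6 l5 l4)) <<< (r.w - 1))

def baseB (r : ARun) (b l6 l5 l4 : Nat) : Nat := Id.run do
  let q := 6 * b - (l4 + l5 + l6)
  let cnt := min (rR r b l6 l5 l4 - 3) (q / 3 + 1) - l4
  if cnt == 0 then return 0
  let Z := rZ r b l6 l5 l4
  let mut acc := 0
  for g3 in [0:cnt] do
    let l3 := l4 + g3
    let s2 := (q - l3) / 2
    let y := (Z >>> (r.w * (s2 + 2 + r.σ * (l3 + 3)))) &&& (2 ^ (r.w * 3) - 1)
    let v := fun c => ((y >>> (r.w * c)) &&& (2 ^ r.w - 1)) - 2 ^ (r.w - 1)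
    let row := ((v 0 ||| (v 1 <<< 96) ||| (v 2 <<< 192)) <<< (96 * (s2 - l3))) >>> 192
    acc := acc ||| (row <<< (9216 * g3))
  return acc

def pickRuns (RS : Array ARun) (l6 l5 l4 : Nat) : Nat := Id.run do
  let mut rs := 0
  for b in [0:30] do
    let q := 6 * b - (l4 + l5 + l6)
    let mut best := 0
    let mut id := 0
    for i in [1:RS.size] do
      let cnt := min (rR RS[i]! b l6 l5 l4 - 3) (q / 3 + 1) - l4
      if cnt > best then
        best := cnt; id := i
    rs := rs + (id <<< (3 * b))
  return rs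

def gmTab : Array Nat := Id.run do
  let mut G : Array Nat := #[]
  for ρ in [0:175] do
    let r := onesN 96 (96 * (ρ / 2 + 1)) <<< 95
    G := G.push (if ρ < 3 then r else r ||| (G[ρ - 3]! <<< 9216))
  return G

/-- slotwise maximum inside the region with guard bits `G` (`b` vanishes outside) -/
def vmax (G a b : Nat) : Nat :=
  let ge := (a + G - b) &&& G
  let full := ge - (ge >>> 95)
  (a &&& full) ||| (b - (b &&& full))

def cls : Array (Array Int) :=
  #[#[-5, 10, -10, 5, -1], #[-3, 2, 2, -3, 1], #[-1, -2, 2, 1, -1], #[1, -2, -2, 1, 1],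
   #[-2, 1, -1, 2, -1], #[0, -1, -1, 0, 1], #[1, 1, -1, -1, -1], #[-1, 0, 0, -1, 1],
   #[1, 0, 0, -1, -1], #[0, 0, 0, 0, -1], #[1, 1, 1, 1, 1]]

/-- `u (m + 4)` is the coefficient of `t ^ m` -/
def useq (q : Array Int) : Array Int := Id.run do
  let mut u : Array Int := #[0, 0, 0, 0, 1]
  for m in [0:165] do
    u := u.push (-(q[0]! * u[m + 4]! + q[1]! * u[m + 3]! + q[2]! * u[m + 2]! + q[3]! * u[m + 1]! +
      q[4]! * u[m]!))
  return u

def masters : Array Nat := Id.run do
  let mut out := #[]
  for c in [0:11] do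
    let u := useq cls[c]!
    for (a, b) in [(4, 3), (4, 2), (4, 1), (3, 2), (3, 1), (2, 1)] do
      let mut acc := 0
      for h in [0:61] do
        let mut row := 0
        for g in [0:96] do
          let x := h + 2 + g
          let y := h + 1
          let v := u[x + 4 - a]! * u[y + 4 - b]! - u[x + 4 - b]! * u[y + 4 - a]! + 2 ^ 51
          row := row + (v.toNat <<< (96 * g))
        acc := acc + (row <<< (9216 * h))
      out := out.push acc
  return out

def ubPart (MS : Array Nat) (g5 g4 N : Nat) (cs : List (Nat × Nat)) : Int := Id.run do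
  let M := 2 ^ N - 1
  let off : Int := (onesN 96 N <<< 51 : Nat)
  let mut acc : Int := 0
  for (c, z) in cs do
    for (p, s) in [(0, (1 : Int)), (1, -1), (2, 1), (3, 1), (4, -1), (5, 1)] do
      let cd : Int := (((MS[6 * c + 5 - p]! >>> (96 * (g4 + 96 * g5))) &&& (2 ^ 96 - 1) : Nat) : Int) -
        2 ^ 51
      acc := acc + (s * z * cd) * ((((MS[6 * c + p]! >>> (9216 * (g4 + g5 + 2))) &&& M : Nat) : Int) - off)
  return acc

def yPair (MS : Array Nat) (g5 g4 : Nat) : Nat × Nat :=
  let N := 9216 * ((174 - (5 * g5 + 4 * g4)) / 3 + 1)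
  let E := ubPart MS g5 g4 N [(0, 1), (2, 45), (4, 40), (6, 40), (8, 90), (9, 144)]
  let O := ubPart MS g5 g4 N [(1, 15), (3, 15), (5, 120), (7, 90), (10, 120)]
  let off : Int := (onesN 96 N <<< 95 : Nat)
  ((off - E - O).toNat, (off - E + O).toNat)

def genSlice (RS : Array ARun) (gens : List Box) (G : Array Nat) (T : ALev) (Y : Nat)
    (g5 g4 t : Nat) : Nat × Nat × List Nat := Id.run do
  let ρ := 174 - (6 * t + 5 * g5 + 4 * g4)
  let g := G[ρ]!
  let V := (g >>> 11) - (g >>> 95)
  let M := 2 ^ (9216 * (ρ / 3 + 1)) - 1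
  let rs := pickRuns RS t (t + g5) (t + g5 + g4)
  let mut X := 0
  for b in [0:30] do
    let id := (rs >>> (3 * b)) &&& 7
    if id != 0 then X := X ||| (baseB RS[id]! b t (t + g5) (t + g5 + g4) &&& V)
  let cap := 2147483647 * (g >>> 95)
  X := X + cap - vmax g X cap
  for (a2, a3, a4, a5, a6) in gens do
    if a4 ≤ g4 ∧ a5 ≤ g5 ∧ a6 ≤ t ∧ a4 + a5 + a6 != 0 then
      X := vmax g X (((T[g5 - a5]![g4 - a4]![t - a6]! &&& M) <<< (96 * (a2 + 96 * a3))) &&& V)
  let mut go := true
  while go do
    let X0 := X
    for (a2, a3, a4, a5, a6) in gens do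
      if a4 + a5 + a6 == 0 then
        X := vmax g X ((X <<< (96 * (a2 + 96 * a3))) &&& V)
    go := X != X0
  let mut D := g - (((Y &&& M) + 720 * X) &&& g)
  let mut bad := []
  while D != 0 do
    let k := D.log2
    bad := (k / 96) :: bad
    D := D - 2 ^ k
  return (X, rs, bad)

/-- three slices are stored in the same literals -/
def quoteSl (a : Array Nat) : List XE := Id.run do
  let mut out := #[]
  for u in [0:(a.size + 2) / 3] do
    let mut W := a[3 * u]! + (a.getD (3 * u + 1) 0 <<< 32) + (a.getD (3 * u + 2) 0 <<< 64)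
    let R := W.log2 / 9216 + 1
    let mut rs := #[]
    for r in [0:R] do
      let x := W &&& (2 ^ 9216 - 1)
      W := W >>> 9216
      if x != 0 then rs := rs.push (false, slit x, r)
    let M := op ``Nat.mul (lit 4294967295) (op ``Crest.Agent.R187.onesN (lit 96) (lit (9216 * R)))
    let e := if rs.size == 0 then lit 0 else
      let (_, e, b) := tree 9216 rs 0 rs.size
      shl e (9216 * b)
    for i in [0:3] do
      if 3 * u + i < a.size then
        out := out.push (if a[3 * u + i]! == 0 then lit 0 else op ``Nat.land (shr e (32 * i)) M)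
  return out.toList

def genDP (RS : Array ARun) (gens : List Box) : XLev × XLev × List Lev := Id.run do
  let G := gmTab
  let MS := masters
  let Ys := ((Array.range 35).map fun g5 => (Array.range ((174 - 5 * g5) / 4 + 1)).map fun g4 =>
    Task.spawn fun _ => yPair MS g5 g4).map fun r => r.map Task.get
  let mut T : ALev := (Array.range 35).map fun g5 =>
    (Array.range ((174 - 5 * g5) / 4 + 1)).map fun g4 =>
      Array.replicate ((174 - 5 * g5 - 4 * g4) / 6 + 1) 0
  let mut RI := T
  let mut BAD : Array (Array (Array (List Nat))) := T.map fun a => a.map fun b => b.map fun _ => []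
  for s in [0:45] do
    let mut jobs := #[]
    for g5 in [0:min 35 (s + 1)] do
      for g4 in [0:s - g5 + 1] do
        let t := s - g5 - g4
        if 6 * t + 5 * g5 + 4 * g4 ≤ 174 then
          let T' := T
          let Y := if t % 2 == 0 then Ys[g5]![g4]!.1 else Ys[g5]![g4]!.2
          jobs := jobs.push (g5, g4, t, Task.spawn fun _ => genSlice RS gens G T' Y g5 g4 t)
    let res := jobs.map fun (g5, g4, t, k) => (g5, g4, t, k.get)
    for (g5, g4, t, X, rs, bad) in res do
      T := T.modify g5 fun a => a.modify g4 fun b => b.set! t X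
      RI := RI.modify g5 fun a => a.modify g4 fun b => b.set! t rs
      BAD := BAD.modify g5 fun a => a.modify g4 fun b => b.set! t bad
  return (T.toList.map fun s => s.toList.map quoteSl,
    RI.toList.map fun s => s.toList.map fun r => r.toList.map lit,
    BAD.toList.map fun s => s.toList.map fun r => r.toList)

def genAll (ps : List (List Box × Nat × Nat × Nat × Nat × Nat × Nat × Nat)) (gens : List Box) :
    List (List XLev) × XLev × XLev × List Lev :=
  let rs := ps.map fun (bs, d, w, σ, B, K6, K5, K4) =>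
    let Ts := genA bs d w σ B K6 K5 K4
    (ARun.mk bs Ts d w σ B, quote bs d w σ B K6 K5 K4 Ts)
  (rs.map (·.2), genDP (default :: rs.map (·.1)).toArray gens)

/-- the packed minors, built from the packed sequences -/
def mastersL : List XE := Id.run do
  let mut out := #[]
  let one := op ``Crest.Agent.R187.onesN (lit 96) (lit 9216)
  let M := op ``Nat.sub (op ``Nat.pow (lit 2) (lit 9216)) (lit 1)
  for c in [0:11] do
    let u := useq cls[c]!
    let U := (Array.range 5).map fun a => slit <| (Array.range 160).foldl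
      (fun acc x => acc + ((u[x + 4 - a]! + 2 ^ 25).toNat <<< (96 * x))) 0
    let V := U.map fun e => (Array.range 61).map fun h => op ``Nat.land (shr e (96 * (h + 2))) M
    for (a, b) in [(4, 3), (4, 2), (4, 1), (3, 2), (3, 1), (2, 1)] do
      let rs := (Array.range 61).map fun h => Id.run do
        let p := u[h + 5 - b]!
        let q := -u[h + 5 - a]!
        let mut e := op ``Nat.mul (lit (2 ^ 51 - (p + q) * 2 ^ 25).toNat) one
        if p > 0 then e := op ``Nat.add e (op ``Nat.mul (lit p.toNat) V[a]![h]!)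
        if q > 0 then e := op ``Nat.add e (op ``Nat.mul (lit q.toNat) V[b]![h]!)
        if p < 0 then e := op ``Nat.sub e (op ``Nat.mul (lit (-p).toNat) V[a]![h]!)
        if q < 0 then e := op ``Nat.sub e (op ``Nat.mul (lit (-q).toNat) V[b]![h]!)
        return (false, e, h)
      out := out.push (tree 9216 rs 0 61).2.1
  return out.toList

end Crest.Agent.R187.Gen
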