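import Crest.Agent.R187.DPGen

/-! Tables for `Sym^6 (Sym^b)` and packed minors (checked in the files `ChkR*`). -/

set_option autoImplicit false

namespace Crest.Agent.R187

noncomputable def MS : List Nat := eval% Gen.mastersL

def bR7 : List Box := [(6, 6, 6, 6, 6), (6, 14, 10, 8, 4)]
noncomputable def TR7 : List Lev := eval% Gen.gen bR7 7 16 48 6 7 10 13

def bR8 : List Box := [(6, 8, 8, 8, 6), (6, 16, 12, 9, 3)]
noncomputable def TR8 : List Lev := eval% Gen.gen bR8 8 17 54 6 7 11 15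

def bR9 : List Box := [(6, 16, 2, 2, 2), (6, 17, 13, 2, 1), (6, 18, 12, 8, 0)]
noncomputable def TR9 : List Lev := eval% Gen.gen bR9 9 18 60 6 3 10 16

def bR10 : List Box := [(6, 18, 3, 3, 0), (6, 20, 15, 2, 0), (6, 19, 4, 2, 1)]
noncomputable def TR10 : List Lev := eval% Gen.gen bR10 10 20 66 6 2 5 18

def bR11 : List Box := [(6, 22, 16, 0, 0), (6, 21, 3, 3, 1), (6, 20, 5, 2, 0)]
noncomputable def TR11 : List Lev := eval% Gen.gen bR11 11 22 72 6 2 5 19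

def bR12 : List Box := [(6, 23, 3, 2, 1), (6, 24, 18, 0, 0), (6, 22, 5, 2, 0)]
noncomputable def TR12 : List Lev := eval% Gen.gen bR12 12 22 78 6 2 4 21

def bR13 : List Box := [(6, 5, 4, 1, 0), (6, 25, 3, 2, 1), (6, 26, 6, 0, 0)]
noncomputable def TR13 : List Lev := eval% Gen.gen bR13 13 24 84 6 2 4 9

def bR14 : List Box := [(6, 7, 5, 0, 0), (6, 28, 4, 1, 0), (6, 7, 3, 2, 1)]
noncomputable def TR14 : List Lev := eval% Gen.gen bR14 14 24 90 6 2 4 8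

def bR15 : List Box := [(6, 5, 5, 0, 0), (6, 6, 3, 2, 1), (6, 30, 4, 1, 0)]
noncomputable def TR15 : List Lev := eval% Gen.gen bR15 15 25 96 6 2 4 8

def bR16 : List Box := [(6, 5, 5, 0, 0), (6, 8, 4, 1, 1), (6, 10, 3, 2, 0), (6, 32, 3, 0, 0)]
noncomputable def TR16 : List Lev := eval% Gen.gen bR16 16 26 102 6 2 4 8

def bR17 : List Box := [(6, 10, 3, 1, 1), (6, 34, 2, 0, 0), (6, 6, 5, 2, 0)]
noncomputable def TR17 : List Lev := eval% Gen.gen bR17 17 27 108 6 2 4 8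

def bR18 : List Box := [(6, 12, 3, 1, 1), (6, 36, 1, 0, 0), (6, 6, 5, 2, 0)]
noncomputable def TR18 : List Lev := eval% Gen.gen bR18 18 28 114 6 2 4 8

def bR19 : List Box := [(6, 10, 3, 1, 1), (6, 38, 1, 0, 0), (6, 6, 5, 2, 0)]
noncomputable def TR19 : List Lev := eval% Gen.gen bR19 19 28 120 6 2 4 8

def bR20 : List Box := [(6, 10, 3, 1, 1), (6, 40, 1, 0, 0), (6, 6, 5, 2, 0)]
noncomputable def TR20 : List Lev := eval% Gen.gen bR20 20 28 126 6 2 4 8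

def bR21 : List Box := [(6, 42, 0, 0, 0), (6, 13, 3, 1, 1), (6, 6, 5, 2, 0)]
noncomputable def TR21 : List Lev := eval% Gen.gen bR21 21 30 132 6 2 4 8

def bR22 : List Box := [(6, 44, 0, 0, 0), (6, 10, 3, 1, 1), (6, 13, 5, 0, 0), (6, 4, 3, 2, 0)]
noncomputable def TR22 : List Lev := eval% Gen.gen bR22 22 30 138 6 2 4 8

def bR23 : List Box := [(6, 46, 0, 0, 0), (6, 10, 3, 1, 1), (6, 13, 5, 0, 0), (6, 4, 3, 2, 0)]
noncomputable def TR23 : List Lev := eval% Gen.gen bR23 23 31 144 6 2 4 8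

def bR24 : List Box := [(6, 48, 0, 0, 0), (6, 10, 3, 1, 1), (6, 13, 5, 0, 0), (6, 4, 3, 2, 0)]
noncomputable def TR24 : List Lev := eval% Gen.gen bR24 24 31 150 6 2 4 8

def bR25 : List Box := [(6, 50, 0, 0, 0), (6, 5, 5, 0, 0), (6, 13, 1, 0, 0), (6, 10, 3, 1, 1), (6, 6, 4, 2, 0)]
noncomputable def TR25 : List Lev := eval% Gen.gen bR25 25 32 156 6 2 4 8

def bR26 : List Box := [(6, 3, 2, 2, 1), (6, 5, 5, 0, 0), (6, 52, 0, 0, 0), (6, 13, 1, 0, 0), (6, 10, 3, 1, 1), (6, 6, 4, 2, 0)]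
noncomputable def TR26 : List Lev := eval% Gen.gen bR26 26 32 162 6 2 4 8

def bR27 : List Box := [(6, 3, 2, 2, 1), (6, 5, 5, 0, 0), (6, 10, 3, 1, 1), (6, 6, 4, 2, 0), (6, 16, 1, 0, 0)]
noncomputable def TR27 : List Lev := eval% Gen.gen bR27 27 32 168 6 2 4 8

def bR28 : List Box := [(6, 3, 2, 2, 1), (6, 5, 5, 0, 0), (6, 10, 3, 1, 1), (6, 6, 4, 2, 0), (6, 16, 1, 0, 0)]
noncomputable def TR28 : List Lev := eval% Gen.gen bR28 28 32 174 6 2 4 8

def bR29 : List Box := [(6, 3, 2, 2, 1), (6, 5, 5, 0, 0), (6, 10, 3, 1, 1), (6, 6, 4, 2, 0), (6, 16, 1, 0, 0)]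
noncomputable def TR29 : List Lev := eval% Gen.gen bR29 29 34 180 6 2 4 8

end Crest.Agent.R187
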