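import Crest.Agent.R187.DPGen

/-! Tables for `Sym^b (Sym^6)` and for the final cover (checked in the files `ChkS*`, `ChkD*`). -/

set_option autoImplicit false

namespace Crest.Agent.R187

def bF : List Box := [(14, 99, 99, 99, 99), (15, 99, 99, 99, 1), (15, 20, 16, 11, 6)]
def bM : List Box := [(17, 99, 99, 4, 1), (18, 99, 99, 0, 0)]
def bN : List Box := [(20, 99, 10, 2, 1), (23, 99, 4, 2, 1)]
def bT : List Box := [(29, 99, 1, 0, 0), (29, 17, 3, 1, 1), (29, 12, 7, 3, 1), (29, 6, 6, 4, 2)]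

def gensL : List Box :=
  [(6, 0, 0, 0, 0), (0, 6, 0, 0, 0), (0, 0, 6, 0, 0), (0, 0, 0, 6, 0), (0, 0, 0, 0, 6),
   (1, 2, 2, 4, 0), (0, 8, 0, 0, 0), (2, 4, 2, 0, 0), (0, 0, 15, 0, 0), (0, 0, 2, 8, 0),
   (0, 10, 0, 0, 1)]

noncomputable def allS : List (List Lev) × Lev × Lev × List Lev :=
  eval% Gen.genAll [(bF, 6, 48, 96, 15, 15, 20, 25), (bM, 6, 52, 114, 18, 2, 6, 30),
    (bN, 6, 54, 144, 23, 2, 4, 13), (bT, 6, 52, 180, 29, 3, 6, 10)] gensL

noncomputable def TF : List Lev := nth allS.1 [] 0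
noncomputable def TM : List Lev := nth allS.1 [] 1
noncomputable def TN : List Lev := nth allS.1 [] 2
noncomputable def TT : List Lev := nth allS.1 [] 3
noncomputable def DT : Lev := allS.2.1
noncomputable def DI : Lev := allS.2.2.1
noncomputable def DB : List Lev := allS.2.2.2

end Crest.Agent.R187
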