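import Crest.Prelude.Def_FoulkesHowe

/-! Definitions for row 187 (Foulkes' conjecture, sixth case). -/

set_option autoImplicit false

open MvPolynomial Crest.AlgebraR.FoulkesHowe

namespace Crest.Agent.R187

/-! ## Abstract `gl_n`-modules -/

section abstract

variable {n : ℕ} {V : Type*} [AddCommGroup V] [Module ℂ V]

/-- weight space of a family of operators `E i j` -/
def wtSp (E : Fin n → Fin n → Module.End ℂ V) (μ : Fin n → ℤ) : Submodule ℂ V where
  carrier := {v | ∀ i, E i i v = (μ i : ℂ) • v}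
  add_mem' := by
    intro a b ha hb i
    rw [map_add, ha i, hb i, smul_add]
  zero_mem' := by intro i; simp
  smul_mem' := by
    intro c a ha i
    rw [map_smul, ha i, smul_comm]

theorem mem_wtSp {E : Fin n → Fin n → Module.End ℂ V} {μ : Fin n → ℤ} {v : V} :
    v ∈ wtSp E μ ↔ ∀ i, E i i v = (μ i : ℂ) • v := Iff.rfl

/-- highest weight vectors of weight `μ` -/
def hwSp (E : Fin n → Fin n → Module.End ℂ V) (μ : Fin n → ℤ) : Submodule ℂ V where
  carrier := {v | (∀ i, E i i v = (μ i : ℂ) • v) ∧ ∀ i j, i < j → E i j v = 0}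
  add_mem' := by
    intro a b ha hb
    exact ⟨fun i => by rw [map_add, ha.1 i, hb.1 i, smul_add],
      fun i j h => by rw [map_add, ha.2 i j h, hb.2 i j h, add_zero]⟩
  zero_mem' := ⟨fun i => by simp, fun i j _ => by simp⟩
  smul_mem' := by
    intro c a ha
    exact ⟨fun i => by rw [map_smul, ha.1 i, smul_comm],
      fun i j h => by rw [map_smul, ha.2 i j h, smul_zero]⟩

theorem mem_hwSp {E : Fin n → Fin n → Module.End ℂ V} {μ : Fin n → ℤ} {v : V} :
    v ∈ hwSp E μ ↔ (∀ i, E i i v = (μ i : ℂ) • v) ∧ ∀ i j, i < j → E i j v = 0 := Iff.rfl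

end abstract

/-- A unitary polynomial `gl_n`-module structure on a complex inner product space. -/
structure GlMod (n : ℕ) (V : Type*) [NormedAddCommGroup V] [InnerProductSpace ℂ V] where
  E : Fin n → Fin n → Module.End ℂ V
  S : Finset (Fin n → ℤ)
  comm : ∀ i j k l, E i j * E k l - E k l * E i j =
    (if j = k then E i l else 0) - (if l = i then E k j else 0)
  adj : ∀ i j x y, inner ℂ (E i j x) y = inner ℂ x (E j i y)
  span : ⨆ μ ∈ S, wtSp E μ = ⊤
  nonneg : ∀ μ ∈ S, ∀ i, 0 ≤ μ i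

/-- the Vandermonde product `∏_{i<j} (x_i - x_j)` -/
noncomputable def vand (n : ℕ) (R : Type*) [CommRing R] : MvPolynomial (Fin n) R :=
  ∏ i : Fin n, ∏ j ∈ Finset.Ioi i, (X i - X j)

/-- exponent vector attached to a function -/
noncomputable def ex {n : ℕ} (f : Fin n → ℕ) : Fin n →₀ ℕ := Finsupp.equivFunOnFinite.symm f

@[simp] theorem ex_apply {n : ℕ} (f : Fin n → ℕ) (i : Fin n) : ex f i = f i := rfl

/-- `ρ = (n-1, …, 1, 0)` -/
def rho (n : ℕ) : Fin n → ℕ := fun i => n - 1 - i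

/-! ## The block model -/

/-- the operator `E i j = ∑_r x_{r i} ∂ / ∂ x_{r j}` -/
noncomputable def Eop (a n : ℕ) (i j : Fin n) : Module.End ℂ (MvPolynomial (Var a n) ℂ) :=
  ∑ r : Fin a, LinearMap.mulLeft ℂ (X (r, i)) ∘ₗ (pderiv (r, j)).toLinearMap

theorem Eop_apply (a n : ℕ) (i j : Fin n) (f : MvPolynomial (Var a n) ℂ) :
    Eop a n i j f = ∑ r : Fin a, X (r, i) * pderiv (r, j) f := by
  simp [Eop, LinearMap.sum_apply]

theorem mem_blockSym {a n d : ℕ} {f : MvPolynomial (Var a n) ℂ} :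
    f ∈ blockSym a n d ↔ (∀ i : Fin a, IsWeightedHomogeneous (blockWeight i) f d) ∧
      ∀ σ : Equiv.Perm (Fin a), rename (blockPerm σ) f = f := by
  simp [blockSym, Submodule.mem_iInf, LinearMap.mem_eqLocus]

/-- highest weight vectors of weight `l` in `Sym^a (Sym^d ℂ^n)` -/
noncomputable def hw (a n d : ℕ) (l : Fin n → ℕ) : Submodule ℂ (MvPolynomial (Var a n) ℂ) :=
  blockSym a n d ⊓ hwSp (Eop a n) (fun i => (l i : ℤ))

/-- weight space of weight `l` in `Sym^a (Sym^d ℂ^n)` -/
noncomputable def wt (a n d : ℕ) (l : Fin n → ℕ) : Submodule ℂ (MvPolynomial (Var a n) ℂ) :=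
  blockSym a n d ⊓ wtSp (Eop a n) (fun i => (l i : ℤ))

/-! ## Characters -/

/-- exponent vectors of degree `d` in `n` variables -/
noncomputable def mons (n d : ℕ) : Finset (Fin n →₀ ℕ) := Finset.univ.finsuppAntidiag d

/-- the character `h_a[h_d]` of `Sym^a (Sym^d ℂ^n)`: sum over multisets of `a` monomials of
degree `d` -/
noncomputable def ple (n a d : ℕ) : MvPolynomial (Fin n) ℤ :=
  ∑ m ∈ (mons n d).finsuppAntidiag a, monomial (m.sum fun α k => k • α) 1

/-- `p_k[h_d] = h_d(x_1^k, …, x_n^k)` -/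
noncomputable def pk (n k d : ℕ) : MvPolynomial (Fin n) ℤ :=
  ∑ α ∈ mons n d, monomial (k • α) 1

/-- antisymmetrised character, six variables -/
noncomputable def cc (a d : ℕ) : MvPolynomial (Fin 6) ℤ := vand 6 ℤ * ple 6 a d

/-- the multiplicity of the irreducible module of highest weight `l` in `Sym^a (Sym^d ℂ^6)` -/
noncomputable def mu (a d : ℕ) (l : Fin 6 → ℕ) : ℤ := coeff (ex fun i => l i + rho 6 i) (cc a d)

end Crest.Agent.R187
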