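import Mathlib

/-! Packed numbers: digits in base `2 ^ w`. -/

set_option autoImplicit false

namespace Crest.Agent.R187

/-- `∑_{i < n} f i * 2 ^ (w i)` -/
def val (w : ℕ) (f : ℕ → ℤ) (n : ℕ) : ℤ := ∑ i ∈ Finset.range n, f i * 2 ^ (w * i)

/-- digit `i` in base `2 ^ w` -/
def dig (w x i : ℕ) : ℕ := x / 2 ^ (w * i) % 2 ^ w

theorem dig_lt (w x i : ℕ) : dig w x i < 2 ^ w := Nat.mod_lt _ (by positivity)

theorem val_succ (w : ℕ) (f : ℕ → ℤ) (n : ℕ) : val w f (n + 1) = val w f n + f n * 2 ^ (w * n) :=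
  Finset.sum_range_succ _ _

theorem val_succ' (w : ℕ) (f : ℕ → ℤ) (n : ℕ) :
    val w f (n + 1) = f 0 + 2 ^ w * val w (fun i => f (i + 1)) n := by
  unfold val
  rw [Finset.sum_range_succ', Finset.mul_sum]
  simp only [mul_zero, pow_zero, mul_one]
  rw [add_comm]
  congr 1
  refine Finset.sum_congr rfl fun i _ => ?_
  rw [mul_add, mul_one, pow_add]; ring

theorem val_add (w : ℕ) (f g : ℕ → ℤ) (n : ℕ) :
    val w (fun i => f i + g i) n = val w f n + val w g n := by
  simp [val, add_mul, Finset.sum_add_distrib]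

theorem val_sub (w : ℕ) (f g : ℕ → ℤ) (n : ℕ) :
    val w (fun i => f i - g i) n = val w f n - val w g n := by
  simp [val, sub_mul, Finset.sum_sub_distrib]

theorem val_mul (w : ℕ) (c : ℤ) (f : ℕ → ℤ) (n : ℕ) :
    val w (fun i => c * f i) n = c * val w f n := by
  simp [val, Finset.mul_sum, mul_assoc]

theorem val_congr {w : ℕ} {f g : ℕ → ℤ} {n : ℕ} (h : ∀ i < n, f i = g i) :
    val w f n = val w g n :=
  Finset.sum_congr rfl fun i hi => by rw [h i (Finset.mem_range.1 hi)]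

theorem val_split (w : ℕ) (f : ℕ → ℤ) (a b : ℕ) :
    val w f (a + b) = val w f a + 2 ^ (w * a) * val w (fun i => f (a + i)) b := by
  unfold val
  rw [Finset.sum_range_add, Finset.mul_sum]
  congr 1
  refine Finset.sum_congr rfl fun i _ => ?_
  rw [mul_add, pow_add]; ring

theorem val_modEq (w : ℕ) (f : ℕ → ℤ) {a b : ℕ} (h : a ≤ b) :
    val w f b ≡ val w f a [ZMOD 2 ^ (w * a)] := by
  obtain ⟨c, rfl⟩ := Nat.exists_eq_add_of_le h
  rw [val_split]
  exact (Int.modEq_iff_dvd.2 ⟨-val w (fun i => f (a + i)) c, by ring⟩)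

theorem val_eq_zero {w : ℕ} {n : ℕ} : ∀ {f : ℕ → ℤ}, val w f n ≡ 0 [ZMOD 2 ^ (w * n)] →
    (∀ i < n, |f i| < 2 ^ w) → ∀ i < n, f i = 0 := by
  induction n with
  | zero => intro f _ _ i hi; omega
  | succ n ih =>
    intro f h hb
    rw [val_succ'] at h
    have h1 : (2 : ℤ) ^ w * 2 ^ (w * n) ∣ f 0 + 2 ^ w * val w (fun i => f (i + 1)) n := by
      have := Int.modEq_zero_iff_dvd.1 h
      rwa [mul_add, mul_one, pow_add, mul_comm] at this
    have h2 : (2 : ℤ) ^ w ∣ f 0 :=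
      (dvd_add_left (dvd_mul_right _ _)).1 ((dvd_mul_right _ _).trans h1)
    have h0 : f 0 = 0 := Int.eq_zero_of_abs_lt_dvd h2 (hb 0 (by omega))
    rw [h0, zero_add] at h1
    have h3 := (mul_dvd_mul_iff_left (by positivity)).1 h1
    have h4 := ih (f := fun i => f (i + 1)) (Int.modEq_zero_iff_dvd.2 h3)
      fun i hi => hb (i + 1) (by omega)
    intro i hi
    rcases i with _ | i
    · exact h0
    · exact h4 i (by omega)

theorem val_dig (w x n : ℕ) : val w (fun i => (dig w x i : ℤ)) n = (x % 2 ^ (w * n) : ℕ) := by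
  induction n with
  | zero => simp [val, Nat.mod_one]
  | succ n ih =>
    rw [val_succ, ih, mul_add, mul_one, pow_add, Nat.mod_mul]
    simp only [dig]
    push_cast; ring

theorem modEq_val_dig (w x n : ℕ) :
    (x : ℤ) ≡ val w (fun i => (dig w x i : ℤ)) n [ZMOD 2 ^ (w * n)] := by
  rw [val_dig]
  have := (Nat.mod_modEq x (2 ^ (w * n))).symm
  exact_mod_cast Int.natCast_modEq_iff.2 this

/-- decoding -/
theorem eq_dig {w n x : ℕ} {f : ℕ → ℤ} (h : (x : ℤ) ≡ val w f n [ZMOD 2 ^ (w * n)])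
    (hb : ∀ i < n, |f i - dig w x i| < 2 ^ w) : ∀ i < n, f i = dig w x i := by
  have h1 : val w (fun i => f i - dig w x i) n ≡ 0 [ZMOD 2 ^ (w * n)] := by
    rw [val_sub]
    have := (h.symm.trans (modEq_val_dig w x n)).sub_right (val w (fun i => (dig w x i : ℤ)) n)
    simpa using this
  intro i hi
  have := val_eq_zero h1 hb i hi
  linarith

theorem eq_dig' {w n x : ℕ} {f : ℕ → ℤ} (h : (x : ℤ) ≡ val w f n [ZMOD 2 ^ (w * n)])
    (hb : ∀ i < n, 0 ≤ f i ∧ f i < 2 ^ w) : ∀ i < n, f i = dig w x i := by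
  refine eq_dig h fun i hi => ?_
  have h1 : (dig w x i : ℤ) < 2 ^ w := by exact_mod_cast dig_lt w x i
  have h2 : (0 : ℤ) ≤ dig w x i := by positivity
  rw [abs_lt]; constructor <;> linarith [(hb i hi).1, (hb i hi).2]

theorem testBit_dig (w x i r : ℕ) :
    (dig w x i).testBit r = (decide (r < w) && x.testBit (w * i + r)) := by
  unfold dig
  rw [Nat.testBit_mod_two_pow, Nat.testBit_div_two_pow, add_comm]

theorem dig_land (w x y i : ℕ) : dig w (x &&& y) i = dig w x i &&& dig w y i := by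
  apply Nat.eq_of_testBit_eq; intro r
  simp only [testBit_dig, Nat.testBit_land]
  cases decide (r < w) <;> simp

theorem dig_lor (w x y i : ℕ) : dig w (x ||| y) i = dig w x i ||| dig w y i := by
  apply Nat.eq_of_testBit_eq; intro r
  simp only [testBit_dig, Nat.testBit_lor]
  cases decide (r < w) <;> simp

theorem dig_zero (w i : ℕ) : dig w 0 i = 0 := by simp [dig]

theorem dig_shiftRight (w x a i : ℕ) : dig w (x >>> (w * a)) i = dig w x (a + i) := by
  apply Nat.eq_of_testBit_eq; intro r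
  simp only [testBit_dig, Nat.testBit_shiftRight]
  rw [mul_add, add_assoc]

theorem dig_shiftLeft (w x a i : ℕ) :
    dig w (x <<< (w * a)) i = if a ≤ i then dig w x (i - a) else 0 := by
  apply Nat.eq_of_testBit_eq; intro r
  split_ifs with h
  · obtain ⟨c, rfl⟩ := Nat.exists_eq_add_of_le h
    simp only [testBit_dig, Nat.testBit_shiftLeft, Nat.add_sub_cancel_left]
    have e : w * (a + c) + r - w * a = w * c + r := by rw [mul_add]; omega
    have e2 : w * (a + c) + r ≥ w * a := by rw [mul_add]; omega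
    simp [e, e2]
  · simp only [testBit_dig, Nat.testBit_shiftLeft, Nat.zero_testBit]
    by_cases hr : r < w
    · have : ¬ (w * i + r ≥ w * a) := by
        have : w * (i + 1) ≤ w * a := Nat.mul_le_mul_left _ (by omega)
        rw [mul_add] at this; omega
      simp [this]
    · simp [hr]

theorem dig_two_pow_sub_one (w n i : ℕ) :
    dig w (2 ^ (w * n) - 1) i = if i < n then 2 ^ w - 1 else 0 := by
  apply Nat.eq_of_testBit_eq; intro r
  split_ifs with h
  · simp only [testBit_dig, Nat.testBit_two_pow_sub_one]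
    by_cases hr : r < w
    · have : w * (i + 1) ≤ w * n := Nat.mul_le_mul_left _ (by omega)
      rw [mul_add] at this
      simp [hr]; omega
    · simp [hr]
  · simp only [testBit_dig, Nat.testBit_two_pow_sub_one, Nat.zero_testBit]
    have : w * n ≤ w * i := Nat.mul_le_mul_left _ (by omega)
    simp; omega

theorem dig_of_lt {w x : ℕ} (h : x < 2 ^ w) (i : ℕ) : dig w x i = if i = 0 then x else 0 := by
  split_ifs with hi
  · subst hi; simp [dig, Nat.mod_eq_of_lt h]
  · unfold dig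
    rw [Nat.div_eq_of_lt, Nat.zero_mod]
    exact h.trans_le (Nat.pow_le_pow_right (by norm_num) (Nat.le_mul_of_pos_right _ (by omega)))

theorem land_mask_modEq (x N : ℕ) : ((x &&& (2 ^ N - 1) : ℕ) : ℤ) ≡ x [ZMOD 2 ^ N] := by
  rw [Nat.and_two_pow_sub_one_eq_mod]
  exact_mod_cast Int.natCast_modEq_iff.2 (Nat.mod_modEq x (2 ^ N))

theorem modEq_of_land_eq {x y N : ℕ} (h : x &&& (2 ^ N - 1) = y &&& (2 ^ N - 1)) :
    (x : ℤ) ≡ y [ZMOD 2 ^ N] :=
  (land_mask_modEq x N).symm.trans (h ▸ land_mask_modEq y N)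

theorem modEq_pow_mono {x y : ℤ} {a b : ℕ} (hab : a ≤ b) (h : x ≡ y [ZMOD 2 ^ b]) :
    x ≡ y [ZMOD 2 ^ a] :=
  h.of_dvd (pow_dvd_pow _ hab)

/-- cancel a factor `0 < j < 64` at the cost of five bits -/
theorem modEq_cancel {x y : ℤ} {j N : ℕ} (hj0 : 0 < j) (hj : j < 64)
    (h : (j : ℤ) * x ≡ j * y [ZMOD 2 ^ (N + 5)]) : x ≡ y [ZMOD 2 ^ N] := by
  obtain ⟨v, q, hq, rfl⟩ := Nat.exists_eq_two_pow_mul_odd hj0.ne'
  have hv : v ≤ 5 := by
    by_contra hv
    have h1 : 2 ^ 6 ≤ 2 ^ v := Nat.pow_le_pow_right (by norm_num) (by omega)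
    have h2 : 0 < q := hq.pos
    nlinarith
  rw [Int.modEq_iff_dvd] at h ⊢
  have h1 : (2 : ℤ) ^ v * 2 ^ N ∣ 2 ^ v * (q * (y - x)) := by
    refine Dvd.dvd.trans ?_ (h.trans (dvd_of_eq ?_))
    · rw [← pow_add]; exact pow_dvd_pow _ (by omega)
    · push_cast; ring
  have h2 := (mul_dvd_mul_iff_left (by positivity)).1 h1
  refine IsCoprime.dvd_of_dvd_mul_left ?_ h2
  apply IsCoprime.pow_left
  have : Nat.Coprime 2 q := (Nat.coprime_two_left).2 hq
  exact_mod_cast Nat.isCoprime_iff_coprime.2 this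

/-- the number with `n` digits equal to one -/
def ones (w n : ℕ) : ℕ := (2 ^ (w * n) - 1) / (2 ^ w - 1)

theorem ones_eq {w : ℕ} (hw : 0 < w) (n : ℕ) : (ones w n : ℤ) = val w (fun _ => 1) n := by
  have h1 : ∑ i ∈ Finset.range n, (2 ^ w) ^ i = ((2 ^ w) ^ n - 1) / (2 ^ w - 1) :=
    Nat.geomSum_eq (by
      calc 2 = 2 ^ 1 := rfl
        _ ≤ 2 ^ w := Nat.pow_le_pow_right (by norm_num) hw) n
  unfold ones val
  rw [pow_mul, ← h1]
  push_cast
  simp [pow_mul]

theorem dig_mul_ones {w : ℕ} (hw : 0 < w) {c : ℕ} (hc : c < 2 ^ w) (n i : ℕ) (hi : i < n) :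
    dig w (c * ones w n) i = c := by
  have h : ((c * ones w n : ℕ) : ℤ) ≡ val w (fun _ => (c : ℤ)) n [ZMOD 2 ^ (w * n)] := by
    push_cast
    rw [ones_eq hw, ← val_mul]
    simp
  have := eq_dig' h (fun i _ => ⟨by positivity, by exact_mod_cast hc⟩) i hi
  exact_mod_cast this.symm

/-- two-dimensional packing -/
theorem val_two_dim (w σ : ℕ) (f : ℕ → ℤ) (R : ℕ) :
    val w f (σ * R) = val (w * σ) (fun r => val w (fun i => f (σ * r + i)) σ) R := by
  induction R with
  | zero => simp [val]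
  | succ R ih => rw [mul_add, mul_one, val_split, val_succ, ih, mul_assoc]; ring

end Crest.Agent.R187
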