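import Crest.Agent.R187.Weyl

/-! Polynomial identities for the characters `ple` and the antisymmetrised characters `cc`. -/

set_option autoImplicit false

open MvPolynomial

namespace Crest.Agent.R187

theorem mem_mons {n d : ℕ} {α : Fin n →₀ ℕ} : α ∈ mons n d ↔ ∑ i, α i = d := by
  simp [mons]

theorem card_mons (n d : ℕ) : (mons (n + 1) d).card = (d + n).choose n := by
  rw [mons, Finset.card_finsuppAntidiag_nat_eq_choose, Finset.card_univ, Fintype.card_fin,
    show n + 1 + d - 1 = d + n by omega, Nat.choose_symm_add]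

theorem ple_zero (n d : ℕ) : ple n 0 d = 1 := by
  simp [ple]

theorem newton_shift {ι M : Type*} [DecidableEq ι] [AddCommMonoid M] (s : Finset ι) {α : ι}
    (hα : α ∈ s) {a k : ℕ} (hk : k < a) (F : (ι →₀ ℕ) → M) :
    ∑ m ∈ s.finsuppAntidiag a, (if k < m α then F m else 0) =
      ∑ m ∈ s.finsuppAntidiag (a - 1 - k), F (Finsupp.single α (k + 1) + m) := by
  rw [← Finset.sum_filter]
  have hsum : ∀ m : ι →₀ ℕ, s.sum (Finsupp.single α (k + 1) + m : ι →₀ ℕ) = k + 1 + s.sum m := by
    intro m
    simp only [Finsupp.coe_add, Pi.add_apply, Finset.sum_add_distrib, Finsupp.single_apply]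
    rw [Finset.sum_ite_eq, if_pos hα]
  symm
  refine Finset.sum_bij (fun m _ => Finsupp.single α (k + 1) + m) ?_ ?_ ?_ (fun _ _ => rfl)
  · intro m hm
    rw [Finset.mem_finsuppAntidiag] at hm
    rw [Finset.mem_filter, Finset.mem_finsuppAntidiag]
    refine ⟨⟨?_, ?_⟩, ?_⟩
    · rw [hsum, hm.1]; omega
    · refine Finsupp.support_add.trans (Finset.union_subset ?_ hm.2)
      exact Finsupp.support_single_subset.trans (Finset.singleton_subset_iff.2 hα)
    · simp only [Finsupp.coe_add, Pi.add_apply, Finsupp.single_eq_same]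
      omega
  · intro m _ m' _ h
    exact add_left_cancel h
  · intro m hm
    rw [Finset.mem_filter, Finset.mem_finsuppAntidiag] at hm
    have hle : Finsupp.single α (k + 1) ≤ m := Finsupp.single_le_iff.2 hm.2
    have e : Finsupp.single α (k + 1) + (m - Finsupp.single α (k + 1)) = m :=
      add_tsub_cancel_of_le hle
    refine ⟨m - Finsupp.single α (k + 1), ?_, e⟩
    rw [Finset.mem_finsuppAntidiag]
    refine ⟨?_, Finsupp.support_tsub.trans hm.1.2⟩
    have := hsum (m - Finsupp.single α (k + 1))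
    rw [e, hm.1.1] at this
    omega

/-- Newton's identity `a h_a = ∑_k p_k h_{a-k}`: both sides are the sum over triples
(multiset `m` of size `a`, `α`, `1 ≤ k ≤ m α`).  One way: prove it for
`H a = ∑ m ∈ s.finsuppAntidiag a, monomial m 1` in `MvPolynomial (Fin n →₀ ℕ) ℤ` by comparing
coefficients and apply `aeval fun α => monomial α 1`. -/
theorem ple_newton (n a d : ℕ) :
    (a : MvPolynomial (Fin n) ℤ) * ple n a d =
      ∑ k ∈ Finset.range a, pk n (k + 1) d * ple n (a - 1 - k) d := by
  have e1 : (a : MvPolynomial (Fin n) ℤ) * ple n a d =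
      ∑ m ∈ (mons n d).finsuppAntidiag a, ∑ α ∈ mons n d, ∑ k ∈ Finset.range a,
        (if k < m α then monomial (m.sum fun α k => k • α) (1 : ℤ) else 0) := by
    rw [ple, Finset.mul_sum]
    refine Finset.sum_congr rfl fun m hm => ?_
    rw [Finset.mem_finsuppAntidiag] at hm
    have h1 : ∀ α ∈ mons n d, ∑ k ∈ Finset.range a,
        (if k < m α then monomial (m.sum fun α k => k • α) (1 : ℤ) else 0) =
        (m α : MvPolynomial (Fin n) ℤ) * monomial (m.sum fun α k => k • α) (1 : ℤ) := by
      intro α hα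
      have hle : m α ≤ a := hm.1 ▸ Finset.single_le_sum (fun _ _ => Nat.zero_le _) hα
      rw [← Finset.sum_filter, Finset.sum_const, nsmul_eq_mul]
      congr 2
      rw [show (Finset.range a).filter (fun k => k < m α) = Finset.range (m α) by
        ext k; simp only [Finset.mem_filter, Finset.mem_range]; omega, Finset.card_range]
    rw [Finset.sum_congr rfl h1, ← Finset.sum_mul, ← Nat.cast_sum, hm.1]
  rw [e1, Finset.sum_comm]
  have e2 : ∀ α ∈ mons n d, ∑ m ∈ (mons n d).finsuppAntidiag a, ∑ k ∈ Finset.range a,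
        (if k < m α then monomial (m.sum fun α k => k • α) (1 : ℤ) else 0) =
      ∑ k ∈ Finset.range a, monomial ((k + 1) • α) (1 : ℤ) * ple n (a - 1 - k) d := by
    intro α hα
    rw [Finset.sum_comm]
    refine Finset.sum_congr rfl fun k hk => ?_
    rw [newton_shift _ hα (Finset.mem_range.1 hk)
      (fun m => monomial (m.sum fun α k => k • α) (1 : ℤ)), ple, Finset.mul_sum]
    refine Finset.sum_congr rfl fun m _ => ?_
    rw [monomial_mul, one_mul, Finsupp.sum_add_index' (h := fun (α : Fin n →₀ ℕ) (k : ℕ) => k • α)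
      (fun _ => zero_smul _ _) (fun _ _ _ => add_smul _ _ _),
      Finsupp.sum_single_index (h := fun (α : Fin n →₀ ℕ) (k : ℕ) => k • α) (zero_smul _ _)]
  rw [Finset.sum_congr rfl e2, Finset.sum_comm]
  refine Finset.sum_congr rfl fun k _ => ?_
  rw [pk, Finset.sum_mul]

theorem ple_isHomogeneous (n a d : ℕ) : (ple n a d).IsHomogeneous (a * d) := by
  refine IsHomogeneous.sum _ _ _ fun m hm => isHomogeneous_monomial _ ?_
  rw [Finset.mem_finsuppAntidiag] at hm
  rw [Finsupp.sum_of_support_subset _ hm.2 (fun (α : Fin n →₀ ℕ) (k : ℕ) => k • α)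
    (fun _ _ => zero_smul _ _), map_sum, ← hm.1, Finset.sum_mul]
  refine Finset.sum_congr rfl fun α hα => ?_
  rw [map_nsmul, Finsupp.degree_eq_sum, mem_mons.1 hα, smul_eq_mul]

theorem rename_pk (n k d : ℕ) (σ : Equiv.Perm (Fin n)) : rename σ (pk n k d) = pk n k d := by
  rw [pk, map_sum]
  refine Finset.sum_bij (fun α _ => Finsupp.mapDomain σ α) ?_ ?_ ?_ ?_
  · intro α hα
    rw [mem_mons] at hα ⊢
    rw [← hα, ← Equiv.sum_comp σ]
    simp [Finsupp.mapDomain_apply σ.injective]
  · intro α _ β _ h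
    exact Finsupp.mapDomain_injective σ.injective h
  · intro β hβ
    refine ⟨Finsupp.mapDomain σ.symm β, ?_, ?_⟩
    · rw [mem_mons] at hβ ⊢
      rw [← hβ, ← Equiv.sum_comp σ.symm]
      simp [Finsupp.mapDomain_apply σ.symm.injective]
    · rw [← Finsupp.mapDomain_comp]
      simp
  · intro α _
    rw [rename_monomial, Finsupp.mapDomain_smul]

/-- by strong induction from `ple_newton`, or directly -/
theorem rename_ple (n a d : ℕ) (σ : Equiv.Perm (Fin n)) : rename σ (ple n a d) = ple n a d := by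
  induction a using Nat.strong_induction_on with
  | _ a ih =>
    rcases Nat.eq_zero_or_pos a with rfl | ha
    · rw [ple_zero, map_one]
    · have h := congrArg (rename σ) (ple_newton n a d)
      rw [map_mul, map_natCast, map_sum] at h
      have h2 : ∀ k ∈ Finset.range a, rename σ (pk n (k + 1) d * ple n (a - 1 - k) d) =
          pk n (k + 1) d * ple n (a - 1 - k) d := by
        intro k _
        rw [map_mul, rename_pk, ih _ (by omega)]
      rw [Finset.sum_congr rfl h2, ← ple_newton] at h
      exact mul_left_cancel₀ (Nat.cast_ne_zero.2 ha.ne') h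

theorem rename_vand (n : ℕ) (R : Type*) [CommRing R] (σ : Equiv.Perm (Fin n)) :
    rename σ (vand n R) = ((Equiv.Perm.sign σ : ℤ) : R) • vand n R := by
  have h := σ.prod_Ioi_comp_eq_sign_mul_prod
    (f := fun i j => (X i - X j : MvPolynomial (Fin n) R)) (fun i j => by ring)
  simp only [vand, map_prod, map_sub, rename_X]
  rw [h, smul_eq_C_mul, map_intCast]

theorem rename_swap_cc (a d : ℕ) {i j : Fin 6} (h : i ≠ j) :
    rename (Equiv.swap i j) (cc a d) = - cc a d := by
  rw [cc, map_mul, rename_ple, rename_vand, Equiv.Perm.sign_swap h]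
  simp

theorem cc_newton (a d : ℕ) :
    (a : MvPolynomial (Fin 6) ℤ) * cc a d =
      ∑ k ∈ Finset.range a, pk 6 (k + 1) d * cc (a - 1 - k) d := by
  simp only [cc]
  rw [mul_left_comm, ple_newton, Finset.mul_sum]
  exact Finset.sum_congr rfl fun k _ => mul_left_comm _ _ _

theorem newton_coeff_vand_mul {n : ℕ} {R : Type*} [CommRing R] (P : MvPolynomial (Fin n) R)
    (ν : Fin n →₀ ℕ) :
    coeff ν (vand n R * P) = ∑ σ : Equiv.Perm (Fin n),
      if (ex fun i => rho n (σ i)) ≤ ν then
        ((Equiv.Perm.sign σ : ℤ) : R) * coeff (ν - ex fun i => rho n (σ i)) P else 0 := by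
  rw [vand_eq_sum, Finset.sum_mul, coeff_sum]
  refine Finset.sum_congr rfl fun σ _ => ?_
  rw [coeff_monomial_mul']

theorem cc_support {a d : ℕ} {ν : Fin 6 →₀ ℕ} (h : coeff ν (cc a d) ≠ 0) :
    ∑ i, ν i = a * d + 15 ∧ ∀ i, ν i ≤ a * d + 5 := by
  rw [cc, newton_coeff_vand_mul] at h
  obtain ⟨σ, _, hσ⟩ := Finset.exists_ne_zero_of_sum_ne_zero h
  have hle : (ex fun i => rho 6 (σ i)) ≤ ν := by
    by_contra hn
    exact hσ (if_neg hn)
  rw [if_pos hle] at hσ
  have hdeg : (ν - ex fun i => rho 6 (σ i)).degree = a * d := by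
    by_contra hn
    exact hσ (by rw [(ple_isHomogeneous 6 a d).coeff_eq_zero hn, mul_zero])
  rw [Finsupp.degree_eq_sum] at hdeg
  have e : ∀ i, ν i = (ν - ex fun i => rho 6 (σ i)) i + rho 6 (σ i) := by
    intro i
    have := hle i
    simp only [ex_apply, Finsupp.coe_tsub, Pi.sub_apply] at this ⊢
    omega
  constructor
  · rw [Finset.sum_congr rfl fun i _ => e i, Finset.sum_add_distrib, hdeg,
      Equiv.sum_comp σ (rho 6)]
    rfl
  · intro i
    rw [e i]
    refine add_le_add ?_ ?_
    · rw [← hdeg]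
      exact Finset.single_le_sum (f := fun i => (ν - ex fun i => rho 6 (σ i)) i)
        (fun _ _ => Nat.zero_le _) (Finset.mem_univ i)
    · simp only [rho]; omega

theorem mu_eq_zero (a d : ℕ) (l : Fin 6 → ℕ) (h : ∑ i, l i ≠ a * d) : mu a d l = 0 := by
  by_contra hn
  have h1 := (cc_support hn).1
  simp only [ex_apply, Finset.sum_add_distrib] at h1
  have h2 : ∑ i, rho 6 i = 15 := rfl
  omega

/-- multiplication by `pk` at most multiplies the size of the coefficients below `ν` by the number
of monomials -/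
theorem abs_coeff_pk_mul_le (k d : ℕ) (Q : MvPolynomial (Fin 6) ℤ) (ν : Fin 6 →₀ ℕ) (M : ℤ)
    (h : ∀ ν' ≤ ν, |coeff ν' Q| ≤ M) : |coeff ν (pk 6 k d * Q)| ≤ ((d + 5).choose 5 : ℕ) * M := by
  have hM : 0 ≤ M := (abs_nonneg _).trans (h ν le_rfl)
  rw [pk, Finset.sum_mul, coeff_sum, ← card_mons 5 d, ← nsmul_eq_mul]
  refine (Finset.abs_sum_le_sum_abs _ _).trans (Finset.sum_le_card_nsmul _ _ _ fun α _ => ?_)
  rw [coeff_monomial_mul']
  split_ifs
  · rw [one_mul]; exact h _ tsub_le_self
  · simpa using hM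

theorem coeff_prod_aeval {n : ℕ} {R : Type*} [CommRing R] (U : Fin n → Polynomial R)
    (ν : Fin n →₀ ℕ) :
    coeff ν (∏ j, Polynomial.aeval (X j : MvPolynomial (Fin n) R) (U j)) =
      ∏ j, (U j).coeff (ν j) := by
  have e : ∀ j, Polynomial.aeval (X j : MvPolynomial (Fin n) R) (U j) =
      ∑ k ∈ Finset.range ((U j).natDegree + ν j + 1),
        C ((U j).coeff k) * monomial (Finsupp.single j k) 1 := by
    intro j
    rw [Polynomial.aeval_eq_sum_range' (n := (U j).natDegree + ν j + 1) (by omega)]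
    refine Finset.sum_congr rfl fun k _ => ?_
    rw [smul_eq_C_mul, X_pow_eq_monomial]
  simp only [e]
  rw [Finset.prod_univ_sum, coeff_sum]
  have e2 : ∀ f : Fin n → ℕ, coeff ν (∏ j, C ((U j).coeff (f j)) *
      monomial (Finsupp.single j (f j)) (1 : R)) =
      if f = ν then ∏ j, (U j).coeff (ν j) else 0 := by
    intro f
    rw [Finset.prod_mul_distrib, ← map_prod, ← monomial_sum_one, coeff_C_mul, coeff_monomial]
    have : (∑ j, Finsupp.single j (f j) = ν) ↔ f = ν := by
      have h0 : ∀ i, (∑ j, Finsupp.single j (f j) : Fin n →₀ ℕ) i = f i := by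
        intro i
        simp [Finsupp.finsetSum_apply, Finsupp.single_apply]
      constructor
      · intro h; funext i; rw [← h, h0]
      · intro h; ext i; rw [h0, h]
    by_cases hf : f = ν
    · rw [if_pos (this.2 hf), if_pos hf, mul_one, hf]
    · rw [if_neg (fun h => hf (this.1 h)), if_neg hf, mul_zero]
  simp only [e2]
  rw [Finset.sum_ite_eq', if_pos]
  simp only [Fintype.mem_piFinset, Finset.mem_range]
  intro j
  omega

/-- Jacobi-Trudi type formula (`vand_eq_sum`, `coeff_monomial_mul'`, `coeff_prod_aeval`,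
`Matrix.det_apply`) -/
theorem coeff_vand_mul_prod {n : ℕ} {R : Type*} [CommRing R] (U : Polynomial R) (ν : Fin n → ℕ) :
    coeff (ex ν) (vand n R * ∏ j, Polynomial.aeval (X j : MvPolynomial (Fin n) R) U) =
      (Matrix.of fun i j : Fin n =>
        if rho n i ≤ ν j then U.coeff (ν j - rho n i) else 0).det := by
  rw [newton_coeff_vand_mul, Matrix.det_apply']
  refine Finset.sum_congr rfl fun σ _ => ?_
  simp only [Matrix.of_apply]
  rw [Fintype.prod_ite_zero, coeff_prod_aeval (fun _ => U)]
  by_cases h : ∀ j, rho n (σ j) ≤ ν j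
  · have h' : (ex fun i => rho n (σ i)) ≤ ex ν := fun j => h j
    rw [if_pos h, if_pos h']
    rfl
  · have h' : ¬ (ex fun i => rho n (σ i)) ≤ ex ν := fun h' => h fun j => h' j
    rw [if_neg h, if_neg h', mul_zero]

end Crest.Agent.R187
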