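import Crest.Agent.R187.DM

/-! The equivariant injection for `b ≥ a (a - 1)`: full polarisation. -/

set_option autoImplicit false

open MvPolynomial Crest.AlgebraR.FoulkesHowe

namespace Crest.Agent.R187

/-- substitute `x_{r k} = ∑_i t_{r i} y_{i k}` -/
noncomputable def polSubst (a b n : ℕ) :
    MvPolynomial (Var a n) ℂ →ₐ[ℂ] MvPolynomial (Fin a × Fin b) (MvPolynomial (Var b n) ℂ) :=
  aeval fun v => ∑ i : Fin b, X (v.1, i) * C (X (i, v.2))

/-- … and take the coefficient of `∏_{r, i} t_{r i}` -/
noncomputable def polar (a b n : ℕ) : MvPolynomial (Var a n) ℂ →ₗ[ℂ] MvPolynomial (Var b n) ℂ :=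
  ((lcoeff (MvPolynomial (Var b n) ℂ)
    (Finsupp.equivFunOnFinite.symm fun _ : Fin a × Fin b => 1)).restrictScalars ℂ) ∘ₗ
      (polSubst a b n).toLinearMap

theorem polar_apply (a b n : ℕ) (f : MvPolynomial (Var a n) ℂ) :
    polar a b n f = coeff (Finsupp.equivFunOnFinite.symm fun _ : Fin a × Fin b => 1)
      (polSubst a b n f) := rfl

theorem polar_polSubst_X (a b n : ℕ) (v : Var a n) :
    polSubst a b n (X v) = ∑ i : Fin b, X (v.1, i) * C (X (i, v.2)) := aeval_X _ _

/-- `polSubst ∘ linSubst g = map (linSubst g) ∘ polSubst` (algebra maps agreeing on variables) -/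
theorem polar_linSubst (a b n : ℕ) (g : Matrix (Fin n) (Fin n) ℂ) (f : MvPolynomial (Var a n) ℂ) :
    polar a b n (linSubst a g f) = linSubst b g (polar a b n f) := by
  have h : (polSubst a b n).comp (linSubst a g) =
      (mapAlgHom (linSubst b g)).comp (polSubst a b n) := by
    refine algHom_ext fun v => ?_
    simp only [AlgHom.comp_apply, linSubst, aeval_X, map_sum, map_smul, polar_polSubst_X, map_mul,
      mapAlgHom_apply, map_X, map_C, RingHom.coe_coe, Finset.smul_sum, Finset.mul_sum]
    rw [Finset.sum_comm]
    refine Finset.sum_congr rfl fun i _ => Finset.sum_congr rfl fun l _ => ?_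
    rw [← mul_smul_comm]
    congr 1
    ext1 m
    simp only [coeff_smul, coeff_C]
    split_ifs <;> simp
  have h2 := DFunLike.congr_fun h f
  simp only [AlgHom.comp_apply, mapAlgHom_apply] at h2
  rw [polar_apply, polar_apply, h2, coeff_map]
  rfl

theorem polar_coeff_homog (a b n : ℕ) (i : Fin b) (f : MvPolynomial (Var a n) ℂ)
    (e : Fin a × Fin b →₀ ℕ) :
    IsWeightedHomogeneous (blockWeight i) (coeff e (polSubst a b n f)) (∑ r, e (r, i)) := by
  classical
  induction f using MvPolynomial.induction_on generalizing e with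
  | C c =>
    rw [polSubst, aeval_C, MvPolynomial.algebraMap_apply, coeff_C]
    split_ifs with h
    · subst h
      simpa using isWeightedHomogeneous_C (blockWeight i) c
    · exact isWeightedHomogeneous_zero _ _ _
  | add p q hp hq =>
    rw [map_add, coeff_add]
    exact (hp e).add (hq e)
  | mul_X p v hp =>
    rw [map_mul, coeff_mul]
    refine IsWeightedHomogeneous.sum _ _ _ fun x hx => ?_
    have he : ∑ r, e (r, i) = ∑ r, x.1 (r, i) + ∑ r, x.2 (r, i) := by
      rw [← Finset.HasAntidiagonal.mem_antidiagonal.1 hx, ← Finset.sum_add_distrib]; rfl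
    rw [he]
    refine (hp x.1).mul ?_
    rw [polar_polSubst_X, coeff_sum]
    refine IsWeightedHomogeneous.sum _ _ _ fun j _ => ?_
    rw [mul_comm, coeff_C_mul, coeff_X]
    split_ifs with h
    · rw [mul_one, ← h]
      convert isWeightedHomogeneous_X ℂ (blockWeight i) (j, v.2) using 1
      by_cases hj : j = i <;> simp [blockWeight, Finsupp.single_apply, Prod.ext_iff, hj]
    · rw [mul_zero]
      exact isWeightedHomogeneous_zero _ _ _

/-- symmetry: `map (rename (blockPerm σ)) ∘ polSubst = rename (Prod.map id σ⁻¹) ∘ polSubst`;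
degree: every coefficient of `t^e` in `polSubst f` is homogeneous of degree `∑_r e (r, i)` in
block `i` (true for the generators, stable under sums and products) -/
theorem polar_mem_blockSym (a b n : ℕ) (f : MvPolynomial (Var a n) ℂ) :
    polar a b n f ∈ blockSym b n a := by
  refine mem_blockSym.2 ⟨fun i => ?_, fun σ => ?_⟩
  · have h := polar_coeff_homog a b n i f (Finsupp.equivFunOnFinite.symm fun _ => 1)
    simpa [polar_apply] using h
  · have h : (mapAlgHom (rename (blockPerm σ))).comp (polSubst a b n) =
        ((rename (Prod.map id σ.symm)).restrictScalars ℂ).comp (polSubst a b n) := by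
      refine algHom_ext fun v => ?_
      simp only [AlgHom.comp_apply, polar_polSubst_X, map_sum, map_mul, mapAlgHom_apply, map_X, map_C,
        RingHom.coe_coe, rename_X, AlgHom.restrictScalars_apply, rename_C, blockPerm, Prod.map, id]
      rw [← Equiv.sum_comp σ fun i => X (v.1, σ.symm i) * C (X (i, v.2))]
      simp
    have h2 := DFunLike.congr_fun h f
    simp only [AlgHom.comp_apply, mapAlgHom_apply, AlgHom.restrictScalars_apply] at h2
    have hinj : Function.Injective (Prod.map id σ.symm : Fin a × Fin b → Fin a × Fin b) :=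
      Function.injective_id.prodMap σ.symm.injective
    have h3 : Finsupp.mapDomain (Prod.map id σ.symm : Fin a × Fin b → Fin a × Fin b)
        (Finsupp.equivFunOnFinite.symm fun _ => 1) = Finsupp.equivFunOnFinite.symm fun _ => 1 := by
      ext t
      have : t = Prod.map id σ.symm (t.1, σ t.2) := by simp
      rw [this, Finsupp.mapDomain_apply hinj]
      rfl
    have h4 := coeff_rename_mapDomain _ hinj (polSubst a b n f)
      (Finsupp.equivFunOnFinite.symm fun _ => 1)
    rw [h3, ← h2, coeff_map] at h4
    exact h4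

/-- the bilinear Fischer pairing `∑_m m! f_m g_m` -/
noncomputable def fischer {σ : Type*} (f g : MvPolynomial σ ℂ) : ℂ :=
  ∑ m ∈ f.support, (m.prod fun _ k => (k.factorial : ℂ)) * coeff m f * coeff m g

/-- the pairing as a linear form in the second variable -/
noncomputable def polarFischer {σ : Type*} (f : MvPolynomial σ ℂ) : MvPolynomial σ ℂ →ₗ[ℂ] ℂ where
  toFun := fischer f
  map_add' g h := by simp [fischer, mul_add, Finset.sum_add_distrib]
  map_smul' c g := by
    simp only [fischer, coeff_smul, smul_eq_mul, RingHom.id_apply, Finset.mul_sum]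
    exact Finset.sum_congr rfl fun m _ => by ring

theorem polarFischer_apply {σ : Type*} (f g : MvPolynomial σ ℂ) :
    polarFischer f g = fischer f g := rfl

theorem polar_fischer_monomial {σ : Type*} (f : MvPolynomial σ ℂ) (m : σ →₀ ℕ) (c : ℂ) :
    polarFischer f (monomial m c) = (m.prod fun _ k => (k.factorial : ℂ)) * coeff m f * c := by
  classical
  rw [polarFischer_apply, fischer, Finset.sum_eq_single m]
  · rw [coeff_monomial, if_pos rfl]
  · intro m' _ h
    rw [coeff_monomial, if_neg h.symm, mul_zero]
  · intro h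
    rw [notMem_support_iff.1 h]; simp

theorem polar_fact_add {σ : Type*} (m : σ →₀ ℕ) (v : σ) :
    ((m + Finsupp.single v 1).prod fun _ k => (k.factorial : ℂ)) =
      (m.prod fun _ k => (k.factorial : ℂ)) * (m v + 1) := by
  classical
  rw [← Finsupp.mul_prod_erase' (m + Finsupp.single v 1) v _ (by simp),
    ← Finsupp.mul_prod_erase' m v _ (by simp), Finsupp.erase_add, Finsupp.erase_single, add_zero]
  simp only [Finsupp.add_apply, Finsupp.single_eq_same, Nat.factorial_succ]
  push_cast
  ring

theorem polar_fischer_X_mul {σ : Type*} (f g : MvPolynomial σ ℂ) (v : σ) :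
    polarFischer f (X v * g) = polarFischer (pderiv v f) g := by
  induction g using MvPolynomial.induction_on' with
  | monomial m c =>
    rw [mul_comm, X, monomial_mul, mul_one, polar_fischer_monomial, polar_fischer_monomial,
      coeff_pderiv, polar_fact_add]
    ring
  | add p q hp hq => rw [mul_add, map_add, map_add, hp, hq]

theorem polar_chain {σ τ : Type*} [Fintype σ] (g : σ → MvPolynomial τ ℂ) (t : τ)
    (f : MvPolynomial σ ℂ) :
    pderiv t (aeval g f) = ∑ v, pderiv t (g v) * aeval g (pderiv v f) := by
  classical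
  induction f using MvPolynomial.induction_on with
  | C c => simp
  | add p q hp hq => simp only [map_add, hp, hq, mul_add, Finset.sum_add_distrib]
  | mul_X p w hp =>
    simp only [map_mul, aeval_X, pderiv_mul, hp, map_add, mul_add, Finset.sum_add_distrib,
      Finset.sum_mul, pderiv_X, mul_assoc]
    congr 1
    rw [Finset.sum_eq_single w]
    · simp [mul_comm]
    · intro v _ hv
      simp [Pi.single_eq_of_ne hv.symm]
    · simp

theorem polar_coeff_prod (a b n : ℕ) (y : Fin b → Fin n → ℂ) (T : Finset (Fin a × Fin b))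
    (f : MvPolynomial (Var a n) ℂ) :
    coeff (∑ t ∈ T, Finsupp.single t 1)
      (aeval (fun v : Var a n => (∑ i : Fin b, y i v.2 • X (v.1, i) :
        MvPolynomial (Fin a × Fin b) ℂ)) f) = polarFischer f (∏ t ∈ T, lin t.1 (y t.2)) := by
  classical
  induction T using Finset.induction_on generalizing f with
  | empty =>
    rw [Finset.sum_empty, Finset.prod_empty, ← C_1, ← monomial_zero', polar_fischer_monomial]
    simp only [Finsupp.prod_zero_index, one_mul, mul_one, ← constantCoeff_eq]
    induction f using MvPolynomial.induction_on with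
    | C c => simp
    | add p q hp hq => simp only [map_add, hp, hq]
    | mul_X p w _ => simp
  | insert t T ht ih =>
    have h0 : (∑ s ∈ T, Finsupp.single s 1 : Fin a × Fin b →₀ ℕ) t = 0 := by
      rw [Finsupp.finsetSum_apply]
      exact Finset.sum_eq_zero fun s hs => Finsupp.single_eq_of_ne fun h => ht (h ▸ hs)
    have h1 := coeff_pderiv (i := t) (aeval (fun v : Var a n => (∑ i : Fin b, y i v.2 • X (v.1, i) :
        MvPolynomial (Fin a × Fin b) ℂ)) f) (∑ s ∈ T, Finsupp.single s 1)
    rw [h0, Nat.cast_zero, zero_add, mul_one] at h1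
    have h2 : ∀ v : Var a n, pderiv t (∑ i : Fin b, y i v.2 • X (v.1, i) :
        MvPolynomial (Fin a × Fin b) ℂ) = if v.1 = t.1 then C (y t.2 v.2) else 0 := by
      intro v
      rw [map_sum, Finset.sum_eq_single t.2]
      · split_ifs with h
        · rw [h]; simp [smul_eq_C_mul]
        · have : (v.1, t.2) ≠ t := fun e => h (congrArg Prod.fst e)
          simp [pderiv_X, Pi.single_eq_of_ne this]
      · intro i _ hi
        have : (v.1, i) ≠ t := fun e => hi (congrArg Prod.snd e)
        simp [pderiv_X, Pi.single_eq_of_ne this]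
      · simp
    rw [Finset.sum_insert ht, Finset.prod_insert ht, add_comm, ← h1, polar_chain, coeff_sum,
      Fintype.sum_prod_type, Finset.sum_eq_single t.1, lin, Finset.sum_mul, map_sum]
    · refine Finset.sum_congr rfl fun k _ => ?_
      rw [h2, if_pos rfl, coeff_C_mul, ih, smul_mul_assoc, map_smul, polar_fischer_X_mul,
        smul_eq_mul]
    · intro r _ hr
      refine Finset.sum_eq_zero fun k _ => ?_
      rw [h2, if_neg hr, zero_mul, coeff_zero]
    · simp

/-- For `f` homogeneous of degree `b` in each block.  Suggested route: `fischer f (X v * g) =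
fischer (pderiv v f) g`; for a finset `T` of pairs `(r, i)` the coefficient of `∏_{T} t` in
`polSubst f`, evaluated at `y`, is `fischer f (∏_{(r,i) ∈ T} lin r (y i))` (true for every `f`;
induction on `T` with the chain rule `pderiv (r,i) (polSubst f) = ∑_k C (X (i,k)) * polSubst
(pderiv (r,k) f)`, the empty case being the constant coefficient). -/
theorem eval_polar (a b n : ℕ) (f : MvPolynomial (Var a n) ℂ) (y : Fin b → Fin n → ℂ) :
    eval (fun v : Var b n => y v.1 v.2) (polar a b n f) =
      fischer f (∏ i : Fin b, FF Finset.univ (y i)) := by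
  classical
  have h : (map (eval fun v : Var b n => y v.1 v.2)).comp (polSubst a b n).toRingHom =
      (aeval (fun v : Var a n => (∑ i : Fin b, y i v.2 • X (v.1, i) :
        MvPolynomial (Fin a × Fin b) ℂ))).toRingHom := by
    refine ringHom_ext (fun c => ?_) fun v => ?_
    · simp [polSubst]
    · simp [polar_polSubst_X, smul_eq_C_mul, mul_comm]
  have h2 := DFunLike.congr_fun h f
  simp only [RingHom.comp_apply, AlgHom.toRingHom_eq_coe, RingHom.coe_coe] at h2
  have h3 : (Finsupp.equivFunOnFinite.symm fun _ : Fin a × Fin b => 1) =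
      ∑ t ∈ Finset.univ, Finsupp.single t 1 := by
    ext t
    simp [Finsupp.finsetSum_apply, Finsupp.single_apply]
  rw [polar_apply, ← coeff_map, h2, h3, polar_coeff_prod, polarFischer_apply,
    Fintype.prod_prod_type_right]
  rfl

/-- if `polar f = 0` then `fischer f` vanishes on `cF univ 1 ^ b ⊇ blockSym a n b`
(`blockSym_le_cF_pow`), in particular on the complex conjugate of `f` -/
theorem polar_injOn (a b n : ℕ) (hb : a * (a - 1) ≤ b) :
    Set.InjOn (polar a b n) (blockSym a n b) := by
  suffices h : ∀ f ∈ blockSym a n b, polar a b n f = 0 → f = 0 by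
    intro f hf g hg hfg
    exact sub_eq_zero.1 (h _ (Submodule.sub_mem _ hf hg) (by rw [map_sub, hfg, sub_self]))
  intro f hf h0
  have h1 : cF n (Finset.univ : Finset (Fin a)) 1 ^ b ≤ LinearMap.ker (polarFischer f) := by
    rw [cF, Submodule.span_pow, Submodule.span_le]
    intro x hx
    obtain ⟨u, rfl⟩ := Set.mem_pow.1 hx
    choose y hy using fun i => (u i).2
    have h2 := eval_polar a b n f y
    rw [h0, map_zero] at h2
    rw [SetLike.mem_coe, LinearMap.mem_ker, List.prod_ofFn, polarFischer_apply, h2]
    congr 1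
    exact Finset.prod_congr rfl fun i _ => by rw [← hy i]; exact pow_one _
  have h2 : map (starRingEnd ℂ) f ∈ blockSym a n b := by
    obtain ⟨a1, a2⟩ := mem_blockSym.1 hf
    refine mem_blockSym.2 ⟨fun i d hd => a1 i fun h => hd ?_, fun σ => ?_⟩
    · rw [coeff_map, h, map_zero]
    · rw [← map_rename, a2]
  have h3 := LinearMap.mem_ker.1 (h1 (blockSym_le_cF_pow b hb h2))
  rw [polarFischer_apply, fischer] at h3
  have h4 : ∑ m ∈ f.support, (m.prod fun _ k => (k.factorial : ℝ)) * Complex.normSq (coeff m f) = 0 := by
    apply Complex.ofReal_injective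
    rw [Complex.ofReal_zero, ← h3, Complex.ofReal_sum]
    refine Finset.sum_congr rfl fun m _ => ?_
    rw [coeff_map, mul_assoc, Complex.mul_conj, Finsupp.prod, Finsupp.prod]
    push_cast
    rfl
  have hpos : ∀ m : Var a n →₀ ℕ, 0 < m.prod fun _ k => (k.factorial : ℝ) := fun m =>
    Finset.prod_pos fun _ _ => by positivity
  rw [Finset.sum_eq_zero_iff_of_nonneg fun m _ =>
    mul_nonneg (hpos m).le (Complex.normSq_nonneg _)] at h4
  ext m
  by_contra hm
  exact hm (Complex.normSq_eq_zero.1 ((mul_eq_zero.1 (h4 m (mem_support_iff.2 hm))).resolve_left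
    (hpos m).ne'))

theorem exists_equivariant_large (a b n : ℕ) (hb : a * (a - 1) ≤ b) :
    ∃ φ : MvPolynomial (Var a n) ℂ →ₗ[ℂ] MvPolynomial (Var b n) ℂ,
      (∀ f ∈ blockSym a n b, φ f ∈ blockSym b n a) ∧
      Set.InjOn φ (blockSym a n b) ∧
      ∀ g : Matrix (Fin n) (Fin n) ℂ, IsUnit g →
        ∀ f ∈ blockSym a n b, φ (linSubst a g f) = linSubst b g (φ f) :=
  ⟨polar a b n, fun f _ => polar_mem_blockSym a b n f, polar_injOn a b n hb,
    fun g _ f _ => polar_linSubst a b n g f⟩

end Crest.Agent.R187
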