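import Crest.Agent.R187.Block

/-! Reduction of the multiplicity inequality to six variables. -/

set_option autoImplicit false

open Module MvPolynomial Crest.AlgebraR.FoulkesHowe

namespace Crest.Agent.R187

/-- the inclusion of variables -/
def reduce_inc (a : ℕ) {n n' : ℕ} (h : n ≤ n') : Var a n → Var a n' :=
  fun v => (v.1, Fin.castLE h v.2)

theorem reduce_inc_inj (a : ℕ) {n n' : ℕ} (h : n ≤ n') : Function.Injective (reduce_inc a h) := by
  rintro ⟨r, i⟩ ⟨s, j⟩ e
  simp only [reduce_inc, Prod.mk.injEq] at e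
  exact Prod.ext e.1 (Fin.castLE_injective h e.2)

theorem reduce_Eop_rename (a : ℕ) {n n' : ℕ} (h : n ≤ n') (i j : Fin n)
    (f : MvPolynomial (Var a n) ℂ) :
    Eop a n' (Fin.castLE h i) (Fin.castLE h j) (rename (reduce_inc a h) f) =
      rename (reduce_inc a h) (Eop a n i j f) := by
  rw [Eop_apply, Eop_apply, map_sum]
  refine Finset.sum_congr rfl fun r _ => ?_
  rw [map_mul, rename_X, ← pderiv_rename (reduce_inc_inj a h)]
  rfl

theorem reduce_Eop_zero (a : ℕ) {n n' : ℕ} (h : n ≤ n') (i j : Fin n') (hj : n ≤ (j : ℕ))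
    (f : MvPolynomial (Var a n) ℂ) : Eop a n' i j (rename (reduce_inc a h) f) = 0 := by
  rw [Eop_apply]
  refine Finset.sum_eq_zero fun r _ => ?_
  rw [pderiv_eq_zero_of_notMem_vars, mul_zero]
  intro hv
  obtain ⟨v, -, e⟩ := mem_vars_rename _ _ hv
  have h1 : ((Fin.castLE h v.2 : Fin n') : ℕ) = j := congrArg (fun w : Var a n' => (w.2 : ℕ)) e
  have h2 := v.2.2
  rw [Fin.val_castLE] at h1
  omega

theorem reduce_hom_rename {σ τ : Type*} {e : σ → τ} (he : Function.Injective e) (w : τ → ℕ)
    (f : MvPolynomial σ ℂ) (d : ℕ) :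
    IsWeightedHomogeneous w (rename e f) d ↔ IsWeightedHomogeneous (w ∘ e) f d := by
  have hw : ∀ m : σ →₀ ℕ, Finsupp.weight w (m.mapDomain e) = Finsupp.weight (w ∘ e) m := by
    intro m
    rw [Finsupp.weight_apply, Finsupp.weight_apply,
      Finsupp.sum_mapDomain_index (fun _ => by simp) (fun _ _ _ => by rw [add_smul])]
    rfl
  constructor
  · intro h m hm
    rw [← hw]
    exact h (by rwa [coeff_rename_mapDomain e he])
  · intro h m hm
    obtain ⟨u, rfl, hu⟩ := coeff_rename_ne_zero e f m hm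
    rw [hw]
    exact h hu

theorem reduce_blockSym (a d : ℕ) {n n' : ℕ} (h : n ≤ n') (f : MvPolynomial (Var a n) ℂ) :
    rename (reduce_inc a h) f ∈ blockSym a n' d ↔ f ∈ blockSym a n d := by
  rw [mem_blockSym, mem_blockSym]
  refine and_congr (forall_congr' fun i => reduce_hom_rename (reduce_inc_inj a h) _ f d)
    (forall_congr' fun σ => ?_)
  have e : rename (blockPerm σ) (rename (reduce_inc a h) f) =
      rename (reduce_inc a h) (rename (blockPerm σ) f) := by
    rw [rename_rename, rename_rename]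
    rfl
  rw [e]
  exact (rename_injective _ (reduce_inc_inj a h)).eq_iff

theorem reduce_hw (a d : ℕ) {n n' : ℕ} (h : n ≤ n') (l : Fin n → ℕ)
    (f : MvPolynomial (Var a n) ℂ) :
    rename (reduce_inc a h) f ∈
      (hw a n' d fun k => if hk : (k : ℕ) < n then l ⟨k, hk⟩ else 0) ↔ f ∈ hw a n d l := by
  have hinj : Function.Injective
      (rename (reduce_inc a h) : MvPolynomial (Var a n) ℂ →ₐ[ℂ] MvPolynomial (Var a n') ℂ) :=
    rename_injective _ (reduce_inc_inj a h)
  unfold hw
  rw [Submodule.mem_inf, Submodule.mem_inf, reduce_blockSym, mem_hwSp, mem_hwSp]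
  refine and_congr Iff.rfl ⟨fun ⟨h1, h2⟩ => ⟨fun i => hinj ?_, fun i j hij => hinj ?_⟩,
    fun ⟨h1, h2⟩ => ⟨fun i => ?_, fun i j hij => ?_⟩⟩
  · rw [← reduce_Eop_rename, h1, map_smul]
    simp
  · rw [← reduce_Eop_rename, h2 _ _ (by simpa using hij), map_zero]
  · by_cases hi : (i : ℕ) < n
    · have := reduce_Eop_rename a h ⟨i, hi⟩ ⟨i, hi⟩ f
      rw [h1, map_smul] at this
      simpa [hi] using this
    · rw [reduce_Eop_zero a h i i (not_lt.1 hi)]
      simp [hi]
  · by_cases hj : (j : ℕ) < n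
    · have hi : (i : ℕ) < n := lt_trans hij hj
      have := reduce_Eop_rename a h ⟨i, hi⟩ ⟨j, hj⟩ f
      rw [h2 _ _ hij, map_zero] at this
      exact this
    · exact reduce_Eop_zero a h i j (not_lt.1 hj) f

/-- `rename (Prod.map id (Fin.castLE h))` is an isomorphism between the two spaces: it is injective,
commutes with block permutations and with `Eop i j`, its image is killed by `Eop i j` for `n ≤ j`;
conversely a weight vector of the padded weight only involves the first `n` coordinates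
(`mem_wtSp_Eop`, `MvPolynomial.exists_rename_eq_of_vars_subset_range`). -/
theorem finrank_hw_pad (a d : ℕ) {n n' : ℕ} (h : n ≤ n') (l : Fin n → ℕ) :
    finrank ℂ (hw a n d l) =
      finrank ℂ (hw a n' d fun k => if hk : (k : ℕ) < n then l ⟨k, hk⟩ else 0) := by
  have hinj : Function.Injective
      (rename (reduce_inc a h) :
        MvPolynomial (Var a n) ℂ →ₐ[ℂ] MvPolynomial (Var a n') ℂ).toLinearMap :=
    rename_injective _ (reduce_inc_inj a h)
  rw [(Submodule.equivMapOfInjective _ hinj (hw a n d l)).finrank_eq]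
  refine congrArg (fun U : Submodule ℂ (MvPolynomial (Var a n') ℂ) => finrank ℂ U) ?_
  ext g
  constructor
  · rintro ⟨f, hf, rfl⟩
    exact (reduce_hw a d h l f).2 hf
  · intro hg
    have h1 := mem_wtSp_Eop.1 (mem_wtSp.2 (mem_hwSp.1 hg.2).1)
    obtain ⟨f, rfl⟩ := exists_rename_eq_of_vars_subset_range g (reduce_inc a h)
      (reduce_inc_inj a h) fun v hv => by
        obtain ⟨m, hm, hv'⟩ := (mem_vars_iff_mem_support v).1 hv
        by_cases hk : (v.2 : ℕ) < n
        · exact ⟨(v.1, ⟨v.2, hk⟩), rfl⟩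
        · have h2 := h1 m hm v.2
          rw [dif_neg hk, Finset.sum_eq_zero_iff] at h2
          exact absurd (h2 v.1 (Finset.mem_univ _)) (Finsupp.mem_support_iff.1 hv')
    exact ⟨f, (reduce_hw a d h l f).1 hg, rfl⟩

/-- `Eop i k f = 0` for the `a` indices `i < a ≤ k` is a linear system for the `pderiv (r, k) f`
whose matrix `X (r, i)` has nonzero determinant; so `Eop k k f = 0`. -/
theorem hw_eq_bot_of_long (a n d : ℕ) (l : Fin n → ℕ) (k : Fin n) (hk : a ≤ (k : ℕ))
    (hl : l k ≠ 0) : hw a n d l = ⊥ := by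
  rw [Submodule.eq_bot_iff]
  intro f hf
  obtain ⟨h1, h2⟩ := mem_hwSp.1 hf.2
  have han : a ≤ n := hk.trans k.2.le
  let M : Matrix (Fin a) (Fin a) (MvPolynomial (Var a n) ℂ) :=
    Matrix.of fun i r => X (r, Fin.castLE han i)
  have hM : M.det ≠ 0 := by
    intro h0
    have h3 := RingHom.map_det
      (eval fun v : Var a n => if (v.2 : ℕ) = v.1 then (1 : ℂ) else 0) M
    have h4 : (eval fun v : Var a n => if (v.2 : ℕ) = v.1 then (1 : ℂ) else 0).mapMatrix M = 1 := by
      ext i r
      simp [M, Matrix.one_apply, Fin.ext_iff]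
    rw [h0, h4, map_zero, Matrix.det_one] at h3
    exact zero_ne_one h3
  have h5 : (fun r : Fin a => pderiv (r, k) f) = 0 := by
    refine Matrix.eq_zero_of_mulVec_eq_zero hM (funext fun i => ?_)
    have := h2 (Fin.castLE han i) k (Fin.lt_def.2 (lt_of_lt_of_le i.2 hk))
    rw [Eop_apply] at this
    exact this
  have h6 := h1 k
  rw [Eop_apply, Finset.sum_eq_zero fun r _ => by rw [congrFun h5 r, Pi.zero_apply, mul_zero]] at h6
  refine (smul_eq_zero.1 h6.symm).resolve_left ?_
  exact_mod_cast hl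

theorem finrank_hw_le_of_six (b : ℕ)
    (h : ∀ l : Fin 6 → ℕ, Antitone l → finrank ℂ (hw 6 6 b l) ≤ finrank ℂ (hw b 6 6 l))
    (n : ℕ) (l : Fin n → ℕ) (hl : Antitone l) :
    finrank ℂ (hw 6 n b l) ≤ finrank ℂ (hw b n 6 l) := by
  rcases le_total n 6 with hn | hn
  · rw [finrank_hw_pad 6 b hn l, finrank_hw_pad b 6 hn l]
    refine h _ fun i j hij => ?_
    have hij' : (i : ℕ) ≤ j := hij
    by_cases hj : (j : ℕ) < n
    · have hi : (i : ℕ) < n := lt_of_le_of_lt hij' hj
      simp only [dif_pos hi, dif_pos hj]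
      exact hl hij'
    · simp only [dif_neg hj]
      exact Nat.zero_le _
  · by_cases h0 : ∃ k : Fin n, 6 ≤ (k : ℕ) ∧ l k ≠ 0
    · obtain ⟨k, hk, hk'⟩ := h0
      rw [hw_eq_bot_of_long 6 n b l k hk hk', finrank_bot]
      exact Nat.zero_le _
    · have e : l = fun k : Fin n =>
          if hk : (k : ℕ) < 6 then (fun i => l (Fin.castLE hn i)) ⟨k, hk⟩ else 0 := by
        funext k
        split_ifs with hk
        · rfl
        · by_contra h1
          exact h0 ⟨k, not_lt.1 hk, h1⟩
      have e1 := finrank_hw_pad 6 b hn fun i => l (Fin.castLE hn i)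
      have e2 := finrank_hw_pad b 6 hn fun i => l (Fin.castLE hn i)
      rw [← e] at e1 e2
      rw [← e1, ← e2]
      exact h _ fun i j hij => hl hij

end Crest.Agent.R187
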