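import Crest.Agent.R187.Defs

/-! Abstract unitary `gl_n`-modules: highest weight theory.

Write `P μ` for the orthogonal projection on `wtSp E μ`.  Different weight spaces are orthogonal
(`E i i` is symmetric with different real eigenvalues). -/

set_option autoImplicit false

open Module

namespace Crest.Agent.R187

section aux

variable {n : ℕ} {W : Type*} [AddCommGroup W] [Module ℂ W]

/-- action of a word -/
def rep_word (E : Fin n → Fin n → Module.End ℂ W) (w : List (Fin n × Fin n)) : Module.End ℂ W :=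
  (w.map fun p => E p.1 p.2).prod

theorem rep_word_nil (E : Fin n → Fin n → Module.End ℂ W) (v : W) : rep_word E [] v = v := by
  simp [rep_word]

theorem rep_word_cons (E : Fin n → Fin n → Module.End ℂ W) (p : Fin n × Fin n)
    (w : List (Fin n × Fin n)) (v : W) :
    rep_word E (p :: w) v = E p.1 p.2 (rep_word E w v) := by
  simp [rep_word]

/-- span of the lowering words applied to a set of vectors -/
def rep_low (E : Fin n → Fin n → Module.End ℂ W) (H : Set W) : Submodule ℂ W :=
  Submodule.span ℂ {x | ∃ w : List (Fin n × Fin n), (∀ p ∈ w, p.2 < p.1) ∧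
    ∃ v ∈ H, x = rep_word E w v}

theorem rep_low_lower (E : Fin n → Fin n → Module.End ℂ W) (H : Set W) {a b : Fin n} (hab : b < a)
    {x : W} (hx : x ∈ rep_low E H) : E a b x ∈ rep_low E H := by
  induction hx using Submodule.span_induction with
  | mem x hx =>
    obtain ⟨w, hw, v, hv, rfl⟩ := hx
    refine Submodule.subset_span ⟨(a, b) :: w, ?_, v, hv, (rep_word_cons E (a, b) w v).symm⟩
    intro p hp
    rcases List.mem_cons.1 hp with rfl | hp
    · exact hab
    · exact hw p hp
  | zero => simp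
  | add x y _ _ hx hy => rw [map_add]; exact Submodule.add_mem _ hx hy
  | smul c x _ hx => rw [map_smul]; exact Submodule.smul_mem _ c hx

theorem rep_low_invariant (E : Fin n → Fin n → Module.End ℂ W)
    (comm : ∀ i j k l, E i j * E k l - E k l * E i j =
      (if j = k then E i l else 0) - (if l = i then E k j else 0))
    {l : Fin n → ℤ} {H : Set W} (hH : ∀ v ∈ H, v ∈ hwSp E l) (i j : Fin n)
    {x : W} (hx : x ∈ rep_low E H) : E i j x ∈ rep_low E H := by
  have key : ∀ w : List (Fin n × Fin n), (∀ p ∈ w, p.2 < p.1) → ∀ v ∈ H, ∀ i j,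
      E i j (rep_word E w v) ∈ rep_low E H := by
    intro w
    induction w with
    | nil =>
      intro _ v hv i j
      rw [rep_word_nil]
      have hv0 : v ∈ rep_low E H :=
        Submodule.subset_span ⟨[], by simp, v, hv, (rep_word_nil E v).symm⟩
      rcases lt_trichotomy i j with h | rfl | h
      · rw [(hH v hv).2 i j h]; exact Submodule.zero_mem _
      · rw [(hH v hv).1 i]; exact Submodule.smul_mem _ _ hv0
      · exact rep_low_lower E H h hv0
    | cons p w ih =>
      intro hw v hv i j
      have ih' := ih (fun q hq => hw q (List.mem_cons_of_mem _ hq)) v hv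
      have hp := hw p List.mem_cons_self
      rw [rep_word_cons]
      have e := congrArg (fun T : Module.End ℂ W => T (rep_word E w v)) (comm i j p.1 p.2)
      simp only [LinearMap.sub_apply, Module.End.mul_apply] at e
      rw [sub_eq_iff_eq_add] at e
      rw [e]
      refine Submodule.add_mem _ (Submodule.sub_mem _ ?_ ?_) (rep_low_lower E H hp (ih' i j))
      · split_ifs
        · exact ih' _ _
        · simp
      · split_ifs
        · exact ih' _ _
        · simp
  induction hx using Submodule.span_induction with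
  | mem x hx =>
    obtain ⟨w, hw, v, hv, rfl⟩ := hx
    exact key w hw v hv i j
  | zero => simp
  | add x y _ _ hx hy => rw [map_add]; exact Submodule.add_mem _ hx hy
  | smul c x _ hx => rw [map_smul]; exact Submodule.smul_mem _ c hx

theorem rep_word_mem (E : Fin n → Fin n → Module.End ℂ W) {U : Submodule ℂ W}
    (hU : ∀ i j, ∀ x ∈ U, E i j x ∈ U) (w : List (Fin n × Fin n)) {x : W} (hx : x ∈ U) :
    rep_word E w x ∈ U := by
  induction w with
  | nil => rwa [rep_word_nil]
  | cons p w ih => rw [rep_word_cons]; exact hU _ _ _ ih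

theorem rep_word_prod {W' : Type*} [AddCommGroup W'] [Module ℂ W']
    (E : Fin n → Fin n → Module.End ℂ W) (E' : Fin n → Fin n → Module.End ℂ W')
    (w : List (Fin n × Fin n)) (v : W) (v' : W') :
    rep_word (fun i j => (E i j).prodMap (E' i j)) w (v, v') =
      (rep_word E w v, rep_word E' w v') := by
  induction w with
  | nil => simp only [rep_word_nil]
  | cons p w ih => simp only [rep_word_cons, ih, LinearMap.prodMap_apply]

theorem rep_exists_isometry {A B : Type*} [NormedAddCommGroup A] [InnerProductSpace ℂ A]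
    [FiniteDimensional ℂ A] [NormedAddCommGroup B] [InnerProductSpace ℂ B] [FiniteDimensional ℂ B]
    (h : finrank ℂ A ≤ finrank ℂ B) : Nonempty (A →ₗᵢ[ℂ] B) := by
  let a := stdOrthonormalBasis ℂ A
  let b := stdOrthonormalBasis ℂ B
  let f : A →ₗ[ℂ] B := a.toBasis.constr ℂ (b ∘ Fin.castLE h)
  have hf : f ∘ a.toBasis = b ∘ Fin.castLE h := by
    funext i
    exact a.toBasis.constr_basis ℂ _ i
  refine ⟨f.isometryOfOrthonormal (v := a.toBasis) (by simp) ?_⟩
  rw [hf]
  exact b.orthonormal.comp _ (Fin.castLE_injective h)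

end aux

namespace GlMod

variable {n : ℕ} {V V' : Type*} [NormedAddCommGroup V] [InnerProductSpace ℂ V]
  [FiniteDimensional ℂ V] [NormedAddCommGroup V'] [InnerProductSpace ℂ V'] [FiniteDimensional ℂ V']

/-- action of a word in the operators `E i j` (leftmost letter acts last) -/
def word (M : GlMod n V) (w : List (Fin n × Fin n)) : Module.End ℂ V :=
  (w.map fun p => M.E p.1 p.2).prod

/-- span of the lowering words (`p.2 < p.1` for every letter) applied to highest weight vectors
of weight `l`: the isotypic component -/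
def iso (M : GlMod n V) (l : Fin n → ℤ) : Submodule ℂ V :=
  Submodule.span ℂ {x | ∃ w : List (Fin n × Fin n), (∀ p ∈ w, p.2 < p.1) ∧
    ∃ v ∈ hwSp M.E l, x = M.word w v}

omit [FiniteDimensional ℂ V] in
/-- from `comm`: `E k k * E i j = E i j * E k k + (δ_{ki} - δ_{jk}) E i j` -/
theorem E_mem_wtSp (M : GlMod n V) {μ : Fin n → ℤ} {v : V} (hv : v ∈ wtSp M.E μ) (i j : Fin n) :
    M.E i j v ∈ wtSp M.E (μ + Pi.single i 1 - Pi.single j 1) := by
  intro k
  have e := congrArg (fun T : Module.End ℂ V => T v) (M.comm k k i j)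
  simp only [LinearMap.sub_apply, Module.End.mul_apply] at e
  rw [sub_eq_iff_eq_add, hv k, map_smul] at e
  rw [e]
  simp only [Pi.sub_apply, Pi.add_apply, Pi.single_apply]
  by_cases h1 : k = i <;> by_cases h2 : k = j
  · subst h1; subst h2; simp
  · subst h1
    simp [h2, Ne.symm h2, add_smul, add_comm]
  · subst h2
    simp [h1, sub_smul]; abel
  · simp [h1, h2, Ne.symm h2]

omit [FiniteDimensional ℂ V] in
theorem inner_wtSp (M : GlMod n V) {μ ν : Fin n → ℤ} (h : μ ≠ ν) {x y : V}
    (hx : x ∈ wtSp M.E μ) (hy : y ∈ wtSp M.E ν) : inner ℂ x y = (0 : ℂ) := by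
  obtain ⟨i, hi⟩ := Function.ne_iff.1 h
  have e := M.adj i i x y
  rw [hx i, hy i, inner_smul_left, inner_smul_right] at e
  simp only [map_intCast] at e
  have hne : ((μ i : ℂ) - (ν i : ℂ)) ≠ 0 := by
    rw [sub_ne_zero]; exact_mod_cast hi
  have : ((μ i : ℂ) - (ν i : ℂ)) * inner ℂ x y = 0 := by rw [sub_mul, e, sub_self]
  exact (mul_eq_zero.1 this).resolve_left hne

omit [FiniteDimensional ℂ V] in
/-- such a vector is orthogonal to all `wtSp ν`, `ν ∈ S`, which span -/
theorem wtSp_eq_bot (M : GlMod n V) {μ : Fin n → ℤ} (h : μ ∉ M.S) : wtSp M.E μ = ⊥ := by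
  rw [eq_bot_iff]
  intro x hx
  have hle : (⊤ : Submodule ℂ V) ≤ (Submodule.span ℂ {x})ᗮ := by
    rw [← M.span]
    refine iSup₂_le fun ν hν y hy => ?_
    rw [Submodule.mem_orthogonal_singleton_iff_inner_right]
    exact M.inner_wtSp (μ := μ) (ν := ν) (fun e => h (by rw [e]; exact hν)) hx hy
  have := hle (Submodule.mem_top (x := x))
  rw [Submodule.mem_orthogonal_singleton_iff_inner_right, inner_self_eq_zero] at this
  simpa using this

omit [FiniteDimensional ℂ V] in
/-- `‖E j i v‖² = (μ i - μ j) ‖v‖²` for `i < j` -/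
theorem hw_antitone (M : GlMod n V) {μ : Fin n → ℤ} (h : hwSp M.E μ ≠ ⊥) :
    Antitone μ ∧ ∀ i, 0 ≤ μ i := by
  obtain ⟨v, hv, hv0⟩ := Submodule.exists_mem_ne_zero_of_ne_bot h
  have hS : μ ∈ M.S := by
    by_contra hS
    have : v ∈ wtSp M.E μ := hv.1
    rw [M.wtSp_eq_bot hS] at this
    exact hv0 (by simpa using this)
  refine ⟨fun i j hij => ?_, M.nonneg μ hS⟩
  rcases hij.eq_or_lt with rfl | hij
  · exact le_rfl
  have e := congrArg (fun T : Module.End ℂ V => T v) (M.comm i j j i)
  simp only [LinearMap.sub_apply, Module.End.mul_apply, if_true] at e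
  rw [hv.2 i j hij, map_zero, sub_zero, hv.1 i, hv.1 j, ← sub_smul] at e
  have e2 := M.adj j i v (M.E j i v)
  rw [e, inner_smul_right, inner_self_eq_norm_sq_to_K, inner_self_eq_norm_sq_to_K] at e2
  have e3 : ‖M.E j i v‖ ^ 2 = ((μ i : ℝ) - (μ j : ℝ)) * ‖v‖ ^ 2 := by
    have : ((‖M.E j i v‖ ^ 2 : ℝ) : ℂ) = ((((μ i : ℝ) - (μ j : ℝ)) * ‖v‖ ^ 2 : ℝ) : ℂ) := by
      push_cast; exact e2
    exact_mod_cast this
  have hpos : 0 < ‖v‖ ^ 2 := by positivity
  have : (0 : ℝ) ≤ (μ i : ℝ) - (μ j : ℝ) := by
    by_contra hneg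
    have := mul_neg_of_neg_of_pos (not_le.1 hneg) hpos
    nlinarith [sq_nonneg ‖M.E j i v‖]
  have : (μ j : ℝ) ≤ μ i := by linarith
  exact_mod_cast this

/-- a nonzero invariant subspace `U` contains a nonzero highest weight vector: `Uᗮ` is invariant
(adjointness), so the orthogonal projection on `U` commutes with all `E i j` and maps `wtSp μ` into
`U ⊓ wtSp μ`; hence some `U ⊓ wtSp μ ≠ ⊥`, `μ ∈ S`; take such a `μ` maximising `∑ (n - i) μ i`. -/
theorem exists_hw (M : GlMod n V) {U : Submodule ℂ V} (hU : ∀ i j, ∀ x ∈ U, M.E i j x ∈ U)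
    (h0 : U ≠ ⊥) : ∃ μ ∈ M.S, ∃ v ∈ U, v ≠ 0 ∧ v ∈ hwSp M.E μ := by
  classical
  have hUo : ∀ i j, ∀ x ∈ Uᗮ, M.E i j x ∈ Uᗮ := by
    intro i j x hx u hu
    rw [← M.adj]
    exact hx _ (hU _ _ u hu)
  have hP : ∀ i j x, U.starProjection (M.E i j x) = M.E i j (U.starProjection x) := by
    intro i j x
    refine Submodule.eq_starProjection_of_mem_orthogonal
      (hU _ _ _ (U.starProjection_apply_mem x)) ?_
    rw [← map_sub]
    exact hUo _ _ _ (U.sub_starProjection_mem_orthogonal x)
  have hne : (M.S.filter fun μ => U ⊓ wtSp M.E μ ≠ ⊥).Nonempty := by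
    by_contra hemp
    apply h0
    rw [eq_bot_iff]
    intro u hu
    have hle : (⊤ : Submodule ℂ V) ≤ LinearMap.ker (U.starProjection : V →ₗ[ℂ] V) := by
      rw [← M.span]
      refine iSup₂_le fun ν hν y hy => ?_
      have hb : U ⊓ wtSp M.E ν = ⊥ := by
        by_contra hb
        exact hemp ⟨ν, Finset.mem_filter.2 ⟨hν, hb⟩⟩
      have : U.starProjection y ∈ U ⊓ wtSp M.E ν := by
        refine ⟨U.starProjection_apply_mem y, fun i => ?_⟩
        rw [← hP, hy i, map_smul]
      rw [hb] at this
      exact (Submodule.mem_bot ℂ).1 this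
    have := hle (Submodule.mem_top (x := u))
    simp only [LinearMap.mem_ker, ContinuousLinearMap.coe_coe] at this
    rw [Submodule.starProjection_eq_self_iff.2 hu] at this
    simpa using this
  obtain ⟨μ, hμ, hmin⟩ := Finset.exists_min_image _ 
    (fun μ : Fin n → ℤ => ∑ k : Fin n, ((k : ℕ) : ℤ) * μ k) hne
  obtain ⟨hμS, hμ0⟩ := Finset.mem_filter.1 hμ
  obtain ⟨v, hv, hv0⟩ := Submodule.exists_mem_ne_zero_of_ne_bot hμ0
  refine ⟨μ, hμS, v, hv.1, hv0, hv.2, fun i j hij => ?_⟩
  by_contra hE
  have h1 := M.E_mem_wtSp hv.2 i j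
  have hS : μ + Pi.single i 1 - Pi.single j 1 ∈ M.S := by
    by_contra hS
    rw [M.wtSp_eq_bot hS] at h1
    exact hE (by simpa using h1)
  have h2 := hmin _ (Finset.mem_filter.2 ⟨hS, fun hb => by
    have : M.E i j v ∈ U ⊓ wtSp M.E (μ + Pi.single i 1 - Pi.single j 1) := ⟨hU _ _ _ hv.1, h1⟩
    rw [hb] at this
    exact hE (by simpa using this)⟩)
  simp only [Pi.sub_apply, Pi.add_apply, mul_sub, mul_add, Finset.sum_sub_distrib,
    Finset.sum_add_distrib, Pi.single_apply, mul_ite, mul_one, mul_zero, Finset.sum_ite_eq',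
    Finset.mem_univ, if_true] at h2
  have : (i : ℕ) < j := hij
  omega

omit [FiniteDimensional ℂ V] in
/-- induction on the word: `E i j (F w v) = F (E i j (w v)) + [E i j, F] (w v)` -/
theorem iso_invariant (M : GlMod n V) (l : Fin n → ℤ) (i j : Fin n) {x : V} (hx : x ∈ M.iso l) :
    M.E i j x ∈ M.iso l := by
  exact rep_low_invariant M.E M.comm (H := hwSp M.E l) (fun _ hv => hv) i j hx

omit [FiniteDimensional ℂ V] [FiniteDimensional ℂ V'] in
/-- Shapovalov form.  Strong induction on the length of `w`; swapping two adjacent letters changes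
both sides by shorter words (`comm`), so (for words of a fixed length) the difference of both sides
is invariant under `List.Perm`; a raising or diagonal letter is moved to the right end (gives `0`,
resp. a scalar times a shorter word); if all letters are lowering the first one is moved to the
left argument by `adj` and kills it. -/
theorem shapovalov (M : GlMod n V) (M' : GlMod n V') {μ l : Fin n → ℤ} {x y : V} {x' y' : V'}
    (hx : x ∈ hwSp M.E μ) (hy : y ∈ hwSp M.E l) (hx' : x' ∈ hwSp M'.E μ) (hy' : y' ∈ hwSp M'.E l)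
    (h : inner ℂ x y = inner ℂ x' y') (w : List (Fin n × Fin n)) :
    inner ℂ x (M.word w y) = inner ℂ x' (M'.word w y') := by
  let F : Fin n → Fin n → Module.End ℂ (V × V') := fun i j => (M.E i j).prodMap (M'.E i j)
  have comm : ∀ i j k l, F i j * F k l - F k l * F i j =
      (if j = k then F i l else 0) - (if l = i then F k j else 0) := by
    intro i j k l
    refine LinearMap.ext fun z => ?_
    have e := congrArg (fun T : Module.End ℂ V => T z.1) (M.comm i j k l)
    have e' := congrArg (fun T : Module.End ℂ V' => T z.2) (M'.comm i j k l)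
    simp only [LinearMap.sub_apply, Module.End.mul_apply] at e e' ⊢
    refine Prod.ext ?_ ?_
    · simp only [F, Prod.fst_sub, LinearMap.prodMap_apply, e]
      split_ifs <;> simp
    · simp only [F, Prod.snd_sub, LinearMap.prodMap_apply, e']
      split_ifs <;> simp
  have hH : ∀ v ∈ ({(y, y')} : Set (V × V')), v ∈ hwSp F l := by
    rintro v rfl
    refine ⟨fun i => ?_, fun i j hij => ?_⟩
    · simp only [F, LinearMap.prodMap_apply, hy.1 i, hy'.1 i, Prod.smul_mk]
    · simp only [F, LinearMap.prodMap_apply, hy.2 i j hij, hy'.2 i j hij, Prod.mk_zero_zero]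
  have hmem : rep_word F w (y, y') ∈ rep_low F {(y, y')} :=
    rep_word_mem F (fun i j z hz => rep_low_invariant F comm hH i j hz) w
      (Submodule.subset_span ⟨[], by simp, _, rfl, (rep_word_nil F _).symm⟩)
  have key : ∀ z ∈ rep_low F {(y, y')}, inner ℂ x z.1 = inner ℂ x' z.2 := by
    intro z hz
    induction hz using Submodule.span_induction with
    | mem z hz =>
      obtain ⟨u, hu, v, rfl, rfl⟩ := hz
      cases u with
      | nil => rw [rep_word_nil]; exact h
      | cons p u =>
        have hp := hu p List.mem_cons_self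
        rw [rep_word_cons]
        simp only [F, LinearMap.prodMap_apply]
        rw [← M.adj, ← M'.adj, hx.2 _ _ hp, hx'.2 _ _ hp, inner_zero_left, inner_zero_left]
    | zero => simp
    | add a b _ _ ha hb => simp only [Prod.fst_add, Prod.snd_add, inner_add_right, ha, hb]
    | smul c a _ ha => simp only [Prod.smul_fst, Prod.smul_snd, inner_smul_right, ha]
  have := key _ hmem
  rw [rep_word_prod] at this
  exact this

omit [FiniteDimensional ℂ V] in
/-- use `shapovalov` with `x' = y' = 0` and move words across with `adj` -/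
theorem iso_orthogonal (M : GlMod n V) {μ l : Fin n → ℤ} (h : μ ≠ l) {x y : V}
    (hx : x ∈ M.iso μ) (hy : y ∈ M.iso l) : inner ℂ x y = (0 : ℂ) := by
  have h1 : ∀ v ∈ hwSp M.E μ, ∀ y ∈ M.iso l, inner ℂ v y = (0 : ℂ) := by
    intro v hv y hy
    induction hy using Submodule.span_induction with
    | mem z hz =>
      obtain ⟨u, hu, z, hz, rfl⟩ := hz
      have := M.shapovalov M hv hz (Submodule.zero_mem _) (Submodule.zero_mem _)
        (by rw [M.inner_wtSp h hv.1 hz.1, inner_zero_left]) u
      rw [this, inner_zero_left]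
    | zero => simp
    | add a b _ _ ha hb => rw [inner_add_right, ha, hb, add_zero]
    | smul c a _ ha => rw [inner_smul_right, ha, mul_zero]
  have h2 : ∀ (w : List (Fin n × Fin n)), ∀ v ∈ hwSp M.E μ, ∀ y ∈ M.iso l,
      inner ℂ (rep_word M.E w v) y = (0 : ℂ) := by
    intro w v hv
    induction w with
    | nil => intro y hy; rw [rep_word_nil]; exact h1 v hv y hy
    | cons p w ih =>
      intro y hy
      rw [rep_word_cons, M.adj]
      exact ih _ (M.iso_invariant l _ _ hy)
  induction hx using Submodule.span_induction with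
  | mem z hz =>
    obtain ⟨u, -, z, hz, rfl⟩ := hz
    exact h2 u z hz y hy
  | zero => simp
  | add a b _ _ ha hb => rw [inner_add_left, ha, hb, add_zero]
  | smul c a _ ha => rw [inner_smul_left, ha, mul_zero]

/-- the orthogonal complement of the left side is invariant, use `exists_hw` -/
theorem iSup_iso (M : GlMod n V) : ⨆ l ∈ M.S, M.iso l = ⊤ := by
  set T : Submodule ℂ V := ⨆ l ∈ M.S, M.iso l with hT
  have hinv : ∀ i j, ∀ x ∈ T, M.E i j x ∈ T := by
    intro i j
    have : T ≤ T.comap (M.E i j) := by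
      refine iSup₂_le fun l hl x hx => ?_
      exact (le_iSup₂ (f := fun l (_ : l ∈ M.S) => M.iso l) l hl) (M.iso_invariant l i j hx)
    exact fun x hx => this hx
  have hUo : ∀ i j, ∀ x ∈ Tᗮ, M.E i j x ∈ Tᗮ := by
    intro i j x hx u hu
    rw [← M.adj]
    exact hx _ (hinv _ _ u hu)
  rw [← Submodule.orthogonal_eq_bot_iff]
  by_contra h0
  obtain ⟨μ, hμ, v, hv, hv0, hw⟩ := M.exists_hw hUo h0
  have h1 : v ∈ M.iso μ := Submodule.subset_span ⟨[], by simp, v, hw, (rep_word_nil M.E v).symm⟩
  have h2 : v ∈ T := (le_iSup₂ (f := fun l (_ : l ∈ M.S) => M.iso l) μ hμ) h1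
  exact hv0 (inner_self_eq_zero.1 (hv v h2))

/-- Choose linear isometries `ι l : hwSp M.E l →ₗᵢ hwSp M'.E l` (orthonormal bases).  On the free
module `F` on triples (word, `l`, vector of `hwSp M.E l`) let `α (w, l, v) = w v`,
`β (w, l, v) = w (ι l v)`.  By `shapovalov` (and `adj`, `inner_wtSp`) `⟪α x, α y⟫ = ⟪β x, β y⟫`, so
`ker α = ker β`; `α` is onto by `iSup_iso`; `φ = β ∘ α⁻¹`. -/
theorem exists_injective (M : GlMod n V) (M' : GlMod n V')
    (h : ∀ μ, finrank ℂ (hwSp M.E μ) ≤ finrank ℂ (hwSp M'.E μ)) :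
    ∃ φ : V →ₗ[ℂ] V', Function.Injective φ ∧ ∀ i j v, φ (M.E i j v) = M'.E i j (φ v) := by
  have ι : ∀ μ, hwSp M.E μ →ₗᵢ[ℂ] hwSp M'.E μ := fun μ => (rep_exists_isometry (h μ)).some
  let G : Submodule ℂ (V × V') := Submodule.span ℂ
    {z | ∃ (w : List (Fin n × Fin n)) (l : Fin n → ℤ) (v : hwSp M.E l),
      z = (rep_word M.E w v, rep_word M'.E w (ι l v))}
  have h1 : ∀ (l l' : Fin n → ℤ) (v : hwSp M.E l) (v' : hwSp M.E l') (w w' : List (Fin n × Fin n)),
      inner ℂ (rep_word M.E w v) (rep_word M.E w' v') =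
        inner ℂ (rep_word M'.E w (ι l v)) (rep_word M'.E w' (ι l' v')) := by
    intro l l' v v' w
    induction w with
    | nil =>
      intro w'
      rw [rep_word_nil, rep_word_nil]
      refine M.shapovalov M' v.2 v'.2 (ι l v).2 (ι l' v').2 ?_ w'
      by_cases hl : l = l'
      · subst hl
        exact ((ι l).inner_map_map v v').symm
      · rw [M.inner_wtSp hl v.2.1 v'.2.1, M'.inner_wtSp hl (ι l v).2.1 (ι l' v').2.1]
    | cons p w ih =>
      intro w'
      rw [rep_word_cons, rep_word_cons, M.adj, M'.adj]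
      have := ih ((p.2, p.1) :: w')
      rwa [rep_word_cons, rep_word_cons] at this
  have h2 : ∀ a ∈ G, ∀ b ∈ G, inner ℂ a.1 b.1 = inner ℂ a.2 b.2 := by
    intro a ha b hb
    induction ha using Submodule.span_induction with
    | mem a ha =>
      obtain ⟨w, l, v, rfl⟩ := ha
      induction hb using Submodule.span_induction with
      | mem b hb =>
        obtain ⟨w', l', v', rfl⟩ := hb
        exact h1 l l' v v' w w'
      | zero => simp
      | add a b _ _ ha hb => simp only [Prod.fst_add, Prod.snd_add, inner_add_right] at *; rw [ha, hb]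
      | smul c a _ ha => simp only [Prod.smul_fst, Prod.smul_snd, inner_smul_right] at *; rw [ha]
    | zero => simp
    | add a b _ _ ha hb => simp only [Prod.fst_add, Prod.snd_add, inner_add_left, ha, hb]
    | smul c a _ ha => simp only [Prod.smul_fst, Prod.smul_snd, inner_smul_left, ha]
  have hinv : ∀ i j, ∀ a ∈ G, (M.E i j a.1, M'.E i j a.2) ∈ G := by
    intro i j a ha
    induction ha using Submodule.span_induction with
    | mem a ha =>
      obtain ⟨w, l, v, rfl⟩ := ha
      refine Submodule.subset_span ⟨(i, j) :: w, l, v, ?_⟩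
      rw [rep_word_cons, rep_word_cons]
    | zero => simp only [Prod.fst_zero, Prod.snd_zero, map_zero]; exact G.zero_mem
    | add a b _ _ ha hb => simpa using G.add_mem ha hb
    | smul c a _ ha => simpa using G.smul_mem c ha
  let α : G →ₗ[ℂ] V := (LinearMap.fst ℂ V V').comp G.subtype
  let β : G →ₗ[ℂ] V' := (LinearMap.snd ℂ V V').comp G.subtype
  have hz : ∀ a : G, α a = 0 ↔ β a = 0 := by
    intro a
    have := h2 a a.2 a a.2
    change a.1.1 = 0 ↔ a.1.2 = 0
    rw [← inner_self_eq_zero (𝕜 := ℂ), this, inner_self_eq_zero]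
  have hz' : ∀ a : G, α a = 0 → β a = 0 → a = 0 := fun a h1 h2 =>
    Subtype.ext (Prod.ext h1 h2)
  have hαi : Function.Injective α :=
    (injective_iff_map_eq_zero α).2 fun a ha => hz' a ha ((hz a).1 ha)
  have hβi : Function.Injective β :=
    (injective_iff_map_eq_zero β).2 fun a ha => hz' a ((hz a).2 ha) ha
  have hαs : Function.Surjective α := by
    rw [← LinearMap.range_eq_top, eq_top_iff, ← M.iSup_iso]
    refine iSup₂_le fun l _ => Submodule.span_le.2 ?_
    rintro _ ⟨w, -, v, hv, rfl⟩
    exact ⟨⟨_, Submodule.subset_span ⟨w, l, ⟨v, hv⟩, rfl⟩⟩, rfl⟩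
  let e : G ≃ₗ[ℂ] V := LinearEquiv.ofBijective α ⟨hαi, hαs⟩
  refine ⟨β ∘ₗ e.symm.toLinearMap, hβi.comp e.symm.injective, fun i j v => ?_⟩
  obtain ⟨a, rfl⟩ := e.surjective v
  have : M.E i j (e a) = e ⟨_, hinv i j a.1 a.2⟩ := rfl
  rw [this]
  simp only [LinearMap.comp_apply, LinearEquiv.coe_coe, LinearEquiv.symm_apply_apply]
  rfl

end GlMod

end Crest.Agent.R187
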