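import Crest.Agent.R187.RunList

/-! Soundness of the table checker. -/

set_option autoImplicit false

open MvPolynomial

namespace Crest.Agent.R187

theorem onesN_eq (w n : ℕ) : onesN w (w * n) = ones w n := rfl

theorem lt_of_land_eq_zero {x w a : ℕ} (hx : x < 2 ^ w) (ha : a ≤ w)
    (h : x &&& (2 ^ w - 2 ^ a) = 0) : x < 2 ^ a := by
  apply Nat.lt_pow_two_of_testBit
  intro i hi
  by_cases hw : i < w
  · have h1 : (2 ^ w - 2 ^ a).testBit i = true := by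
      obtain ⟨c, rfl⟩ := Nat.exists_eq_add_of_le ha
      rw [pow_add, show 2 ^ a * 2 ^ c - 2 ^ a = 2 ^ a * (2 ^ c - 1) by rw [Nat.mul_sub_one],
        Nat.testBit_two_pow_mul, Nat.testBit_two_pow_sub_one]
      simp; omega
    have h2 := congrArg (fun y => y.testBit i) h
    simpa [Nat.testBit_land, h1] using h2
  · exact Nat.testBit_lt_two_pow (hx.trans_le (Nat.pow_le_pow_right (by norm_num) (by omega)))

theorem digit_bound {w m n E : ℕ} {f : ℕ → ℤ} (hw : m + 1 ≤ w)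
    (h : (E : ℤ) ≡ val w f n [ZMOD 2 ^ (w * n)]) (hb : ∀ i < n, |f i| + 2 ^ m < 2 ^ w)
    (hc : (E + offs w m (w * n)) &&& his w m (w * n) = 0) : ∀ i < n, |f i| ≤ 2 ^ m := by
  have hw0 : 0 < w := by omega
  have hlt : ∀ i < n, dig w (E + offs w m (w * n)) i < 2 ^ (m + 1) := by
    intro i hi
    apply lt_of_land_eq_zero (dig_lt _ _ _) hw
    have h1 : dig w (his w m (w * n)) i = 2 ^ w - 2 ^ (m + 1) := by
      have : his w m (w * n) = (2 ^ w - 2 ^ (m + 1)) * ones w n := Nat.mul_comm _ _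
      rw [this]
      exact dig_mul_ones hw0 (Nat.sub_lt (by positivity) (by positivity)) n i hi
    rw [← h1, ← dig_land, hc, dig_zero]
  have h2 : ((E + offs w m (w * n) : ℕ) : ℤ) ≡ val w (fun i => f i + 2 ^ m * 1) n
      [ZMOD 2 ^ (w * n)] := by
    rw [val_add, val_mul, ← ones_eq hw0]
    have : offs w m (w * n) = ones w n * 2 ^ m := Nat.shiftLeft_eq _ _
    rw [this]
    push_cast
    rw [mul_comm (ones w n : ℤ)]
    exact h.add_right _
  have h4 : ∀ i < n, (0 : ℤ) ≤ dig w (E + offs w m (w * n)) i ∧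
      (dig w (E + offs w m (w * n)) i : ℤ) < 2 * 2 ^ m := fun i hi =>
    ⟨by positivity, by have := hlt i hi; rw [pow_succ'] at this; exact_mod_cast this⟩
  have h3 := eq_dig h2 (fun i hi => by
    have := hb i hi
    obtain ⟨h5, h6⟩ := h4 i hi
    rw [abs_lt]
    constructor <;> linarith [abs_nonneg (f i), le_abs_self (f i), neg_abs_le (f i)])
  intro i hi
  have h5 := h3 i hi
  obtain ⟨h6, h7⟩ := h4 i hi
  rw [abs_le]
  constructor <;> linarith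

/-- the tables `Ts` are correct -/
def RunOK (bs : List Box) (Ts : List Lev) (d w σ B m mB : ℕ) : Prop := ∀ j ≤ B,
  (∀ n6 n5 n4, ((nth (rowAt (nth Ts [] j) n6 n5) 0 n4 : ℕ) : ℤ) ≡
    cf (phi (2 ^ w) (2 ^ (w * σ)) (cc j d)) n6 n5 n4
      [ZMOD 2 ^ Nb (w * σ) (5 * (B - j)) (rows bs d j n6 n5 n4)]) ∧
  ∀ ν : Fin 6 →₀ ℕ, ν 2 < rows bs d j (ν 5) (ν 4) (ν 3) →
    |coeff ν (cc j d)| ≤ 2 ^ (if j = B then mB else m)

theorem cf_newton (x y : ℤ) (j d n6 n5 n4 : ℕ) :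
    (j : ℤ) * cf (phi x y (cc j d)) n6 n5 n4 =
      ∑ k ∈ Finset.range j, ∑ m ∈ Finset.range (d + 1),
        As (cf (phi x y (cc (j - 1 - k) d))) (k + 1) n6 n5 m n4 *
          Hs (x ^ (k + 1)) (y ^ (k + 1)) (d - m) := by
  rw [← cf_C_mul]
  have : C (j : ℤ) * phi x y (cc j d) = phi x y ((j : MvPolynomial (Fin 6) ℤ) * cc j d) := by
    rw [map_mul, map_natCast, map_natCast]
  rw [this, cc_newton, map_sum, cf_sum]
  refine Finset.sum_congr rfl fun k _ => ?_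
  rw [map_mul, cf_phi_pk]

theorem chkRow_spec {bs : List Box} {Ts : List Lev} {d w ws B m NM K4 j n6 n5 : ℕ}
    (h : chkRow bs Ts d w ws B m NM K4 j n6 n5 = true) (h65 : n6 < n5) :
    trChk (nth Ts [] j) n6 n5 (mkNs bs d ws (5 * (B - j) + 5) j n6 n5 K4 0)
      (rowAt (nth Ts [] j) n6 n5) 0 = true ∧
    negChk (mkNs bs d ws (5 * (B - j) + 5) j n5 n6 K4 0) (rowAt (nth Ts [] j) n5 n6)
      (rowAt (nth Ts [] j) n6 n5) = true ∧
    (if j = 0 then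
      finalChk w m 1 (5 * (B - j) + 5)
        (dropL (n5 + 1) (mkNs bs d ws (5 * (B - j) + 5) j n6 n5 K4 0))
        (dropL (n5 + 1) (rowAt (nth Ts [] j) n6 n5))
        (acc0 (2 ^ w : ℕ) (2 ^ ws : ℕ) n6 (n5 - 1)
          (dropL (n5 + 1) (mkNs bs d ws (5 * (B - j) + 5) j n6 n5 K4 0)) (n5 - 1))
    else
      finalChk w m j (5 * (B - j) + 5)
        (dropL (n5 + 1) (mkNs bs d ws (5 * (B - j) + 5) j n6 n5 K4 0))
        (dropL (n5 + 1) (rowAt (nth Ts [] j) n6 n5))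
        (accK Ts d w ws NM j n6 n5 (n5 + 1)
          (n6 + n5 + lenL (mkNs bs d ws (5 * (B - j) + 5) j n6 n5 K4 0))
          (mkNs bs d ws (5 * (B - j) + 5) j n6 n5 K4 0)
          (dropL (n5 + 1) (mkNs bs d ws (5 * (B - j) + 5) j n6 n5 K4 0)) j)) = true := by
  unfold chkRow at h
  rw [brec_eq, if_pos (by rw [Nat.blt_eq]; exact h65), force_eq, force_eq] at h
  beta_reduce at h
  rw [brec_eq] at h
  split_ifs at h with h1
  refine ⟨h1, ?_⟩
  rw [brec_eq] at h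
  split_ifs at h with h2
  refine ⟨h2, ?_⟩
  rw [brec_beq] at h
  exact h

theorem coeff_eq_dg {P : MvPolynomial (Fin 6) ℤ} {D σ : ℕ} (hP : P.IsHomogeneous D)
    (hσ : degreeOf 1 P < σ) (ν : Fin 6 →₀ ℕ) (h : coeff ν P ≠ 0) :
    ν 1 < σ ∧ coeff ν P = dg P D σ (ν 5) (ν 4) (ν 3) (ν 1 + σ * ν 2) := by
  have h1 : ν 1 < σ := (monomial_le_degreeOf 1 (mem_support_iff.2 h)).trans_lt hσ
  have hD : ν 0 + ν 1 + ν 2 + ν 3 + ν 4 + ν 5 = D := by
    have := hP h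
    rw [Finsupp.weight_apply, Finsupp.sum_fintype _ _ (by simp)] at this
    simpa [Fin.sum_univ_six] using this
  refine ⟨h1, ?_⟩
  have e1 : (ν 1 + σ * ν 2) % σ = ν 1 := by
    rw [Nat.add_mul_mod_self_left, Nat.mod_eq_of_lt h1]
  have e2 : (ν 1 + σ * ν 2) / σ = ν 2 := by
    rw [Nat.add_mul_div_left _ _ (by omega), Nat.div_eq_of_lt h1, zero_add]
  rw [dg, e1, e2]
  congr 1
  ext i
  fin_cases i <;> simp
  omega

theorem coeff_swap' {P : MvPolynomial (Fin 6) ℤ} {i j : Fin 6}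
    (h : rename (Equiv.swap i j) P = -P) (ν : Fin 6 →₀ ℕ) :
    |coeff ν P| = |coeff (ex fun k => ν (Equiv.swap i j k)) P| := by
  rw [← abs_neg (coeff (ex _) P), ← coeff_swap h]
  congr 2
  ext k; rfl

theorem coeff_swap_zero {P : MvPolynomial (Fin 6) ℤ} {i j : Fin 6}
    (h : rename (Equiv.swap i j) P = -P) (ν : Fin 6 →₀ ℕ) (hν : ν i = ν j) : coeff ν P = 0 := by
  have h1 := coeff_swap h ν
  have h2 : (ex fun k => ν (Equiv.swap i j k)) = ex ν := by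
    ext k
    simp only [ex_apply]
    rw [Equiv.swap_apply_def]
    split_ifs with a b
    · rw [a, hν]
    · rw [b, hν]
    · rfl
  have h3 : ex ν = ν := by ext k; rfl
  rw [h2, h3] at h1
  omega

theorem run_level {bs : List Box} {Ts : List Lev} {d w σ B m0 m NM K6 K5 K4 j : ℕ}
    (hB : B < 64) (hσ : B * d + 6 ≤ σ) (hm : 2 ^ 15 ≤ (d + 5).choose 5 * 2 ^ m0) (hmw : m + 1 ≤ w)
    (hw : (d + 5).choose 5 * 2 ^ m0 + 2 ^ m < 2 ^ w)
    (hNM : w * σ * rows bs d 0 0 0 0 + 5 * B + 5 ≤ NM)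
    (h6 : rows bs d 0 K6 0 0 = 0) (h5 : rows bs d 0 0 K5 0 = 0) (h4 : rows bs d 0 0 0 K4 = 0)
    (hj : j ≤ B)
    (hrow : ∀ n6 < K6, ∀ n5 < K5, chkRow bs Ts d w (w * σ) B m NM K4 j n6 n5 = true)
    (ih : ∀ j' < j,
      (∀ n6 n5 n4, ((nth (rowAt (nth Ts [] j') n6 n5) 0 n4 : ℕ) : ℤ) ≡
        cf (phi (2 ^ w) (2 ^ (w * σ)) (cc j' d)) n6 n5 n4
          [ZMOD 2 ^ Nb (w * σ) (5 * (B - j')) (rows bs d j' n6 n5 n4)]) ∧
      ∀ ν : Fin 6 →₀ ℕ, ν 2 < rows bs d j' (ν 5) (ν 4) (ν 3) → |coeff ν (cc j' d)| ≤ 2 ^ m0) :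
    (∀ n6 n5 n4, ((nth (rowAt (nth Ts [] j) n6 n5) 0 n4 : ℕ) : ℤ) ≡
        cf (phi (2 ^ w) (2 ^ (w * σ)) (cc j d)) n6 n5 n4
          [ZMOD 2 ^ Nb (w * σ) (5 * (B - j)) (rows bs d j n6 n5 n4)]) ∧
      ∀ ν : Fin 6 →₀ ℕ, ν 2 < rows bs d j (ν 5) (ν 4) (ν 3) → |coeff ν (cc j d)| ≤ 2 ^ m := by
  have hdeg : degreeOf 1 (cc j d) < σ := by
    have h1 := degreeOf_cc j d
    have h2 := Nat.mul_le_mul_right d hj
    omega
  have hwZ : (((d + 5).choose 5 : ℕ) : ℤ) * 2 ^ m0 + 2 ^ m < 2 ^ w := by exact_mod_cast hw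
  -- a priori bound
  have apri : ∀ ν : Fin 6 →₀ ℕ, ν 2 < rows bs d j (ν 5) (ν 4) (ν 3) →
      |coeff ν (cc j d)| ≤ ((d + 5).choose 5 : ℕ) * 2 ^ m0 := by
    intro ν hν
    rcases Nat.eq_zero_or_pos j with rfl | hj0
    · exact (abs_coeff_cc_zero d ν).trans (by exact_mod_cast hm)
    · have h1 : (j : ℤ) * coeff ν (cc j d) =
          ∑ k ∈ Finset.range j, coeff ν (pk 6 (k + 1) d * cc (j - 1 - k) d) := by
        rw [← coeff_sum, ← cc_newton, ← map_natCast (C : ℤ →+* MvPolynomial (Fin 6) ℤ), coeff_C_mul]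
      have h2 : |(j : ℤ) * coeff ν (cc j d)| ≤ j * (((d + 5).choose 5 : ℕ) * 2 ^ m0) := by
        rw [h1]
        refine (Finset.abs_sum_le_sum_abs _ _).trans ?_
        refine (Finset.sum_le_card_nsmul _ _ ((((d + 5).choose 5 : ℕ) : ℤ) * 2 ^ m0)
          fun k hk => ?_).trans (by simp)
        have hk' : k < j := Finset.mem_range.1 hk
        refine abs_coeff_pk_mul_le _ _ _ _ _ fun ν' hν' => (ih _ (by omega)).2 ν' ?_
        exact (hν' 2).trans_lt (hν.trans_le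
          (rows_mono bs d (by omega) (hν' 5) (hν' 4) (hν' 3)))
      rw [abs_mul, Nat.abs_cast] at h2
      exact le_of_mul_le_mul_left h2 (by exact_mod_cast hj0)
  -- the rows
  have hNs : ∀ n6 n5 i, nth (mkNs bs d (w * σ) (5 * (B - j) + 5) j n6 n5 K4 0) 0 i =
      Nb (w * σ) (5 * (B - j) + 5) (rows bs d j n6 n5 i) := by
    intro n6 n5 i
    rw [nth_mkNs, zero_add]
    have := rows_mono bs d (Nat.zero_le j) (Nat.zero_le n6) (Nat.zero_le n5)
      (show K4 ≤ 0 + K4 by omega)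
    omega
  have h34 := rename_swap_cc j d (show (3 : Fin 6) ≠ 4 by decide)
  have h45 := rename_swap_cc j d (show (4 : Fin 6) ≠ 5 by decide)
  have hK : ∀ n6 n5 n4, rows bs d j n6 n5 n4 ≠ 0 → n6 < K6 ∧ n5 < K5 := by
    intro n6 n5 n4 h
    constructor
    · by_contra hn
      have := rows_mono bs d (Nat.zero_le j) (not_lt.1 hn) (Nat.zero_le n5) (Nat.zero_le n4)
      omega
    · by_contra hn
      have := rows_mono bs d (Nat.zero_le j) (Nat.zero_le n6) (not_lt.1 hn) (Nat.zero_le n4)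
      omega
  have hNb0 : ∀ {R : ℕ}, R ≠ 0 → Nb (w * σ) (5 * (B - j) + 5) R ≠ 0 := fun h => by
    rw [Nb, if_neg h]; omega
  -- dominant keys
  have dom : ∀ n6 n5 i, n6 < n5 → rows bs d j n6 n5 (n5 + 1 + i) ≠ 0 →
      (((nth (rowAt (nth Ts [] j) n6 n5) 0 (n5 + 1 + i) : ℕ) : ℤ) ≡
        cf (phi (2 ^ w) (2 ^ (w * σ)) (cc j d)) n6 n5 (n5 + 1 + i)
          [ZMOD 2 ^ Nb (w * σ) (5 * (B - j)) (rows bs d j n6 n5 (n5 + 1 + i))]) ∧
      ∀ s < σ * rows bs d j n6 n5 (n5 + 1 + i),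
        |dg (cc j d) (15 + j * d) σ n6 n5 (n5 + 1 + i) s| ≤ 2 ^ m := by
    intro n6 n5 i h65 hR
    obtain ⟨hn6, hn5⟩ := hK _ _ _ hR
    have hc := (chkRow_spec (hrow n6 hn6 n5 hn5) h65).2.2
    set Ns := mkNs bs d (w * σ) (5 * (B - j) + 5) j n6 n5 K4 0 with hNsdef
    have hne : nth (dropL (n5 + 1) Ns) 0 i ≠ 0 := by rw [nth_dropL, hNs]; exact hNb0 hR
    have hN : nth Ns 0 (n5 + 1 + i) =
        w * σ * rows bs d j n6 n5 (n5 + 1 + i) + 5 * (B - j) + 5 := by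
      rw [hNs, Nb, if_neg hR, add_assoc _ (5 * (B - j)) 5]
    have key : (((nth (rowAt (nth Ts [] j) n6 n5) 0 (n5 + 1 + i) : ℕ) : ℤ) ≡
        cf (phi (2 ^ w) (2 ^ (w * σ)) (cc j d)) n6 n5 (n5 + 1 + i)
          [ZMOD 2 ^ (w * σ * rows bs d j n6 n5 (n5 + 1 + i) + 5 * (B - j))]) ∧
        (nth (rowAt (nth Ts [] j) n6 n5) 0 (n5 + 1 + i) +
          offs w m (w * σ * rows bs d j n6 n5 (n5 + 1 + i))) &&&
          his w m (w * σ * rows bs d j n6 n5 (n5 + 1 + i)) = 0 := by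
      split_ifs at hc with hj0
      · obtain ⟨c1, c2⟩ := finalChk_spec _ _ _ _ _ _ _ hc i hne
        have c3 := nth_acc0 ((2 ^ w : ℕ) : ℤ) ((2 ^ (w * σ) : ℕ) : ℤ) n6 (n5 - 1) (dropL (n5 + 1) Ns) (n5 - 1) i
        rw [nth_dropL, nth_dropL, hN] at c1 c2
        rw [nth_dropL, hN] at c3
        refine ⟨?_, by rwa [add_assoc _ (5 * (B - j)) 5, Nat.add_sub_cancel] at c2⟩
        have c4 := c1.trans c3
        rw [Nat.cast_one, one_mul] at c4
        refine modEq_pow_mono (Nat.le_add_right _ 5) (c4.trans ?_)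
        subst hj0
        obtain ⟨l5, rfl⟩ : ∃ l5, n5 = l5 + 1 := ⟨n5 - 1, by omega⟩
        rw [show l5 + 1 + 1 + i = l5 + i + 2 by omega, cf_phi_cc_zero]
        push_cast
        rfl
      · obtain ⟨c1, c2⟩ := finalChk_spec _ _ _ _ _ _ _ hc i hne
        have c3 := nth_accK (Ts := Ts) (F := fun j' => cf (phi (2 ^ w) (2 ^ (w * σ)) (cc j' d)))
          (d := d) (w := w) (ws := w * σ) (NM := NM) (j := j) (n6 := n6) (n5 := n5) (p5 := n5 + 1)
          (L := n6 + n5 + lenL Ns) (Ns := Ns)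
          (fun a b hab => by
            rw [hNs, hNs]
            exact Nb_mono _ le_rfl (rows_mono bs d le_rfl le_rfl le_rfl hab))
          (fun a => by
            rw [hNs]
            refine (Nb_mono (e' := 5 * B + 5) _ (by omega) (rows_mono bs d (Nat.zero_le _)
              (Nat.zero_le _) (Nat.zero_le _) (Nat.zero_le _))).trans ?_
            unfold Nb
            split_ifs <;> omega)
          (fun j' hj' a p6 hp6 p5 hp5 => by
            rw [hNs]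
            exact modEq_pow_mono (Nb_mono _ (by omega) (rows_mono bs d hj'.le hp6 hp5 le_rfl))
              ((ih j' hj').1 p6 p5 a))
          (i := i) (by
            have := lt_lenL Ns (n5 + 1 + i) (by rwa [nth_dropL] at hne)
            omega) j le_rfl
        rw [nth_dropL, nth_dropL, hN] at c1 c2
        rw [hN, ← cf_newton] at c3
        exact ⟨modEq_cancel (by omega) (by omega) (c1.trans c3),
          by rwa [add_assoc _ (5 * (B - j)) 5, Nat.add_sub_cancel] at c2⟩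
    refine ⟨by rw [Nb, if_neg hR]; exact key.1, ?_⟩
    have k2 := key.2
    rw [mul_assoc] at k2
    refine digit_bound hmw ?_ (fun s hs => ?_) k2
    · refine (modEq_pow_mono ?_ key.1).trans (cf_phi_modEq (cc_isHomogeneous j d) hdeg _ _ _ _ _)
      rw [mul_assoc]; omega
    · refine lt_of_le_of_lt ?_ hwZ
      refine add_le_add (apri _ ?_) le_rfl
      simp only [ex_apply]
      simpa using (Nat.div_lt_iff_lt_mul (by omega)).2 (by rwa [mul_comm] at hs)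
  have dom1 : ∀ n6 n5 n4, n6 < n5 → n5 < n4 →
      (((nth (rowAt (nth Ts [] j) n6 n5) 0 n4 : ℕ) : ℤ) ≡
        cf (phi (2 ^ w) (2 ^ (w * σ)) (cc j d)) n6 n5 n4
          [ZMOD 2 ^ Nb (w * σ) (5 * (B - j)) (rows bs d j n6 n5 n4)]) := by
    intro n6 n5 n4 h65 h54
    obtain ⟨i, rfl⟩ := Nat.exists_eq_add_of_le (show n5 + 1 ≤ n4 from h54)
    by_cases hR : rows bs d j n6 n5 (n5 + 1 + i) = 0
    · rw [hR]; exact Int.modEq_one
    · exact (dom n6 n5 i h65 hR).1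
  have diag : ∀ n6 n4,
      (((nth (rowAt (nth Ts [] j) n6 n6) 0 n4 : ℕ) : ℤ) ≡
        cf (phi (2 ^ w) (2 ^ (w * σ)) (cc j d)) n6 n6 n4
          [ZMOD 2 ^ Nb (w * σ) (5 * (B - j)) (rows bs d j n6 n6 n4)]) := by
    intro n6 n4
    have := cf_phi_swap45 (2 ^ w) (2 ^ (w * σ)) h45 n6 n6 n4
    rw [rowAt_self, show cf (phi (2 ^ w) (2 ^ (w * σ)) (cc j d)) n6 n6 n4 = 0 by omega]
    rfl
  have sw : ∀ n6 n5 n4, n5 < n6 →
      (((nth (rowAt (nth Ts [] j) n5 n6) 0 n4 : ℕ) : ℤ) ≡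
        cf (phi (2 ^ w) (2 ^ (w * σ)) (cc j d)) n5 n6 n4
          [ZMOD 2 ^ Nb (w * σ) (5 * (B - j)) (rows bs d j n5 n6 n4)]) →
      (((nth (rowAt (nth Ts [] j) n6 n5) 0 n4 : ℕ) : ℤ) ≡
        cf (phi (2 ^ w) (2 ^ (w * σ)) (cc j d)) n6 n5 n4
          [ZMOD 2 ^ Nb (w * σ) (5 * (B - j)) (rows bs d j n6 n5 n4)]) := by
    intro n6 n5 n4 h56 h
    by_cases hR : rows bs d j n6 n5 n4 = 0
    · rw [hR]; exact Int.modEq_one
    have hle := rows_swap56 bs d j n4 h56.le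
    obtain ⟨hn6, hn5⟩ := hK n5 n6 n4 (by omega)
    have hc := negChk_spec _ _ _ (chkRow_spec (hrow n5 hn6 n6 hn5) h56).2.1 n4
    rw [hNs] at hc
    rw [cf_phi_swap45 _ _ h45]
    exact (modEq_pow_mono (Nb_mono _ (by omega) le_rfl) hc).trans
      (modEq_pow_mono (Nb_mono _ le_rfl hle) h).neg
  have dom2 : ∀ n6 n5 n4, n6 < n5 →
      (((nth (rowAt (nth Ts [] j) n6 n5) 0 n4 : ℕ) : ℤ) ≡
        cf (phi (2 ^ w) (2 ^ (w * σ)) (cc j d)) n6 n5 n4
          [ZMOD 2 ^ Nb (w * σ) (5 * (B - j)) (rows bs d j n6 n5 n4)]) := by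
    intro n6 n5 n4 h65
    rcases lt_or_ge n5 n4 with h54 | h54
    · exact dom1 _ _ _ h65 h54
    by_cases hR : rows bs d j n6 n5 n4 = 0
    · rw [hR]; exact Int.modEq_one
    obtain ⟨hn6, hn5⟩ := hK _ _ _ hR
    have hc := trChk_spec _ _ _ _ _ _ (chkRow_spec (hrow n6 hn6 n5 hn5) h65).1 (Nat.zero_le _) n4
      (by rw [hNs]; exact hNb0 hR)
    rw [zero_add, hNs] at hc
    rcases h54.eq_or_lt with rfl | h54'
    · have := cf_phi_swap34 (2 ^ w) (2 ^ (w * σ)) h34 n6 n4 n4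
      rw [hc.2 rfl, show cf (phi (2 ^ w) (2 ^ (w * σ)) (cc j d)) n6 n4 n4 = 0 by omega]
      rfl
    rw [cf_phi_swap34 _ _ h34]
    refine (modEq_pow_mono (Nb_mono _ (by omega) le_rfl) (hc.1 h54')).trans (Int.ModEq.neg ?_)
    refine modEq_pow_mono (Nb_mono _ le_rfl (rows_swap45 bs d j n6 h54)) ?_
    rcases lt_trichotomy n6 n4 with h64 | rfl | h64
    · exact dom1 _ _ _ h64 h54'
    · exact diag _ _
    · exact sw _ _ _ h64 (dom1 _ _ _ h64 h65)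
  have hm0 : (0 : ℤ) ≤ 2 ^ m := by positivity
  have b1 : ∀ ν : Fin 6 →₀ ℕ, ν 5 ≤ ν 4 → ν 4 ≤ ν 3 → ν 2 < rows bs d j (ν 5) (ν 4) (ν 3) →
      |coeff ν (cc j d)| ≤ 2 ^ m := by
    intro ν h65 h54 hν
    by_cases h0 : coeff ν (cc j d) = 0
    · rw [h0]; simp
    have h65' : ν 5 < ν 4 := lt_of_le_of_ne h65 fun e => h0 (coeff_swap_zero h45 ν e.symm)
    have h54' : ν 4 < ν 3 := lt_of_le_of_ne h54 fun e => h0 (coeff_swap_zero h34 ν e.symm)
    obtain ⟨c1, c2⟩ := coeff_eq_dg (cc_isHomogeneous j d) hdeg ν h0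
    obtain ⟨i, hi⟩ := Nat.exists_eq_add_of_le (show ν 4 + 1 ≤ ν 3 from h54')
    rw [c2]
    rw [hi] at hν ⊢
    refine (dom _ _ i h65' (by omega)).2 _ ?_
    have := Nat.mul_le_mul_left σ (show ν 2 + 1 ≤ _ from hν)
    rw [mul_add] at this
    omega
  have s45 : ∀ ν : Fin 6 →₀ ℕ, ν 4 ≤ ν 5 → ν 2 < rows bs d j (ν 5) (ν 4) (ν 3) →
      ∃ ν' : Fin 6 →₀ ℕ, |coeff ν (cc j d)| = |coeff ν' (cc j d)| ∧ ν' 3 = ν 3 ∧ ν' 4 = ν 5 ∧
        ν' 5 = ν 4 ∧ ν' 2 < rows bs d j (ν' 5) (ν' 4) (ν' 3) := fun ν h hν =>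
    ⟨_, coeff_swap' h45 ν, rfl, rfl, rfl, hν.trans_le (rows_swap56 bs d j _ h)⟩
  have s34 : ∀ ν : Fin 6 →₀ ℕ, ν 3 ≤ ν 4 → ν 2 < rows bs d j (ν 5) (ν 4) (ν 3) →
      ∃ ν' : Fin 6 →₀ ℕ, |coeff ν (cc j d)| = |coeff ν' (cc j d)| ∧ ν' 3 = ν 4 ∧ ν' 4 = ν 3 ∧
        ν' 5 = ν 5 ∧ ν' 2 < rows bs d j (ν' 5) (ν' 4) (ν' 3) := fun ν h hν =>
    ⟨_, coeff_swap' h34 ν, rfl, rfl, rfl, hν.trans_le (rows_swap45 bs d j _ h)⟩
  have b2 : ∀ ν : Fin 6 →₀ ℕ, ν 5 ≤ ν 4 → ν 2 < rows bs d j (ν 5) (ν 4) (ν 3) →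
      |coeff ν (cc j d)| ≤ 2 ^ m := by
    intro ν h65 hν
    rcases le_total (ν 4) (ν 3) with h54 | h54
    · exact b1 ν h65 h54 hν
    obtain ⟨ν', e, e3, e4, e5, h'⟩ := s34 ν h54 hν
    rw [e]
    rcases le_total (ν' 5) (ν' 4) with h64 | h64
    · exact b1 ν' h64 (by omega) h'
    obtain ⟨ν'', f, f3, f4, f5, h''⟩ := s45 ν' h64 h'
    rw [f]
    exact b1 ν'' (by omega) (by omega) h''
  refine ⟨fun n6 n5 n4 => ?_, fun ν hν => ?_⟩
  · rcases lt_trichotomy n6 n5 with h | rfl | h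
    · exact dom2 _ _ _ h
    · exact diag _ _
    · exact sw _ _ _ h (dom2 _ _ _ h)
  · rcases le_total (ν 5) (ν 4) with h | h
    · exact b2 ν h hν
    · obtain ⟨ν', e, e3, e4, e5, h'⟩ := s45 ν h hν
      rw [e]
      exact b2 ν' (by omega) h'

/-- the conditions on the parameters of a run -/
noncomputable def parChk (bs : List Box) (d w σ ws B m mB NM K6 K5 K4 cnt : ℕ) : Bool :=
  Nat.blt B 64 && Nat.ble (B * d + 6) σ &&
    Nat.ble (2 ^ 15) ((d + 5).descFactorial 5 / 120 * 2 ^ m) &&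
    Nat.ble (m + 2) w && Nat.ble (mB + 2) w &&
    Nat.blt ((d + 5).descFactorial 5 / 120 * 2 ^ m + (2 ^ m + 2 ^ mB)) (2 ^ w) &&
    Nat.beq ws (w * σ) &&
    Nat.ble (w * σ * rows bs d 0 0 0 0 + 5 * B + 5) NM && Nat.beq (rows bs d 0 K6 0 0) 0 &&
    Nat.beq (rows bs d 0 0 K5 0) 0 && Nat.beq (rows bs d 0 0 0 K4) 0 &&
    Nat.ble ((B + 1) * (K6 * K5)) cnt

theorem run_sound {bs : List Box} {Ts : List Lev} {d w σ ws B m mB NM K6 K5 K4 cnt : ℕ}
    (hp : parChk bs d w σ ws B m mB NM K6 K5 K4 cnt = true)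
    (h : AllLt (chkIdx bs Ts d w ws B m mB NM K6 K5 K4) cnt) :
    RunOK bs Ts d w σ B m mB ∧ B * d + 6 ≤ σ ∧ m + 2 ≤ w ∧ mB + 2 ≤ w := by
  simp only [parChk, Bool.and_eq_true, Nat.blt_eq, Nat.ble_eq, Nat.beq_eq] at hp
  obtain ⟨⟨⟨⟨⟨⟨⟨⟨⟨⟨⟨p1, p2⟩, p3⟩, p4⟩, p4'⟩, p5⟩, rfl⟩, p7⟩, p8⟩, p9⟩, p10⟩, p11⟩ := hp
  refine ⟨fun j => ?_, p2, p4, p4'⟩
  induction j using Nat.strong_induction_on with
  | _ j ih =>
    intro hj
    refine run_level (m0 := m) p1 p2 ?_ (by split_ifs <;> omega) ?_ p7 p8 p9 p10 hj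
      (fun n6 h6 n5 h5 => ?_) fun j' hj' => by
        have := ih j' hj' (by omega)
        rwa [if_neg (by omega)] at this
    · rw [Nat.choose_eq_descFactorial_div_factorial]; exact p3
    · rw [Nat.choose_eq_descFactorial_div_factorial]
      refine lt_of_le_of_lt (Nat.add_le_add_left ?_ _) p5
      split_ifs
      · exact Nat.le_add_left _ _
      · exact Nat.le_add_right _ _
    · have h1 : n6 * K5 + n5 < K6 * K5 := by
        have := Nat.mul_le_mul_right K5 (show n6 + 1 ≤ K6 from h6)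
        rw [add_mul] at this; omega
      have h2 : j * (K6 * K5) + (n6 * K5 + n5) < cnt := by
        have := Nat.mul_le_mul_right (K6 * K5) (show j + 1 ≤ B + 1 by omega)
        rw [add_mul] at this; omega
      have h3 : chkRow bs Ts d w (w * σ) B
          (if (j * (K6 * K5) + (n6 * K5 + n5)) / (K6 * K5) = B then mB else m) NM K4
          ((j * (K6 * K5) + (n6 * K5 + n5)) / (K6 * K5))
          ((j * (K6 * K5) + (n6 * K5 + n5)) / K5 % K6)
          ((j * (K6 * K5) + (n6 * K5 + n5)) % K5) = true := by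
        rw [← brec_beq]; exact h _ h2
      have e1 : (j * (K6 * K5) + (n6 * K5 + n5)) / (K6 * K5) = j := by
        rw [add_comm, Nat.add_mul_div_right _ _ (by omega), Nat.div_eq_of_lt h1, zero_add]
      have e0 : j * (K6 * K5) + (n6 * K5 + n5) = n5 + (n6 + j * K6) * K5 := by ring
      have e2 : (j * (K6 * K5) + (n6 * K5 + n5)) / K5 % K6 = n6 := by
        rw [e0, Nat.add_mul_div_right _ _ (by omega), Nat.div_eq_of_lt h5, zero_add,
          Nat.add_mul_mod_self_right, Nat.mod_eq_of_lt h6]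
      have e3 : (j * (K6 * K5) + (n6 * K5 + n5)) % K5 = n5 := by
        rw [e0, Nat.add_mul_mod_self_right, Nat.mod_eq_of_lt h5]
      rwa [e1, e2, e3] at h3

/-! ## extraction -/

theorem dig_Zv {bs : List Box} {Ts : List Lev} {d w σ B m mB j : ℕ}
    (h : RunOK bs Ts d w σ B m mB)
    (hσ : B * d + 6 ≤ σ) (hw1 : m + 2 ≤ w) (hw2 : mB + 2 ≤ w) (hj : j ≤ B) (l6 l5 l4 : ℕ) {s : ℕ}
    (hs : s < σ * rows bs d j l6 (l5 + 1) (l4 + 2)) :
    (dig w (Zv (nth Ts [] j) w (w * (σ * rows bs d j l6 (l5 + 1) (l4 + 2))) l6 (l5 + 1) l4) s : ℤ) =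
      dg (cc j d) (15 + j * d) σ l6 (l5 + 1) (l4 + 2) s + 2 ^ (w - 1) := by
  set R := rows bs d j l6 (l5 + 1) (l4 + 2) with hR
  have hR0 : R ≠ 0 := by rintro h0; rw [h0] at hs; omega
  have hσ0 : 0 < σ := by omega
  have hw0 : 0 < w := by omega
  have hdeg : degreeOf 1 (cc j d) < σ := by
    have h1 := degreeOf_cc j d
    have h2 := Nat.mul_le_mul_right d hj
    omega
  have hw : (if j = B then mB else m) + 2 ≤ w := by split_ifs <;> omega
  have hb0 := (h j hj).2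
  generalize (if j = B then mB else m) = m' at hw hb0
  have h1 : (Zv (nth Ts [] j) w (w * (σ * R)) l6 (l5 + 1) l4 : ℤ) ≡
      val w (fun s => dg (cc j d) (15 + j * d) σ l6 (l5 + 1) (l4 + 2) s + 2 ^ (w - 1) * 1) (σ * R)
        [ZMOD 2 ^ (w * (σ * R))] := by
    rw [val_add, val_mul, ← ones_eq hw0]
    refine Int.ModEq.trans ?_
      ((cf_phi_modEq (cc_isHomogeneous j d) hdeg w l6 (l5 + 1) (l4 + 2) R).add_right _)
    have hz : Zv (nth Ts [] j) w (w * (σ * R)) l6 (l5 + 1) l4 =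
        nth (rowAt (nth Ts [] j) l6 (l5 + 1)) 0 (l4 + 2) + ones w (σ * R) * 2 ^ (w - 1) := by
      rw [← Nat.shiftLeft_eq]; rfl
    rw [hz]
    push_cast
    rw [mul_comm (ones w (σ * R) : ℤ)]
    refine Int.ModEq.add_right _ (modEq_pow_mono ?_ ((h j hj).1 _ _ _))
    rw [← hR, Nb, if_neg hR0, mul_assoc]
    omega
  have h2 := eq_dig' h1 (fun s hs => ?_) s hs
  · rw [← h2, mul_one]
  · have hb : |dg (cc j d) (15 + j * d) σ l6 (l5 + 1) (l4 + 2) s| ≤ 2 ^ m' := by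
      rw [dg]
      refine hb0 _ ?_
      exact (Nat.div_lt_iff_lt_mul hσ0).2 (by rwa [mul_comm] at hs)
    obtain ⟨c, rfl⟩ := Nat.exists_eq_add_of_le hw
    rw [show m' + 2 + c - 1 = m' + 1 + c by omega]
    have h3 : (2 : ℤ) ^ (m' + 1 + c) = 2 * 2 ^ m' * 2 ^ c := by ring
    have h4 : (2 : ℤ) ^ (m' + 2 + c) = 4 * 2 ^ m' * 2 ^ c := by ring
    have h5 : (1 : ℤ) ≤ 2 ^ c := one_le_pow₀ (by norm_num)
    have h6 : (0 : ℤ) < 2 ^ m' := by positivity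
    rw [h3, h4, abs_le] at *
    constructor <;> nlinarith [hb.1, hb.2]

end Crest.Agent.R187
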