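import Mathlib.Data.Int.Basic
import Mathlib.Data.Nat.Basic

/-! Kernel friendly programs checking the packed Newton tables. -/

set_option autoImplicit false

namespace Crest.Agent.R187

/-- `Bool.rec` as a conditional -/
scoped notation "IF " c " THEN " a " ELSE " b => Bool.rec (motive := fun _ => _) b a c

noncomputable section

/-- evaluate `x` to a literal before passing it on -/
def force {α : Type} (x : Nat) (f : Nat → α) : α :=
  Nat.rec (motive := fun _ => α) (f x) (fun p _ => f p) (Nat.add x 1)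

def nth {α : Type} (l : List α) (d : α) (n : Nat) : α :=
  List.rec (motive := fun _ => Nat → α) (fun _ => d)
    (fun a _ ih n => Nat.rec (motive := fun _ => α) a (fun n' _ => ih n') n) l n

def hd (l : List Nat) : Nat := List.rec (motive := fun _ => Nat) 0 (fun a _ _ => a) l

def tl (l : List Nat) : List Nat := List.rec (motive := fun _ => List Nat) [] (fun _ t _ => t) l

def dropL (n : Nat) (l : List Nat) : List Nat :=
  Nat.rec (motive := fun _ => List Nat → List Nat) (fun l => l)
    (fun _ ih l => List.rec (motive := fun _ => List Nat) [] (fun _ t _ => ih t) l) n l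

def lenL (l : List Nat) : Nat := List.rec (motive := fun _ => Nat) 0 (fun _ _ ih => Nat.add ih 1) l

def allFrom (f : Nat → Bool) (cnt lo : Nat) : Bool :=
  Nat.rec (motive := fun _ => Nat → Bool) (fun _ => true)
    (fun _ ih i => IF f i THEN force (Nat.add i 1) ih ELSE false) cnt lo

def mask (N : Nat) : Nat := Nat.sub (Nat.pow 2 N) 1

abbrev Box := Nat × Nat × Nat × Nat × Nat
abbrev Lev := List (List (List Nat))

def rows' (bs : List Box) (d j n6 m5 m4 : Nat) : Nat :=
  List.rec (motive := fun _ => Nat) 0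
    (fun x _ acc =>
      IF Nat.beq (Nat.add (Nat.add (Nat.add (Nat.add (Nat.sub j x.1) (Nat.sub m4 x.2.2.1))
          (Nat.sub m5 x.2.2.2.1)) (Nat.sub n6 x.2.2.2.2))
          (Nat.sub (Nat.add (Nat.add (Nat.mul 4 m4) m5) n6) (Nat.mul d x.1))) 0
      THEN Nat.add acc (Nat.sub (Nat.add (Nat.sub x.2.1 (Nat.sub x.2.1
        (Nat.div (Nat.sub (Nat.mul d x.1) (Nat.add (Nat.add m4 m5) n6)) 3))) 4) acc)
      ELSE acc) bs

def rows (bs : List Box) (d j n6 n5 n4 : Nat) : Nat :=
  force (Nat.add n6 (Nat.sub (Nat.sub n5 1) n6)) fun m5 =>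
    force (Nat.add m5 (Nat.sub (Nat.sub n4 2) m5)) fun m4 => rows' bs d j n6 m5 m4

/-- the list of moduli of a row; `ws = w σ`, `e5 = 5 (B - j) + 5` -/
def mkNs (bs : List Box) (d ws e5 j n6 n5 fuel n4 : Nat) : List Nat :=
  Nat.rec (motive := fun _ => Nat → List Nat) (fun _ => [])
    (fun _ ih n4 => force (rows bs d j n6 n5 n4) fun R =>
      IF Nat.beq R 0 THEN [] ELSE
        force (Nat.add (Nat.mul ws R) e5) fun N => N :: force (Nat.add n4 1) ih) fuel n4

def rowAt (T : Lev) (n6 n5 : Nat) : List Nat :=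
  IF Nat.beq n6 n5 THEN [] ELSE nth (nth T [] n6) [] n5

def zipAdd (x y : List Nat) : List Nat :=
  List.rec (motive := fun _ => List Nat → List Nat) (fun y => y)
    (fun a x' ih y => List.rec (motive := fun _ => List Nat) (a :: x')
      (fun b y' _ => Nat.add a b :: ih y') y) x y

def shiftAdd (k : Nat) (G A : List Nat) : List Nat :=
  Nat.rec (motive := fun _ => List Nat → List Nat) (fun G => zipAdd G A)
    (fun _ ih G => List.rec (motive := fun _ => List Nat) (0 :: ih [])
      (fun g G' _ => g :: ih G') G) k G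

def maskL (Ns X : List Nat) : List Nat :=
  List.rec (motive := fun _ => List Nat → List Nat) (fun _ => [])
    (fun N _ ih X => List.rec (motive := fun _ => List Nat) []
      (fun x X' _ => Nat.land x (mask N) :: ih X') X) Ns X

def Gl (T : Lev) (k n5 f p6 : Nat) : List Nat :=
  Nat.rec (motive := fun _ => Nat → List Nat) (fun _ => [])
    (fun f ih p6 => zipAdd
      (IF Nat.ble (Nat.mul k f) n5 THEN force (Nat.sub n5 (Nat.mul k f)) (rowAt T p6) ELSE [])
      (IF Nat.ble k p6 THEN force (Nat.sub p6 k) ih ELSE [])) f p6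

def gN (s i : Nat) : Nat :=
  Nat.rec (motive := fun _ => Nat) 1 (fun _ g => Nat.add 1 (Nat.shiftLeft g s)) i

def hN (s s' NM i : Nat) : Nat :=
  Nat.rec (motive := fun _ => Nat) 1
    (fun i' h => Nat.land (Nat.add (gN s (Nat.add i' 1)) (Nat.shiftLeft h s')) (mask NM)) i

def hm (s s' NM i N : Nat) : Nat := Nat.land (hN s s' NM i) (mask N)

def accStep (h : Nat → Nat) (Ns A acc : List Nat) : List Nat :=
  List.rec (motive := fun _ => List Nat → List Nat → List Nat) (fun _ _ => [])
    (fun N _ ih A acc => List.rec (motive := fun _ => List Nat) acc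
      (fun a A' _ => (IF Nat.beq a 0 THEN hd acc ELSE Nat.add (hd acc) (Nat.mul a (h N))) ::
        ih A' (tl acc)) A) Ns A acc

def loopM (T : Lev) (d k s s' NM n6 n5 p5 : Nat) (Ns Nd : List Nat) (fuel m : Nat)
    (A acc : List Nat) : List Nat :=
  Nat.rec (motive := fun _ => Nat → List Nat → List Nat → List Nat) (fun _ _ acc => acc)
    (fun _ ih m A acc => force (Nat.add m 1) fun m1 => force (Nat.sub d m) fun i =>
      (fun A' => ih m1 A' (accStep (hm s s' NM i) Nd (dropL p5 A') acc))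
        (maskL Ns (shiftAdd k (Gl T k n5 m1 n6) A))) fuel m A acc

def accK (Ts : List Lev) (d w ws NM j n6 n5 p5 L : Nat) (Ns Nd : List Nat) (c : Nat) : List Nat :=
  Nat.rec (motive := fun _ => List Nat) []
    (fun k' acc => force (Nat.add k' 1) fun k => force (Nat.mul k w) fun s =>
      force (Nat.mul k ws) fun s' => force (Nat.sub j k) fun j' =>
        loopM (nth Ts [] j') d k s s' NM n6 n5 p5 Ns Nd
          (Nat.add (Nat.sub d (Nat.sub d (Nat.div L k))) 1) 0 [] acc) c

/-- `(1 - z) (x - z) (y - z)` -/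
def qc (x y : Int) : Nat → Int
  | 0 => x * y
  | 1 => -(x + y + x * y)
  | 2 => 1 + x + y
  | 3 => -1
  | _ => 0

def f0 (x y : Int) (n6 n5 n4 : Nat) : Int :=
  (1 - x) * (1 - y) * (x - y) * (qc x y n4 * qc x y n5 * qc x y n6)

/-- entry of the Vandermonde product with key `(l6, l5 + 1, l4 + 2)` -/
def c0 (x y : Int) (l6 l5 l4 : Nat) : Int :=
  f0 x y l6 l5 l4 + (if 2 ≤ l6 then f0 x y (l6 - 2) (l5 + 1) (l4 + 1) else 0) +
    (if 1 ≤ l5 ∧ 1 ≤ l6 then f0 x y (l6 - 1) (l5 - 1) (l4 + 2) else 0) -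
    ((if 1 ≤ l5 then f0 x y l6 (l5 - 1) (l4 + 1) else 0) +
      (if 1 ≤ l6 then f0 x y (l6 - 1) (l5 + 1) l4 else 0) +
      (if 2 ≤ l6 then f0 x y (l6 - 2) l5 (l4 + 2) else 0))

def acc0 (x y : Int) (l6 l5 : Nat) (Ns : List Nat) (l4 : Nat) : List Nat :=
  List.rec (motive := fun _ => Nat → List Nat) (fun _ => [])
    (fun N _ ih l4 => Int.toNat (Int.emod (c0 x y l6 l5 l4)
        (Int.ofNat (Nat.pow 2 N))) :: force (Nat.add l4 1) ih) Ns l4

def onesN (w N : Nat) : Nat := Nat.div (mask N) (mask w)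

def offs (w m N : Nat) : Nat := Nat.shiftLeft (onesN w N) m

def his (w m N : Nat) : Nat :=
  Nat.mul (onesN w N) (Nat.sub (Nat.pow 2 w) (Nat.pow 2 (Nat.add m 1)))

def finalChk (w m c e5 : Nat) (Nd Es acc : List Nat) : Bool :=
  List.rec (motive := fun _ => List Nat → List Nat → Bool) (fun _ _ => true)
    (fun N _ ih Es acc =>
      IF Nat.beq (Nat.land (Nat.mul c (hd Es)) (mask N)) (Nat.land (hd acc) (mask N)) THEN
        (IF force (Nat.sub N e5) fun N0 =>
            Nat.beq (Nat.land (Nat.add (hd Es) (offs w m N0)) (his w m N0)) 0 THEN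
          ih (tl Es) (tl acc) ELSE false)
      ELSE false) Nd Es acc

def negOK (N a b : Nat) : Bool := Nat.beq (Nat.land (Nat.add a b) (mask N)) 0

def trChk (T : Lev) (n6 n5 : Nat) (Ns Es : List Nat) (n4 : Nat) : Bool :=
  List.rec (motive := fun _ => List Nat → Nat → Bool) (fun _ _ => true)
    (fun N _ ih Es n4 =>
      IF Nat.ble n5 n4 THEN Nat.beq (hd Es) 0 ELSE
        (IF negOK N (hd Es) (nth (rowAt T n6 n4) 0 n5) THEN force (Nat.add n4 1) (ih (tl Es))
          ELSE false)) Ns Es n4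

def negChk (Ns X Y : List Nat) : Bool :=
  List.rec (motive := fun _ => List Nat → List Nat → Bool) (fun _ _ => true)
    (fun N _ ih X Y => IF negOK N (hd X) (hd Y) THEN ih (tl X) (tl Y) ELSE false) Ns X Y

def chkRow (bs : List Box) (Ts : List Lev) (d w ws B m NM K4 j n6 n5 : Nat) : Bool :=
  IF Nat.blt n6 n5 THEN
    force (Nat.add (Nat.mul 5 (Nat.sub B j)) 5) fun e5 => force (Nat.add n5 1) fun p5 =>
      (fun Ns Es =>
        IF trChk (nth Ts [] j) n6 n5 Ns Es 0 THEN
          (IF negChk (mkNs bs d ws e5 j n5 n6 K4 0) (rowAt (nth Ts [] j) n5 n6) Es THEN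
            (IF Nat.beq j 0 THEN
              force (Nat.sub n5 1) fun l5 =>
                finalChk w m 1 e5 (dropL p5 Ns) (dropL p5 Es)
                  (acc0 (Int.ofNat (Nat.pow 2 w)) (Int.ofNat (Nat.pow 2 ws)) n6 l5 (dropL p5 Ns) l5)
            ELSE
              finalChk w m j e5 (dropL p5 Ns) (dropL p5 Es)
                (force (Nat.add (Nat.add n6 n5) (lenL Ns)) fun L =>
                  accK Ts d w ws NM j n6 n5 p5 L Ns (dropL p5 Ns) j))
          ELSE false)
        ELSE false) (mkNs bs d ws e5 j n6 n5 K4 0) (rowAt (nth Ts [] j) n6 n5)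
  ELSE true

def chkIdx (bs : List Box) (Ts : List Lev) (d w ws B m mB NM K6 K5 K4 i : Nat) : Bool :=
  force (Nat.div i (Nat.mul K6 K5)) fun j => force (Nat.mod (Nat.div i K5) K6) fun n6 =>
    force (Nat.mod i K5) fun n5 => force (IF Nat.beq j B THEN mB ELSE m) fun m' =>
      chkRow bs Ts d w ws B m' NM K4 j n6 n5

/-- packed multiplicities (plus `2 ^ (w - 1)`) for the key `(l6, l5, l4)`, with `n5 = l5 + 1` -/
def Zv (T : Lev) (w N l6 n5 l4 : Nat) : Nat :=
  force (Nat.add l4 2) fun n4 =>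
    Nat.add (nth (rowAt T l6 n5) 0 n4) (Nat.shiftLeft (onesN w N) (Nat.sub w 1))

end

end Crest.Agent.R187
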