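import Crest.Agent.R187.RunDef
import Mathlib.Tactic.Eval

/-! Generator of the packed Newton tables.  Nothing is proved about it: its output is checked by
the programs of `RunDef`. -/

set_option autoImplicit false

namespace Crest.Agent.R187.Gen

def rows (bs : List Box) (d j n6 n5 n4 : Nat) : Nat :=
  let m5 := max n6 (n5 - 1)
  let m4 := max m5 (n4 - 2)
  bs.foldr (fun x acc =>
    if j ≤ x.1 ∧ m4 ≤ x.2.2.1 ∧ m5 ≤ x.2.2.2.1 ∧ n6 ≤ x.2.2.2.2 ∧ 4 * m4 + m5 + n6 ≤ d * x.1 then
      max acc (min x.2.1 ((d * x.1 - (m4 + m5 + n6)) / 3) + 4) else acc) 0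

def divmod2 (j N x : Nat) : Nat := Id.run do
  let mut x := x
  let mut q := j
  let mut N := N
  while q % 2 == 0 do
    x := x / 2; q := q / 2; N := N - 1
  let p := 2 ^ N
  let r := x % q
  let pm := p % q
  let mut t := 0
  while (r + t * pm) % q != 0 do t := t + 1
  return (x + t * p) / q

abbrev ALev := Array (Array (Array Nat))

def rowAt (T : ALev) (n6 n5 : Nat) : Array Nat := (T.getD n6 #[]).getD n5 #[]

def qc (x y : Int) : Nat → Int
  | 0 => x * y
  | 1 => -(x + y + x * y)
  | 2 => 1 + x + y
  | 3 => -1
  | _ => 0

def f0 (x y : Int) (n6 n5 n4 : Nat) : Int :=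
  (1 - x) * (1 - y) * (x - y) * (qc x y n4 * qc x y n5 * qc x y n6)

def c0 (x y : Int) (l6 l5 l4 : Nat) : Int :=
  f0 x y l6 l5 l4 + (if 2 ≤ l6 then f0 x y (l6 - 2) (l5 + 1) (l4 + 1) else 0) +
    (if 1 ≤ l5 ∧ 1 ≤ l6 then f0 x y (l6 - 1) (l5 - 1) (l4 + 2) else 0) -
    ((if 1 ≤ l5 then f0 x y l6 (l5 - 1) (l4 + 1) else 0) +
      (if 1 ≤ l6 then f0 x y (l6 - 1) (l5 + 1) l4 else 0) +
      (if 2 ≤ l6 then f0 x y (l6 - 2) l5 (l4 + 2) else 0))

def mkH (d w ws NM B : Nat) : Array (Array Nat) := Id.run do
  let M := 2 ^ NM - 1
  let mut H : Array (Array Nat) := #[#[]]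
  for k in [1:B+1] do
    let mut g := 1
    let mut h := 1
    let mut r := #[1]
    for _ in [0:d] do
      g := 1 + (g <<< (k * w))
      h := (g + (h <<< (k * ws))) &&& M
      r := r.push h
    H := H.push r
  return H

/-- dominant part of a row (zeros elsewhere) -/
def genRow (bs : List Box) (d w ws B K4 : Nat) (H : Array (Array Nat)) (Ts : Array ALev)
    (j n6 n5 : Nat) : Array Nat := Id.run do
  let e5 := 5 * (B - j) + 5
  let mut Ns : Array Nat := #[]
  for n4 in [0:K4] do
    let R := rows bs d j n6 n5 n4
    if R != 0 then Ns := Ns.push (ws * R + e5)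
  let L := Ns.size
  if L ≤ n5 + 1 then return Array.replicate L 0
  let Ms := Ns.map fun N => 2 ^ N - 1
  if j == 0 then
    let x : Int := 2 ^ w
    let y : Int := 2 ^ ws
    let mut out := Array.replicate L 0
    for n4 in [n5+1:L] do
      out := out.set! n4 (c0 x y n6 (n5 - 1) (n4 - 2) % (2 ^ Ns[n4]! : Int)).toNat
    return out
  let mut acc := Array.replicate L 0
  for k in [1:j+1] do
    let T := Ts[j - k]!
    let mut A : Array Nat := Array.replicate L 0
    for m in [0:min d ((n6 + n5 + L) / k) + 1] do
      let mut G : Array Nat := Array.replicate L 0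
      for a in [0:m+1] do
        if k * a ≤ n6 ∧ k * (m - a) ≤ n5 then
          let r := rowAt T (n6 - k * a) (n5 - k * (m - a))
          for n4 in [0:min L r.size] do
            G := G.modify n4 (· + r[n4]!)
      for n4 in [0:L] do
        if k ≤ n4 then
          G := G.modify n4 fun g => (g + A[n4 - k]!) &&& Ms[n4]!
        else
          G := G.modify n4 fun g => g &&& Ms[n4]!
      A := G
      let h := H[k]![d - m]!
      for n4 in [n5+1:L] do
        let a := A[n4]!
        if a != 0 then
          acc := acc.modify n4 (· + a * (h &&& Ms[n4]!))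
  let mut out := Array.replicate L 0
  for n4 in [n5+1:L] do
    out := out.set! n4 (divmod2 j Ns[n4]! (acc[n4]! &&& Ms[n4]!))
  return out

def trim (a : Array Nat) : Array Nat := a.popWhile (· == 0)

/-- sorted key and parity -/
def srt (a b c : Nat) : Nat × Nat × Nat × Bool :=
  if a < b then
    if b < c then (a, b, c, false) else if a < c then (a, c, b, true) else (c, a, b, false)
  else
    if a < c then (b, a, c, true) else if b < c then (b, c, a, false) else (c, b, a, true)

/-- fill a table from its dominant part: `f` gives an entry and its negative -/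
def fill {α : Type} (z : α) (bs : List Box) (d K6 K5 K4 j : Nat) (f : Nat → Nat → Nat → Bool → α) :
    Array (Array (Array α)) := Id.run do
  let mut out := #[]
  for n6 in [0:K6] do
    let mut s := #[]
    for n5 in [0:K5] do
      let mut r := #[]
      if n6 != n5 then
        for n4 in [0:K4] do
          if rows bs d j n6 n5 n4 != 0 then
            if n4 == n5 ∨ n4 == n6 then r := r.push z else
              let (a, b, c, p) := srt n6 n5 n4
              r := r.push (f a b c p)
      s := s.push r
    out := out.push (s.popWhile (·.size == 0))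
  return out.popWhile (·.size == 0)

def genLev (bs : List Box) (d w ws B K6 K5 K4 : Nat) (H : Array (Array Nat)) (Ts : Array ALev)
    (j : Nat) : ALev := Id.run do
  let tasks := (Array.range K6).map fun n6 => (Array.range K5).map fun n5 =>
    if n6 < n5 ∧ rows bs d j n6 n5 (n5 + 1) != 0 then
      some (Task.spawn fun _ =>
        let r := genRow bs d w ws B K4 H Ts j n6 n5
        (r, r.mapIdx fun n4 x => if x == 0 then 0 else
          2 ^ (ws * rows bs d j n6 n5 n4 + 5 * (B - j) + 5) - x)) else none
  let D := tasks.map fun r => r.map fun t => match t with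
    | some t => t.get
    | none => (#[], #[])
  let out := fill 0 bs d K6 K5 K4 j fun a b c p => if p then D[a]![b]!.2[c]! else D[a]![b]!.1[c]!
  return out.map fun s => s.map trim

def genA (bs : List Box) (d w σ B K6 K5 K4 : Nat) : Array ALev := Id.run do
  let ws := w * σ
  let H := mkH d w ws (ws * rows bs d 0 0 0 0 + 5 * B + 5) B
  let mut Ts : Array ALev := #[]
  for j in [0:B+1] do
    Ts := Ts.push (genLev bs d w ws B K6 K5 K4 H Ts j)
  return Ts

/-- A closed term of type `Nat`, quoted as it stands. -/
def XE := Lean.Expr

instance : Lean.ToExpr XE where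
  toExpr e := e
  toTypeExpr := .const ``Nat []

def lit (n : Nat) : XE := Lean.mkRawNatLit n

instance : Inhabited XE := ⟨lit 0⟩

def op (f : Lean.Name) (a b : XE) : XE := Lean.mkApp2 (.const f []) a b

def shl (a : XE) (s : Nat) : XE := if s == 0 then a else op ``Nat.shiftLeft a (lit s)

def shr (a : XE) (s : Nat) : XE := if s == 0 then a else op ``Nat.shiftRight a (lit s)

/-- Balanced sum of signed rows `(negative?, size, position)`, with `s` bits per position. -/
partial def tree (s : Nat) (a : Array (Bool × XE × Nat)) (lo hi : Nat) : Bool × XE × Nat :=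
  if hi ≤ lo + 1 then a[lo]! else
    let mid := (lo + hi) / 2
    let (p0, e0, b0) := tree s a lo mid
    let (p1, e1, b1) := tree s a mid hi
    (p1, op (if p0 == p1 then ``Nat.add else ``Nat.sub) (shl e1 (s * (b1 - b0))) e0, b0)

/-- `n * 2 ^ 32 + s`, cut into short literals: the low bits `s` only serve to spread the hash
values of the literals. -/
def salted (n : Nat) : XE := Id.run do
  let mut x := n <<< 32 + n % 4294967291
  let k := (x.log2 + 1000) / 1600
  if k ≤ 1 then return lit x
  let s := x.log2 / k + 1
  let mut a := #[]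
  for i in [0:k] do
    let y := x % 2 ^ s
    x := x >>> s
    if y != 0 then a := a.push (false, lit y, i)
  let (_, e, b) := tree s a 0 a.size
  return shl e (s * b)

def slit (n : Nat) : XE := if n < 2 ^ 62 then lit n else shr (salted n) 32

/-- the signed rows of an entry -/
def rowsOf (w σ R e5 E : Nat) : Array (Bool × Nat × Nat) := Id.run do
  let ws := w * σ
  let M := 2 ^ ws - 1
  let o := (M / (2 ^ w - 1)) <<< (w - 1)
  let mut U := E + ((2 ^ (ws * R) - 1) / (2 ^ w - 1)) <<< (w - 1)
  let mut out := #[]
  for r in [0:R] do
    let x := U &&& M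
    U := U >>> ws
    if x < o then out := out.push (true, o - x, r)
    else if o < x then out := out.push (false, x - o, r)
  let t := U % 2 ^ e5
  if t != 0 then out := out.push (false, t, R)
  return out

structure HN where
  n : Nat
  deriving BEq

instance : Hashable HN := ⟨fun x => hash (x.n % 18446744073709551557)⟩

/-- number of slots, number of bits, first slot, digits (with offset) of a row -/
def shape (w : Nat) (O : Array Nat) (x : Nat) : Nat × Nat × Nat × Nat := Id.run do
  let mut lo := 0
  let mut x := x
  while x % 2 ^ w == 0 do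
    x := x >>> w; lo := lo + 1
  let mut len := x.log2 / w + 1
  if (x + (O[len]! <<< (w - 1))) >>> (w * len) != 0 then len := len + 1
  let mut m := 1
  while (x + (O[len]! <<< (m - 1))) &&& (O[len]! * (2 ^ w - 2 ^ m)) != 0 do m := m + 1
  return (len, m, lo, x + (O[len]! <<< (m - 1)))

/-- Several rows share the same literals: each uses some bits of every slot. -/
def pack (w σ : Nat) (xs : Array Nat) : Array (XE × Nat) := Id.run do
  let O := (Array.range (σ + 2)).map fun n => (2 ^ (w * n) - 1) / (2 ^ w - 1)
  let OX := (Array.range (σ + 2)).map fun n => op ``onesN (lit w) (lit (w * n))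
  let sh := xs.map fun x => if x < 2 ^ 62 then (0, 0, 0, 0) else shape w O x
  let ord := (Array.range xs.size).qsort fun a b => sh[a]!.1 > sh[b]!.1
  let mut W : Array Nat := #[0]
  let mut o := 0
  let mut pl := Array.replicate xs.size (0, 0)
  for i in ord do
    let (len, m, _, U) := sh[i]!
    if len == 0 then continue
    if o + m > w ∧ o + 4 > w then
      W := W.push 0; o := 0
    pl := pl.set! i (W.size - 1, o)
    if o + m ≤ w then
      W := W.modify (W.size - 1) (· + (U <<< o))
      o := o + m
    else
      let L := U &&& (O[len]! * (2 ^ (w - o) - 1))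
      W := W.modify (W.size - 1) (· + (L <<< o))
      W := W.push ((U - L) >>> (w - o))
      o := o + m - w
  let WX := W.map salted
  let ext := fun (k o len m : Nat) =>
    op ``Nat.land (shr WX[k]! (32 + o)) (op ``Nat.mul (lit (2 ^ m - 1)) OX[len]!)
  return xs.mapIdx fun i x =>
    let (len, m, lo, _) := sh[i]!
    if len == 0 then (lit x, 0) else
      let (k, o) := pl[i]!
      let U := if o + m ≤ w then ext k o len m else
        op ``Nat.add (ext k o len (w - o)) (shl (ext (k + 1) 0 len (o + m - w)) (w - o))
      (op ``Nat.sub U (shl OX[len]! (m - 1)), w * lo)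

abbrev XLev := List (List (List XE))

def quoteLev (bs : List Box) (d w σ B K6 K5 K4 j : Nat) (T : ALev) : XLev := Id.run do
  let e5 := 5 * (B - j) + 5
  let mut memo : Std.HashMap HN Nat := {}
  let mut xs : Array Nat := #[]
  let mut D : Array (Array (Array (Array (Bool × Nat × Nat)))) := #[]
  for n6 in [0:K6] do
    let mut s := #[]
    for n5 in [0:K5] do
      let mut r := #[]
      for n4 in [0:K4] do
        let R := rows bs d j n6 n5 n4
        let E := (rowAt T n6 n5).getD n4 0
        let mut a := #[]
        if n6 < n5 ∧ n5 < n4 ∧ R != 0 ∧ E != 0 then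
          for (p, x, b) in rowsOf w σ R e5 E do
            match memo[HN.mk x]? with
            | some e => a := a.push (p, e, b)
            | none =>
              memo := memo.insert ⟨x⟩ xs.size
              a := a.push (p, xs.size, b)
              xs := xs.push x
        r := r.push a
      s := s.push r
    D := D.push s
  let X := pack w σ xs
  let D' := D.mapIdx fun n6 s => s.mapIdx fun n5 r => r.mapIdx fun n4 a =>
    if a.size == 0 then (lit 0, lit 0) else
      let (p, e, b) := tree 1 (a.map fun (p, i, b) => (p, X[i]!.1, w * σ * b + X[i]!.2)) 0 a.size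
      let e := shl e b
      let e' := op ``Nat.sub (op ``Nat.pow (lit 2) (lit (w * σ * rows bs d j n6 n5 n4 + e5))) e
      if p then (e', e) else (e, e')
  let out := fill (lit 0) bs d K6 K5 K4 j fun a b c p =>
    if p then D'[a]![b]![c]!.2 else D'[a]![b]![c]!.1
  return (out.mapIdx fun n6 s => (s.mapIdx fun n5 r =>
    (r.extract 0 (rowAt T n6 n5).size).toList).toList).toList

def quote (bs : List Box) (d w σ B K6 K5 K4 : Nat) (Ts : Array ALev) : List XLev :=
  ((Ts.mapIdx fun j T => Task.spawn fun _ => quoteLev bs d w σ B K6 K5 K4 j T).map Task.get).toList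

def gen (bs : List Box) (d w σ B K6 K5 K4 : Nat) : List XLev :=
  quote bs d w σ B K6 K5 K4 (genA bs d w σ B K6 K5 K4)

/-- largest digit size (in bits) -/
def maxBits (bs : List Box) (d w σ B : Nat) (Ts : Array ALev) : List Nat := Id.run do
  let mut out := []
  for j in [0:B+1] do
    let mut best := 0
    let T := Ts[j]!
    for n6 in [0:T.size] do
      for n5 in [n6+1:T[n6]!.size] do
        for n4 in [n5+1:T[n6]![n5]!.size] do
          let N := w * σ * rows bs d j n6 n5 n4
          let U := (2 ^ N - 1) / (2 ^ w - 1)
          let E := T[n6]![n5]![n4]!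
          while best + 2 < w ∧ (E + (U <<< best)) &&& (U * (2 ^ w - 2 ^ (best + 1))) != 0 do
            best := best + 1
    out := best :: out
  return out.reverse

end Crest.Agent.R187.Gen
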