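import Crest.Agent.R187.RunSem

/-! Specifications of the list programs of `RunDef`. -/

set_option autoImplicit false

namespace Crest.Agent.R187

theorem force_eq {α : Type} (x : ℕ) (f : ℕ → α) : force x f = f x := rfl

theorem brec_eq {α : Type} (a b : α) (c : Bool) :
    (Bool.rec (motive := fun _ => α) b a c) = if c = true then a else b := by
  cases c <;> rfl

theorem brec_beq {α : Type} (a b : α) (x y : ℕ) :
    (Bool.rec (motive := fun _ => α) b a (Nat.beq x y)) = if x = y then a else b := by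
  simp only [brec_eq, Nat.beq_eq]

theorem brec_ble {α : Type} (a b : α) (x y : ℕ) :
    (Bool.rec (motive := fun _ => α) b a (Nat.ble x y)) = if x ≤ y then a else b := by
  simp only [brec_eq, Nat.ble_eq]

@[simp] theorem nth_nil {α : Type} (d : α) (n : ℕ) : nth [] d n = d := rfl
@[simp] theorem nth_cons_zero {α : Type} (a : α) (l : List α) (d : α) : nth (a :: l) d 0 = a := rfl
@[simp] theorem nth_cons_succ {α : Type} (a : α) (l : List α) (d : α) (n : ℕ) :
    nth (a :: l) d (n + 1) = nth l d n := rfl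

theorem hd_eq (l : List ℕ) : hd l = nth l 0 0 := by cases l <;> rfl

theorem nth_tl (l : List ℕ) (i : ℕ) : nth (tl l) 0 i = nth l 0 (i + 1) := by cases l <;> rfl

theorem nth_dropL (n : ℕ) : ∀ (l : List ℕ) (i : ℕ), nth (dropL n l) 0 i = nth l 0 (n + i) := by
  induction n with
  | zero => intro l i; rw [Nat.zero_add]; rfl
  | succ n ih =>
    intro l i
    cases l with
    | nil => rfl
    | cons a l => rw [show n + 1 + i = (n + i) + 1 by omega, nth_cons_succ, ← ih]; rfl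

theorem lt_lenL : ∀ (l : List ℕ) (i : ℕ), nth l 0 i ≠ 0 → i < lenL l := by
  intro l
  induction l with
  | nil => intro i h; exact absurd rfl h
  | cons a l ih =>
    intro i h
    show i < lenL l + 1
    cases i with
    | zero => omega
    | succ i => exact Nat.succ_lt_succ (ih i h)

theorem allFrom_succ (f : ℕ → Bool) (cnt lo : ℕ) :
    allFrom f (cnt + 1) lo = if f lo = true then allFrom f cnt (lo + 1) else false :=
  brec_eq _ _ _

theorem allFrom_spec {f : ℕ → Bool} {cnt : ℕ} : ∀ {lo : ℕ}, allFrom f cnt lo = true →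
    ∀ i, lo ≤ i → i < lo + cnt → f i = true := by
  induction cnt with
  | zero => intro lo _ i h1 h2; omega
  | succ cnt ih =>
    intro lo h i h1 h2
    rw [allFrom_succ] at h
    split_ifs at h with hf
    rcases h1.eq_or_lt with rfl | h1
    · exact hf
    · exact ih h i h1 (by omega)

/-- all indices below `n` pass -/
def AllLt (f : ℕ → Bool) (n : ℕ) : Prop := ∀ i < n, f i = true

theorem AllLt.zero (f : ℕ → Bool) : AllLt f 0 := fun _ h => absurd h (Nat.not_lt_zero _)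

theorem AllLt.add {f : ℕ → Bool} {lo cnt : ℕ} (h1 : AllLt f lo) (h2 : allFrom f cnt lo = true) :
    AllLt f (lo + cnt) := fun i hi => by
  by_cases h : i < lo
  · exact h1 i h
  · exact allFrom_spec h2 i (by omega) hi

theorem mask_eq (N : ℕ) : mask N = 2 ^ N - 1 := rfl

theorem land_mask (x N : ℕ) : ((Nat.land x (mask N) : ℕ) : ℤ) ≡ x [ZMOD 2 ^ N] :=
  land_mask_modEq x N

/-! ## rows -/

theorem rows'_cons (x : Box) (bs : List Box) (d j n6 m5 m4 : ℕ) :
    rows' (x :: bs) d j n6 m5 m4 =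
      if j ≤ x.1 ∧ m4 ≤ x.2.2.1 ∧ m5 ≤ x.2.2.2.1 ∧ n6 ≤ x.2.2.2.2 ∧ 4 * m4 + m5 + n6 ≤ d * x.1 then
        max (rows' bs d j n6 m5 m4) (min x.2.1 ((d * x.1 - (m4 + m5 + n6)) / 3) + 4)
      else rows' bs d j n6 m5 m4 := by
  have : rows' (x :: bs) d j n6 m5 m4 =
      if (j - x.1) + (m4 - x.2.2.1) + (m5 - x.2.2.2.1) + (n6 - x.2.2.2.2) +
        (4 * m4 + m5 + n6 - d * x.1) = 0 then
        rows' bs d j n6 m5 m4 + ((x.2.1 - (x.2.1 - (d * x.1 - (m4 + m5 + n6)) / 3)) + 4 -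
          rows' bs d j n6 m5 m4)
      else rows' bs d j n6 m5 m4 := brec_beq _ _ _ _
  rw [this]
  split_ifs <;> omega

theorem rows'_mono (bs : List Box) (d : ℕ) {j n6 m5 m4 j' n6' m5' m4' : ℕ} (h1 : j ≤ j')
    (h2 : n6 ≤ n6') (h3 : m5 ≤ m5') (h4 : m4 ≤ m4') :
    rows' bs d j' n6' m5' m4' ≤ rows' bs d j n6 m5 m4 := by
  induction bs with
  | nil => exact le_rfl
  | cons x bs ih =>
    rw [rows'_cons, rows'_cons]
    split_ifs <;> omega

theorem rows_eq (bs : List Box) (d j n6 n5 n4 : ℕ) : rows bs d j n6 n5 n4 =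
    rows' bs d j n6 (n6 + (n5 - 1 - n6)) (n6 + (n5 - 1 - n6) + (n4 - 2 - (n6 + (n5 - 1 - n6)))) :=
  rfl

theorem rows_mono (bs : List Box) (d : ℕ) {j n6 n5 n4 j' n6' n5' n4' : ℕ} (h1 : j ≤ j')
    (h2 : n6 ≤ n6') (h3 : n5 ≤ n5') (h4 : n4 ≤ n4') :
    rows bs d j' n6' n5' n4' ≤ rows bs d j n6 n5 n4 := by
  rw [rows_eq, rows_eq]
  apply rows'_mono <;> omega

theorem rows_swap56 (bs : List Box) (d j : ℕ) {n6 n5 : ℕ} (n4 : ℕ) (h : n5 ≤ n6) :
    rows bs d j n6 n5 n4 ≤ rows bs d j n5 n6 n4 := by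
  rw [rows_eq, rows_eq]
  apply rows'_mono <;> omega

theorem rows_swap45 (bs : List Box) (d j n6 : ℕ) {n5 n4 : ℕ} (h : n4 ≤ n5) :
    rows bs d j n6 n5 n4 ≤ rows bs d j n6 n4 n5 := by
  rw [rows_eq, rows_eq]
  apply rows'_mono <;> omega

/-- number of valid bits -/
noncomputable def Nb (ws e R : ℕ) : ℕ := if R = 0 then 0 else ws * R + e

theorem Nb_mono (ws : ℕ) {e e' R R' : ℕ} (h1 : e ≤ e') (h2 : R ≤ R') : Nb ws e R ≤ Nb ws e' R' := by
  unfold Nb
  have := Nat.mul_le_mul_left ws h2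
  split_ifs <;> omega

theorem mkNs_succ (bs : List Box) (d ws e5 j n6 n5 fuel n4 : ℕ) :
    mkNs bs d ws e5 j n6 n5 (fuel + 1) n4 =
      if rows bs d j n6 n5 n4 = 0 then [] else
        (ws * rows bs d j n6 n5 n4 + e5) :: mkNs bs d ws e5 j n6 n5 fuel (n4 + 1) :=
  brec_beq _ _ _ _

theorem nth_mkNs (bs : List Box) (d ws e5 j n6 n5 fuel : ℕ) : ∀ (n4 : ℕ),
    rows bs d j n6 n5 (n4 + fuel) = 0 → ∀ i,
    nth (mkNs bs d ws e5 j n6 n5 fuel n4) 0 i = Nb ws e5 (rows bs d j n6 n5 (n4 + i)) := by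
  induction fuel with
  | zero =>
    intro n4 h i
    have := rows_mono bs d (le_refl j) (le_refl n6) (le_refl n5) (show n4 + 0 ≤ n4 + i by omega)
    rw [Nb, if_pos (by omega)]; rfl
  | succ fuel ih =>
    intro n4 h i
    rw [mkNs_succ]
    split_ifs with h0
    · have := rows_mono bs d (le_refl j) (le_refl n6) (le_refl n5) (show n4 ≤ n4 + i by omega)
      rw [Nb, if_pos (by omega)]; rfl
    · cases i with
      | zero => rw [nth_cons_zero, Nb, Nat.add_zero, if_neg h0]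
      | succ i =>
        rw [nth_cons_succ, ih (n4 + 1) (by rwa [show n4 + 1 + fuel = n4 + (fuel + 1) by omega]),
          show n4 + 1 + i = n4 + (i + 1) by omega]

theorem rowAt_self (T : Lev) (n : ℕ) : rowAt T n n = [] := by
  unfold rowAt
  rw [brec_beq, if_pos rfl]

/-! ## vector operations -/

theorem nth_zipAdd (x : List ℕ) : ∀ (y : List ℕ) (i : ℕ),
    nth (zipAdd x y) 0 i = nth x 0 i + nth y 0 i := by
  induction x with
  | nil => intro y i; exact (Nat.zero_add _).symm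
  | cons a x ih =>
    intro y i
    cases y with
    | nil => rfl
    | cons b y =>
      cases i with
      | zero => rfl
      | succ i => exact ih y i

theorem nth_shiftAdd (A : List ℕ) (k : ℕ) : ∀ (G : List ℕ) (i : ℕ),
    nth (shiftAdd k G A) 0 i = nth G 0 i + if k ≤ i then nth A 0 (i - k) else 0 := by
  induction k with
  | zero => intro G i; rw [if_pos (Nat.zero_le _)]; exact nth_zipAdd G A i
  | succ k ih =>
    intro G i
    cases G with
    | nil =>
      cases i with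
      | zero => rfl
      | succ i =>
        have := ih [] i
        simp only [nth_nil, Nat.add_le_add_iff_right, Nat.add_sub_add_right] at this ⊢
        exact this
    | cons g G =>
      cases i with
      | zero => rfl
      | succ i =>
        have := ih G i
        simp only [nth_cons_succ, Nat.add_le_add_iff_right, Nat.add_sub_add_right] at this ⊢
        exact this

theorem nth_maskL (Ns : List ℕ) : ∀ (X : List ℕ) (i : ℕ),
    ((nth (maskL Ns X) 0 i : ℕ) : ℤ) ≡ (nth X 0 i : ℕ) [ZMOD 2 ^ nth Ns 0 i] := by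
  induction Ns with
  | nil => intro X i; exact Int.modEq_one
  | cons N Ns ih =>
    intro X i
    cases X with
    | nil => exact Int.ModEq.refl _
    | cons x X =>
      cases i with
      | zero => exact land_mask x N
      | succ i => exact ih X i

theorem Gs_zero (F : ℕ → ℕ → ℕ → ℤ) (k n6 n5 n4 : ℕ) : Gs F k 0 n6 n5 n4 = F n6 n5 n4 := by
  simp [Gs]

theorem Gs_succ (F : ℕ → ℕ → ℕ → ℤ) (k m n6 n5 n4 : ℕ) : Gs F k (m + 1) n6 n5 n4 =
    (if k * (m + 1) ≤ n5 then F n6 (n5 - k * (m + 1)) n4 else 0) +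
      if k ≤ n6 then Gs F k m (n6 - k) n5 n4 else 0 := by
  unfold Gs
  rw [Finset.sum_range_succ', add_comm]
  congr 1
  · simp
  · split_ifs with h
    · refine Finset.sum_congr rfl fun a _ => ?_
      rw [Nat.add_sub_add_right, mul_add, mul_one]
      have e : k * a + k ≤ n6 ↔ k * a ≤ n6 - k := by omega
      simp only [e, show n6 - (k * a + k) = n6 - k - k * a by omega]
    · refine Finset.sum_eq_zero fun a _ => ?_
      rw [if_neg]
      rw [mul_add]; omega

theorem Gl_succ (T : Lev) (k n5 f p6 : ℕ) : Gl T k n5 (f + 1) p6 =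
    zipAdd (if k * f ≤ n5 then rowAt T p6 (n5 - k * f) else [])
      (if k ≤ p6 then Gl T k n5 f (p6 - k) else []) := by
  rw [← brec_ble, ← brec_ble]; rfl

theorem nth_Gl {T : Lev} {F : ℕ → ℕ → ℕ → ℤ} {k n6 n5 i : ℕ} {M : ℤ}
    (hT : ∀ p6 ≤ n6, ∀ p5 ≤ n5, ((nth (rowAt T p6 p5) 0 i : ℕ) : ℤ) ≡ F p6 p5 i [ZMOD M])
    (f : ℕ) : ∀ p6 ≤ n6, ((nth (Gl T k n5 (f + 1) p6) 0 i : ℕ) : ℤ) ≡ Gs F k f p6 n5 i [ZMOD M] := by
  induction f with
  | zero =>
    intro p6 h
    rw [Gl_succ, nth_zipAdd, Gs_zero]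
    have : nth (if k ≤ p6 then Gl T k n5 0 (p6 - k) else []) 0 i = 0 := by split_ifs <;> rfl
    rw [this]
    simpa using hT p6 h n5 le_rfl
  | succ f ih =>
    intro p6 h
    rw [Gl_succ, nth_zipAdd, Gs_succ, Nat.cast_add]
    apply Int.ModEq.add
    · split_ifs
      · exact hT _ h _ (by omega)
      · exact Int.ModEq.refl _
    · split_ifs
      · exact ih _ (by omega)
      · exact Int.ModEq.refl _

theorem gN_eq (s i : ℕ) : (gN s i : ℤ) = gs (2 ^ s) i := by
  induction i with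
  | zero => rw [gs_zero]; rfl
  | succ i ih =>
    rw [gs_succ, ← ih]
    show ((1 + gN s i <<< s : ℕ) : ℤ) = _
    rw [Nat.shiftLeft_eq]; push_cast; ring

theorem hN_modEq (s s' NM i : ℕ) : (hN s s' NM i : ℤ) ≡ Hs (2 ^ s) (2 ^ s') i [ZMOD 2 ^ NM] := by
  induction i with
  | zero => rw [Hs_zero]; rfl
  | succ i ih =>
    rw [Hs_succ, ← gN_eq]
    refine (land_mask (gN s (i + 1) + hN s s' NM i <<< s') NM).trans ?_
    rw [Nat.shiftLeft_eq]; push_cast
    rw [mul_comm]
    exact (ih.mul_left _).add_left _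

theorem hm_modEq (s s' : ℕ) {NM N : ℕ} (i : ℕ) (h : N ≤ NM) :
    (hm s s' NM i N : ℤ) ≡ Hs (2 ^ s) (2 ^ s') i [ZMOD 2 ^ N] :=
  (land_mask _ N).trans (modEq_pow_mono h (hN_modEq s s' NM i))

theorem nth_accStep (h : ℕ → ℕ) (Ns : List ℕ) : ∀ (A acc : List ℕ) (i : ℕ), nth Ns 0 i ≠ 0 →
    nth (accStep h Ns A acc) 0 i = nth acc 0 i + nth A 0 i * h (nth Ns 0 i) := by
  induction Ns with
  | nil => intro A acc i hi; exact absurd rfl hi
  | cons N Ns ih =>
    intro A acc i hi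
    cases A with
    | nil => simp only [nth_nil, zero_mul, add_zero]; rfl
    | cons a A =>
      cases i with
      | zero =>
        have : nth (accStep h (N :: Ns) (a :: A) acc) 0 0 =
          if a = 0 then hd acc else hd acc + a * h N := brec_beq _ _ _ _
        rw [this, hd_eq]
        split_ifs with h0
        · simp [h0]
        · rfl
      | succ i =>
        have := ih A (tl acc) i hi
        rw [nth_tl] at this
        exact this

/-- the previous value of `As` -/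
def As' (F : ℕ → ℕ → ℕ → ℤ) (k n6 n5 : ℕ) : ℕ → ℕ → ℤ
  | 0, _ => 0
  | m + 1, i => As F k n6 n5 m i

theorem As_eq (F : ℕ → ℕ → ℕ → ℤ) (k n6 n5 m i : ℕ) :
    As F k n6 n5 m i = Gs F k m n6 n5 i + if k ≤ i then As' F k n6 n5 m (i - k) else 0 := by
  cases m with
  | zero => simp [As, As']
  | succ m => rfl

theorem As_eq_zero (F : ℕ → ℕ → ℕ → ℤ) (k n6 n5 m : ℕ) : ∀ i, n6 + n5 + i < k * m →
    As F k n6 n5 m i = 0 := by
  induction m with
  | zero => intro i h; omega
  | succ m ih =>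
    intro i h
    rw [As]
    have h1 : Gs F k (m + 1) n6 n5 i = 0 := by
      refine Finset.sum_eq_zero fun a ha => ?_
      rw [if_neg]
      have ha' : a ≤ m + 1 := by simpa [Nat.lt_succ_iff] using ha
      have : k * a + k * (m + 1 - a) = k * (m + 1) := by rw [← mul_add]; congr 1; omega
      omega
    rw [h1, zero_add]
    split_ifs with h2
    · exact ih _ (by rw [mul_add] at h; omega)
    · rfl

theorem loopM_succ (T : Lev) (d k s s' NM n6 n5 p5 : ℕ) (Ns Nd : List ℕ) (fuel m : ℕ)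
    (A acc : List ℕ) : loopM T d k s s' NM n6 n5 p5 Ns Nd (fuel + 1) m A acc =
      loopM T d k s s' NM n6 n5 p5 Ns Nd fuel (m + 1)
        (maskL Ns (shiftAdd k (Gl T k n5 (m + 1) n6) A))
        (accStep (hm s s' NM (d - m)) Nd
          (dropL p5 (maskL Ns (shiftAdd k (Gl T k n5 (m + 1) n6) A))) acc) := rfl

theorem nth_loopM {T : Lev} {F : ℕ → ℕ → ℕ → ℤ} {d k s s' NM n6 n5 p5 : ℕ} {Ns : List ℕ}
    (hanti : ∀ i i', i ≤ i' → nth Ns 0 i' ≤ nth Ns 0 i) (hNM : ∀ i, nth Ns 0 i ≤ NM)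
    (hT : ∀ i, ∀ p6 ≤ n6, ∀ p5 ≤ n5,
      ((nth (rowAt T p6 p5) 0 i : ℕ) : ℤ) ≡ F p6 p5 i [ZMOD 2 ^ nth Ns 0 i])
    (i fuel : ℕ) : ∀ (m : ℕ) (A acc : List ℕ),
      (∀ i, ((nth A 0 i : ℕ) : ℤ) ≡ As' F k n6 n5 m i [ZMOD 2 ^ nth Ns 0 i]) →
      ((nth (loopM T d k s s' NM n6 n5 p5 Ns (dropL p5 Ns) fuel m A acc) 0 i : ℕ) : ℤ) ≡
        (nth acc 0 i : ℕ) + ∑ c ∈ Finset.range fuel,
          As F k n6 n5 (m + c) (p5 + i) * Hs (2 ^ s) (2 ^ s') (d - (m + c))
        [ZMOD 2 ^ nth Ns 0 (p5 + i)] := by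
  induction fuel with
  | zero => intro m A acc _; simp only [Finset.range_zero, Finset.sum_empty, add_zero]; rfl
  | succ fuel ih =>
    intro m A acc hA
    by_cases h0 : nth Ns 0 (p5 + i) = 0
    · rw [h0]; exact Int.modEq_one
    have hA' : ∀ i, ((nth (maskL Ns (shiftAdd k (Gl T k n5 (m + 1) n6) A)) 0 i : ℕ) : ℤ) ≡
        As F k n6 n5 m i [ZMOD 2 ^ nth Ns 0 i] := by
      intro i
      refine (nth_maskL _ _ _).trans ?_
      rw [nth_shiftAdd, As_eq, Nat.cast_add]
      refine (nth_Gl (hT i) m n6 le_rfl).add ?_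
      split_ifs
      · exact modEq_pow_mono (hanti _ _ (Nat.sub_le _ _)) (hA _)
      · exact Int.ModEq.refl _
    rw [loopM_succ]
    refine (ih (m + 1) _ _ hA').trans ?_
    rw [nth_accStep _ _ _ _ _ (by rwa [nth_dropL]), nth_dropL, nth_dropL, Finset.sum_range_succ',
      Nat.cast_add, Nat.cast_mul, add_assoc, add_comm (∑ _ ∈ _, _)]
    refine Int.ModEq.add_left _ (Int.ModEq.add ((hA' _).mul (hm_modEq _ _ _ (hNM _))) ?_)
    simp only [add_assoc, add_comm 1]
    rfl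

theorem accK_succ (Ts : List Lev) (d w ws NM j n6 n5 p5 L : ℕ) (Ns Nd : List ℕ) (c : ℕ) :
    accK Ts d w ws NM j n6 n5 p5 L Ns Nd (c + 1) =
      loopM (nth Ts [] (j - (c + 1))) d (c + 1) ((c + 1) * w) ((c + 1) * ws) NM n6 n5 p5 Ns Nd
        (d - (d - L / (c + 1)) + 1) 0 [] (accK Ts d w ws NM j n6 n5 p5 L Ns Nd c) := rfl

theorem nth_accK {Ts : List Lev} {F : ℕ → ℕ → ℕ → ℕ → ℤ} {d w ws NM j n6 n5 p5 L : ℕ} {Ns : List ℕ}
    (hanti : ∀ i i', i ≤ i' → nth Ns 0 i' ≤ nth Ns 0 i) (hNM : ∀ i, nth Ns 0 i ≤ NM)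
    (hT : ∀ j' < j, ∀ i, ∀ p6 ≤ n6, ∀ p5 ≤ n5,
      ((nth (rowAt (nth Ts [] j') p6 p5) 0 i : ℕ) : ℤ) ≡ F j' p6 p5 i [ZMOD 2 ^ nth Ns 0 i])
    {i : ℕ} (hL : n6 + n5 + (p5 + i) ≤ L) (c : ℕ) (hc : c ≤ j) :
    ((nth (accK Ts d w ws NM j n6 n5 p5 L Ns (dropL p5 Ns) c) 0 i : ℕ) : ℤ) ≡
      ∑ k ∈ Finset.range c, ∑ m ∈ Finset.range (d + 1),
        As (F (j - 1 - k)) (k + 1) n6 n5 m (p5 + i) *
          Hs ((2 ^ w) ^ (k + 1)) ((2 ^ ws) ^ (k + 1)) (d - m) [ZMOD 2 ^ nth Ns 0 (p5 + i)] := by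
  induction c with
  | zero => rfl
  | succ c ih =>
    rw [accK_succ, Finset.sum_range_succ]
    refine (nth_loopM (F := F (j - (c + 1))) hanti hNM (hT _ (by omega)) i _ 0 [] _
      (fun _ => Int.ModEq.refl _)).trans ?_
    refine (ih (by omega)).add ?_
    rw [show j - 1 - c = j - (c + 1) by omega, ← pow_mul, ← pow_mul, mul_comm w, mul_comm ws]
    simp only [zero_add]
    rw [Finset.sum_subset (s₂ := Finset.range (d + 1))]
    · intro m hm
      simp only [Finset.mem_range] at hm ⊢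
      omega
    · intro m h1 h2
      simp only [Finset.mem_range] at h1 h2
      rw [As_eq_zero, zero_mul]
      have h3 : L / (c + 1) < m := by omega
      rw [Nat.div_lt_iff_lt_mul (by omega), mul_comm] at h3
      omega

theorem nth_acc0 (x y : ℤ) (n6 n5 : ℕ) (Ns : List ℕ) : ∀ (n4 i : ℕ),
    ((nth (acc0 x y n6 n5 Ns n4) 0 i : ℕ) : ℤ) ≡ c0 x y n6 n5 (n4 + i)
      [ZMOD 2 ^ nth Ns 0 i] := by
  induction Ns with
  | nil => intro n4 i; exact Int.modEq_one
  | cons N Ns ih =>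
    intro n4 i
    cases i with
    | zero =>
      show ((Int.toNat (_ % ((2 ^ N : ℕ) : ℤ)) : ℕ) : ℤ) ≡ _ [ZMOD 2 ^ N]
      rw [Int.toNat_of_nonneg (Int.emod_nonneg _ (by positivity))]
      push_cast
      exact Int.mod_modEq _ _
    | succ i =>
      have := ih (n4 + 1) i
      rw [show n4 + 1 + i = n4 + (i + 1) by omega] at this
      exact this

theorem finalChk_spec (w m c e5 : ℕ) (Nd : List ℕ) : ∀ (Es acc : List ℕ),
    finalChk w m c e5 Nd Es acc = true → ∀ i, nth Nd 0 i ≠ 0 →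
      ((c : ℤ) * (nth Es 0 i : ℕ) ≡ (nth acc 0 i : ℕ) [ZMOD 2 ^ nth Nd 0 i]) ∧
      (nth Es 0 i + offs w m (nth Nd 0 i - e5)) &&& his w m (nth Nd 0 i - e5) = 0 := by
  induction Nd with
  | nil => intro _ _ _ i hi; exact absurd rfl hi
  | cons N Nd ih =>
    intro Es acc h i hi
    have e : finalChk w m c e5 (N :: Nd) Es acc =
        if (c * hd Es) &&& (2 ^ N - 1) = hd acc &&& (2 ^ N - 1) then
          (if (hd Es + offs w m (N - e5)) &&& his w m (N - e5) = 0 then
            finalChk w m c e5 Nd (tl Es) (tl acc) else false) else false := by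
      rw [← brec_beq, ← brec_beq]; rfl
    rw [e] at h
    split_ifs at h with h1 h2
    cases i with
    | zero =>
      rw [hd_eq] at h2
      rw [hd_eq, hd_eq] at h1
      exact ⟨by exact_mod_cast modEq_of_land_eq h1, h2⟩
    | succ i =>
      have := ih _ _ h i hi
      rwa [nth_tl, nth_tl] at this

theorem negOK_spec {N a b : ℕ} (h : negOK N a b = true) : (a : ℤ) ≡ -(b : ℤ) [ZMOD 2 ^ N] := by
  have h1 : Nat.land (a + b) (mask N) = 0 := Nat.eq_of_beq_eq_true h
  have h2 := land_mask (a + b) N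
  rw [h1] at h2
  have h3 := (h2.symm.add_right (-(b : ℤ)))
  simpa using h3

theorem trChk_spec (T : Lev) (n6 n5 : ℕ) (Ns : List ℕ) : ∀ (Es : List ℕ) (n4 : ℕ),
    trChk T n6 n5 Ns Es n4 = true → n4 ≤ n5 → ∀ i, nth Ns 0 i ≠ 0 →
      (n4 + i < n5 → ((nth Es 0 i : ℕ) : ℤ) ≡ -((nth (rowAt T n6 (n4 + i)) 0 n5 : ℕ) : ℤ)
        [ZMOD 2 ^ nth Ns 0 i]) ∧ (n4 + i = n5 → nth Es 0 i = 0) := by
  induction Ns with
  | nil => intro _ _ _ _ i hi; exact absurd rfl hi
  | cons N Ns ih =>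
    intro Es n4 h hle i hi
    have e : trChk T n6 n5 (N :: Ns) Es n4 =
        if n5 ≤ n4 then Nat.beq (hd Es) 0 else
          (if negOK N (hd Es) (nth (rowAt T n6 n4) 0 n5) = true then
            trChk T n6 n5 Ns (tl Es) (n4 + 1) else false) := by
      rw [← brec_ble, ← brec_eq]; rfl
    rw [e] at h
    split_ifs at h with h0 h1
    · refine ⟨fun hlt => by omega, fun heq => ?_⟩
      obtain rfl : i = 0 := by omega
      rw [← hd_eq]
      exact Nat.eq_of_beq_eq_true h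
    · cases i with
      | zero => exact ⟨fun _ => by rw [← hd_eq Es]; exact negOK_spec h1, fun heq => by omega⟩
      | succ i =>
        have := ih _ _ h (by omega) i hi
        rwa [nth_tl, show n4 + 1 + i = n4 + (i + 1) by omega] at this

theorem negChk_spec (Ns : List ℕ) : ∀ (X Y : List ℕ), negChk Ns X Y = true → ∀ i,
    ((nth X 0 i : ℕ) : ℤ) ≡ -((nth Y 0 i : ℕ) : ℤ) [ZMOD 2 ^ nth Ns 0 i] := by
  induction Ns with
  | nil => intro _ _ _ i; exact Int.modEq_one
  | cons N Ns ih =>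
    intro X Y h i
    have e : negChk (N :: Ns) X Y =
        if negOK N (hd X) (hd Y) = true then negChk Ns (tl X) (tl Y) else false := by
      rw [← brec_eq]; rfl
    rw [e] at h
    split_ifs at h with h1
    cases i with
    | zero => rw [← hd_eq X, ← hd_eq Y]; exact negOK_spec h1
    | succ i =>
      have := ih _ _ h i
      rwa [nth_tl, nth_tl] at this

end Crest.Agent.R187
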