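import Crest.Agent.R187.Newton
import Crest.Agent.R187.Digits
import Crest.Agent.R187.RunDef

/-! Semantics of the packed tables. -/

set_option autoImplicit false

open MvPolynomial

namespace Crest.Agent.R187

/-! ## geometric series -/

noncomputable def geo {R : Type*} [CommRing R] (x : R) : PowerSeries R := PowerSeries.mk fun m => x ^ m

theorem coeff_geo {R : Type*} [CommRing R] (x : R) (m : ℕ) : PowerSeries.coeff m (geo x) = x ^ m :=
  PowerSeries.coeff_mk _ _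

theorem coeff_geo_mul_zero {R : Type*} [CommRing R] (x : R) (S : PowerSeries R) :
    PowerSeries.coeff 0 (geo x * S) = PowerSeries.coeff 0 S := by
  simp [PowerSeries.coeff_mul, coeff_geo]

theorem coeff_geo_mul_succ {R : Type*} [CommRing R] (x : R) (S : PowerSeries R) (m : ℕ) :
    PowerSeries.coeff (m + 1) (geo x * S) =
      PowerSeries.coeff (m + 1) S + x * PowerSeries.coeff m (geo x * S) := by
  rw [PowerSeries.coeff_mul, PowerSeries.coeff_mul, Finset.Nat.antidiagonal_succ,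
    Finset.sum_cons, Finset.sum_map, Finset.mul_sum]
  simp [coeff_geo, pow_succ, mul_assoc, mul_comm]

theorem map_geo {R S : Type*} [CommRing R] [CommRing S] (f : R →+* S) (x : R) :
    PowerSeries.map f (geo x) = geo (f x) := by
  ext m; simp [coeff_geo]

theorem pk_eq_coeff (n k d : ℕ) :
    pk n k d = PowerSeries.coeff d (∏ i : Fin n, geo (X i ^ k : MvPolynomial (Fin n) ℤ)) := by
  rw [PowerSeries.coeff_prod, pk, mons]
  refine Finset.sum_congr rfl fun α _ => ?_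
  simp only [coeff_geo, ← pow_mul]
  rw [monomial_eq, C_1, one_mul, Finsupp.prod_fintype _ _ (by simp)]
  simp

/-! ## the evaluation map -/

noncomputable def phi (x y : ℤ) : MvPolynomial (Fin 6) ℤ →+* MvPolynomial (Fin 3) ℤ :=
  (aeval ![1, C x, C y, X 0, X 1, X 2] : MvPolynomial (Fin 6) ℤ →ₐ[ℤ] _).toRingHom

/-- coefficient function of a polynomial in three variables -/
noncomputable def cf (Q : MvPolynomial (Fin 3) ℤ) (n6 n5 n4 : ℕ) : ℤ := coeff (ex ![n4, n5, n6]) Q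

def Gs (F : ℕ → ℕ → ℕ → ℤ) (k m n6 n5 n4 : ℕ) : ℤ :=
  ∑ a ∈ Finset.range (m + 1),
    if k * a ≤ n6 ∧ k * (m - a) ≤ n5 then F (n6 - k * a) (n5 - k * (m - a)) n4 else 0

def As (F : ℕ → ℕ → ℕ → ℤ) (k n6 n5 : ℕ) : ℕ → ℕ → ℤ
  | 0, n4 => Gs F k 0 n6 n5 n4
  | m + 1, n4 => Gs F k (m + 1) n6 n5 n4 + if k ≤ n4 then As F k n6 n5 m (n4 - k) else 0

/-- `h_i (1, x, y)` -/
noncomputable def Hs (x y : ℤ) (i : ℕ) : ℤ := PowerSeries.coeff i (geo y * (geo 1 * geo x))

theorem ex3_le (a b c a' b' c' : ℕ) :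
    ex ![a, b, c] ≤ ex ![a', b', c'] ↔ a ≤ a' ∧ b ≤ b' ∧ c ≤ c' := by
  simp [Finsupp.le_def, Fin.forall_fin_succ]

theorem ex3_sub (a b c a' b' c' : ℕ) :
    ex ![a, b, c] - ex ![a', b', c'] = ex ![a - a', b - b', c - c'] := by
  ext i; fin_cases i <;> simp

theorem cf_mono_mul (a b c : ℕ) (Q : MvPolynomial (Fin 3) ℤ) (n6 n5 n4 : ℕ) :
    cf (X 0 ^ a * X 1 ^ b * X 2 ^ c * Q) n6 n5 n4 =
      if a ≤ n4 ∧ b ≤ n5 ∧ c ≤ n6 then cf Q (n6 - c) (n5 - b) (n4 - a) else 0 := by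
  have : (X 0 ^ a * X 1 ^ b * X 2 ^ c : MvPolynomial (Fin 3) ℤ) = monomial (ex ![a, b, c]) 1 := by
    rw [monomial_eq, C_1, one_mul, Finsupp.prod_fintype _ _ (by simp)]
    simp [Fin.prod_univ_three]
  rw [this, cf, coeff_monomial_mul', ex3_sub]
  simp only [ex3_le, one_mul, cf]

theorem cf_add (P Q : MvPolynomial (Fin 3) ℤ) (n6 n5 n4 : ℕ) :
    cf (P + Q) n6 n5 n4 = cf P n6 n5 n4 + cf Q n6 n5 n4 := coeff_add _ _ _

theorem cf_sub (P Q : MvPolynomial (Fin 3) ℤ) (n6 n5 n4 : ℕ) :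
    cf (P - Q) n6 n5 n4 = cf P n6 n5 n4 - cf Q n6 n5 n4 := coeff_sub _ _ _ _

theorem cf_sum {ι : Type*} (s : Finset ι) (P : ι → MvPolynomial (Fin 3) ℤ) (n6 n5 n4 : ℕ) :
    cf (∑ i ∈ s, P i) n6 n5 n4 = ∑ i ∈ s, cf (P i) n6 n5 n4 := coeff_sum _ _ _

theorem cf_C_mul (c : ℤ) (P : MvPolynomial (Fin 3) ℤ) (n6 n5 n4 : ℕ) :
    cf (C c * P) n6 n5 n4 = c * cf P n6 n5 n4 := coeff_C_mul _ _ _

theorem cf_G (k m : ℕ) (Q : MvPolynomial (Fin 3) ℤ) (n6 n5 n4 : ℕ) :
    cf (PowerSeries.coeff m (geo (X 2 ^ k) * geo (X 1 ^ k)) * Q) n6 n5 n4 =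
      Gs (cf Q) k m n6 n5 n4 := by
  rw [PowerSeries.coeff_mul, Finset.Nat.sum_antidiagonal_eq_sum_range_succ_mk, Finset.sum_mul,
    cf_sum, Gs]
  refine Finset.sum_congr rfl fun a _ => ?_
  have := cf_mono_mul 0 (k * (m - a)) (k * a) Q n6 n5 n4
  simp only [pow_zero, one_mul, zero_le, true_and, Nat.sub_zero] at this
  simp only [coeff_geo, ← pow_mul]
  rw [mul_comm (X 2 ^ _), this]
  simp only [and_comm]

theorem cf_A (k m : ℕ) (Q : MvPolynomial (Fin 3) ℤ) (n6 n5 n4 : ℕ) :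
    cf (PowerSeries.coeff m (geo (X 0 ^ k) * (geo (X 2 ^ k) * geo (X 1 ^ k))) * Q) n6 n5 n4 =
      As (cf Q) k n6 n5 m n4 := by
  induction m generalizing n4 with
  | zero => rw [coeff_geo_mul_zero, cf_G, As]
  | succ m ih =>
    rw [coeff_geo_mul_succ, add_mul, cf_add, cf_G, As, mul_assoc]
    have := cf_mono_mul k 0 0 (PowerSeries.coeff m (geo (X 0 ^ k) * (geo (X 2 ^ k) *
      geo (X 1 ^ k))) * Q) n6 n5 n4
    simp only [pow_zero, mul_one, zero_le, and_true, Nat.sub_zero] at this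
    rw [this, ih]

theorem cf_phi_pk (x y : ℤ) (k d : ℕ) (Q : MvPolynomial (Fin 3) ℤ) (n6 n5 n4 : ℕ) :
    cf (phi x y (pk 6 k d) * Q) n6 n5 n4 =
      ∑ m ∈ Finset.range (d + 1), As (cf Q) k n6 n5 m n4 * Hs (x ^ k) (y ^ k) (d - m) := by
  have h1 : phi x y (pk 6 k d) = PowerSeries.coeff d
      ((geo (X 0 ^ k) * (geo (X 2 ^ k) * geo (X 1 ^ k))) *
        PowerSeries.map (C : ℤ →+* MvPolynomial (Fin 3) ℤ) (geo (y ^ k) * (geo 1 * geo (x ^ k)))) := by
    rw [pk_eq_coeff, ← PowerSeries.coeff_map, map_prod]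
    refine congrArg (PowerSeries.coeff d) ?_
    simp only [map_geo, map_mul, Fin.prod_univ_six, map_pow]
    simp [phi]
    ring
  rw [h1, PowerSeries.coeff_mul, Finset.Nat.sum_antidiagonal_eq_sum_range_succ_mk, Finset.sum_mul,
    cf_sum]
  refine Finset.sum_congr rfl fun m _ => ?_
  rw [PowerSeries.coeff_map, mul_right_comm, mul_comm, cf_C_mul, cf_A, mul_comm]
  rfl

theorem Hs_zero (x y : ℤ) : Hs x y 0 = 1 := by
  simp [Hs, PowerSeries.coeff_mul, coeff_geo]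

/-- `1 + x + … + x ^ i` -/
noncomputable def gs (x : ℤ) (i : ℕ) : ℤ := PowerSeries.coeff i (geo 1 * geo x)

theorem gs_zero (x : ℤ) : gs x 0 = 1 := by simp [gs, PowerSeries.coeff_mul, coeff_geo]

theorem gs_succ (x : ℤ) (i : ℕ) : gs x (i + 1) = 1 + x * gs x i := by
  unfold gs
  rw [mul_comm, coeff_geo_mul_succ, coeff_geo, one_pow, mul_comm (geo x)]

theorem Hs_succ (x y : ℤ) (i : ℕ) : Hs x y (i + 1) = gs x (i + 1) + y * Hs x y i :=
  coeff_geo_mul_succ _ _ _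

/-! ## the partially antisymmetrised characters -/

noncomputable def vq : MvPolynomial (Fin 6) ℤ :=
  (X 0 - X 1) * ((X 0 - X 2) * ((X 1 - X 2) * ((X 0 - X 3) * ((X 1 - X 3) * ((X 2 - X 3) *
    ((X 0 - X 4) * ((X 1 - X 4) * ((X 2 - X 4) * ((X 0 - X 5) * ((X 1 - X 5) *
      (X 2 - X 5)))))))))))

noncomputable def cq (a d : ℕ) : MvPolynomial (Fin 6) ℤ := vq * ple 6 a d

theorem vand_six : vand 6 ℤ = (X 3 - X 4) * (X 3 - X 5) * (X 4 - X 5) * vq := by
  have h0 : Finset.Ioi (0 : Fin 6) = {1, 2, 3, 4, 5} := by decide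
  have h1 : Finset.Ioi (1 : Fin 6) = {2, 3, 4, 5} := by decide
  have h2 : Finset.Ioi (2 : Fin 6) = {3, 4, 5} := by decide
  have h3 : Finset.Ioi (3 : Fin 6) = {4, 5} := by decide
  have h4 : Finset.Ioi (4 : Fin 6) = {5} := by decide
  have h5 : Finset.Ioi (5 : Fin 6) = ∅ := by decide
  rw [vand, Fin.prod_univ_six, h0, h1, h2, h3, h4, h5]
  simp only [Finset.prod_empty, Finset.prod_singleton]
  rw [Finset.prod_insert (by decide), Finset.prod_insert (by decide), Finset.prod_insert (by decide),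
    Finset.prod_insert (by decide), Finset.prod_insert (by decide), Finset.prod_insert (by decide),
    Finset.prod_insert (by decide), Finset.prod_insert (by decide), Finset.prod_insert (by decide),
    Finset.prod_insert (by decide)]
  simp only [Finset.prod_singleton, vq]
  ac_rfl

theorem cc_eq (a d : ℕ) : cc a d = (X 3 - X 4) * (X 3 - X 5) * (X 4 - X 5) * cq a d := by
  rw [cc, vand_six, cq, mul_assoc]

theorem cq_newton (a d : ℕ) :
    (a : MvPolynomial (Fin 6) ℤ) * cq a d =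
      ∑ k ∈ Finset.range a, pk 6 (k + 1) d * cq (a - 1 - k) d := by
  unfold cq
  rw [mul_left_comm, ple_newton, Finset.mul_sum]
  exact Finset.sum_congr rfl fun k _ => mul_left_comm _ _ _

theorem vq_isHomogeneous : vq.IsHomogeneous 12 := by
  have h : ∀ i j : Fin 6, (X i - X j : MvPolynomial (Fin 6) ℤ).IsHomogeneous 1 := fun i j =>
    (isHomogeneous_X ℤ i).sub (isHomogeneous_X ℤ j)
  exact (h _ _).mul ((h _ _).mul ((h _ _).mul ((h _ _).mul ((h _ _).mul ((h _ _).mul ((h _ _).mul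
    ((h _ _).mul ((h _ _).mul ((h _ _).mul ((h _ _).mul (h _ _)))))))))))

theorem cq_isHomogeneous (a d : ℕ) : (cq a d).IsHomogeneous (12 + a * d) :=
  vq_isHomogeneous.mul (ple_isHomogeneous 6 a d)

theorem degreeOf_X_sub_X (i j k : Fin 6) :
    degreeOf k (X i - X j : MvPolynomial (Fin 6) ℤ) ≤ if k = i ∨ k = j then 1 else 0 := by
  refine (degreeOf_sub_le _ _ _).trans ?_
  rw [degreeOf_X, degreeOf_X]
  split_ifs <;> simp_all

theorem degreeOf_vq : degreeOf 1 vq ≤ 5 := by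
  have h : ∀ (i j : Fin 6) (Q : MvPolynomial (Fin 6) ℤ) (c : ℕ), degreeOf 1 Q ≤ c →
      degreeOf 1 ((X i - X j) * Q) ≤ (if 1 = i ∨ 1 = j then 1 else 0) + c := fun i j Q c hc =>
    (degreeOf_mul_le _ _ _).trans (add_le_add (degreeOf_X_sub_X _ _ _) hc)
  exact (h _ _ _ _ (h _ _ _ _ (h _ _ _ _ (h _ _ _ _ (h _ _ _ _ (h _ _ _ _ (h _ _ _ _ (h _ _ _ _
    (h _ _ _ _ (h _ _ _ _ (h _ _ _ _ (degreeOf_X_sub_X 2 5 1)))))))))))).trans (by decide)

theorem degreeOf_cq (a d : ℕ) : degreeOf 1 (cq a d) ≤ a * d + 5 := by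
  refine (degreeOf_mul_le _ _ _).trans ?_
  have h1 := degreeOf_vq
  have h2 := (degreeOf_le_totalDegree (ple 6 a d) 1).trans (ple_isHomogeneous 6 a d).totalDegree_le
  omega

theorem abs_coeff_sub_mul_le (i j : Fin 6) (Q : MvPolynomial (Fin 6) ℤ) (M : ℤ)
    (h : ∀ ν, |coeff ν Q| ≤ M) (ν : Fin 6 →₀ ℕ) : |coeff ν ((X i - X j) * Q)| ≤ 2 * M := by
  classical
  have hM : 0 ≤ M := (abs_nonneg _).trans (h 0)
  have h1 : ∀ i : Fin 6, |coeff ν (X i * Q)| ≤ M := fun i => by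
    rw [coeff_X_mul']
    split_ifs
    · exact h _
    · simpa using hM
  rw [sub_mul, coeff_sub]
  refine (abs_sub _ _).trans ?_
  linarith [h1 i, h1 j]

theorem abs_coeff_vq (ν : Fin 6 →₀ ℕ) : |coeff ν vq| ≤ 2 ^ 12 := by
  classical
  have h0 : ∀ ν : Fin 6 →₀ ℕ, |coeff ν (1 : MvPolynomial (Fin 6) ℤ)| ≤ 1 := fun ν => by
    rw [coeff_one]; split_ifs <;> simp
  have h1 := abs_coeff_sub_mul_le 2 5 1 1 h0
  simp only [mul_one] at h1
  have h := abs_coeff_sub_mul_le 0 1 _ _ (abs_coeff_sub_mul_le 0 2 _ _ (abs_coeff_sub_mul_le 1 2 _ _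
    (abs_coeff_sub_mul_le 0 3 _ _ (abs_coeff_sub_mul_le 1 3 _ _ (abs_coeff_sub_mul_le 2 3 _ _
    (abs_coeff_sub_mul_le 0 4 _ _ (abs_coeff_sub_mul_le 1 4 _ _ (abs_coeff_sub_mul_le 2 4 _ _
    (abs_coeff_sub_mul_le 0 5 _ _ (abs_coeff_sub_mul_le 1 5 _ _ h1)))))))))) ν
  exact h.trans (by norm_num)

theorem abs_coeff_cc_zero (d : ℕ) (ν : Fin 6 →₀ ℕ) : |coeff ν (cc 0 d)| ≤ 2 ^ 15 := by
  rw [cc_eq, cq, ple_zero, mul_one, mul_assoc, mul_assoc]
  exact (abs_coeff_sub_mul_le _ _ _ _ (abs_coeff_sub_mul_le _ _ _ _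
    (abs_coeff_sub_mul_le _ _ _ _ abs_coeff_vq)) ν).trans (by norm_num)

theorem cc_isHomogeneous (a d : ℕ) : (cc a d).IsHomogeneous (15 + a * d) := by
  have h : ∀ i j : Fin 6, (X i - X j : MvPolynomial (Fin 6) ℤ).IsHomogeneous 1 := fun i j =>
    (isHomogeneous_X ℤ i).sub (isHomogeneous_X ℤ j)
  have := (((h 3 4).mul (h 3 5)).mul (h 4 5)).mul (cq_isHomogeneous a d)
  rw [← cc_eq, show 1 + 1 + 1 + (12 + a * d) = 15 + a * d by omega] at this
  exact this

theorem degreeOf_cc (a d : ℕ) : degreeOf 1 (cc a d) ≤ a * d + 5 := by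
  rw [degreeOf_le_iff]
  intro ν hν
  exact (cc_support (mem_support_iff.1 hν)).2 1

/-! ## digits of the table entries -/

/-- the coefficient sitting in slot `i` of the entry with key `(n6, n5, n4)` -/
noncomputable def dg (P : MvPolynomial (Fin 6) ℤ) (D σ n6 n5 n4 i : ℕ) : ℤ :=
  coeff (ex ![D - (i % σ + i / σ + n4 + n5 + n6), i % σ, i / σ, n4, n5, n6]) P

theorem phi_monomial (x y : ℤ) (ν : Fin 6 →₀ ℕ) (c : ℤ) :
    phi x y (monomial ν c) = monomial (ex ![ν 3, ν 4, ν 5]) (c * x ^ ν 1 * y ^ ν 2) := by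
  have : phi x y (monomial ν c) = aeval ![1, C x, C y, X 0, X 1, X 2] (monomial ν c) := rfl
  rw [this, aeval_monomial, Finsupp.prod_fintype _ _ (by simp), monomial_eq,
    Finsupp.prod_fintype _ _ (by simp)]
  simp [Fin.prod_univ_six, Fin.prod_univ_three, mul_assoc]

theorem cf_phi_eq_val {P : MvPolynomial (Fin 6) ℤ} {D σ : ℕ} (hP : P.IsHomogeneous D)
    (hσ : degreeOf 1 P < σ) (w n6 n5 n4 : ℕ) :
    cf (phi (2 ^ w) (2 ^ (w * σ)) P) n6 n5 n4 = val w (dg P D σ n6 n5 n4) (σ * (D + 1)) := by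
  classical
  have hσ0 : 0 < σ := by omega
  have key : ∀ ν ∈ P.support, ∀ c : ℤ,
      cf (phi (2 ^ w) (2 ^ (w * σ)) (monomial ν c)) n6 n5 n4 =
        val w (dg (monomial ν c) D σ n6 n5 n4) (σ * (D + 1)) := by
    intro ν hν c
    have h1 : ν 1 < σ := (monomial_le_degreeOf 1 hν).trans_lt hσ
    have hD : ν 0 + ν 1 + ν 2 + ν 3 + ν 4 + ν 5 = D := by
      have := hP (mem_support_iff.1 hν)
      rw [Finsupp.weight_apply, Finsupp.sum_fintype _ _ (by simp)] at this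
      simpa [Fin.sum_univ_six] using this
    rw [phi_monomial, cf, coeff_monomial, val]
    rw [Finset.sum_eq_single (ν 1 + σ * ν 2)]
    · have e1 : (ν 1 + σ * ν 2) % σ = ν 1 := by
        rw [Nat.add_mul_mod_self_left, Nat.mod_eq_of_lt h1]
      have e2 : (ν 1 + σ * ν 2) / σ = ν 2 := by
        rw [Nat.add_mul_div_left _ _ hσ0, Nat.div_eq_of_lt h1, zero_add]
      rw [dg, coeff_monomial, e1, e2]
      have : (ex ![ν 3, ν 4, ν 5] = ex ![n4, n5, n6]) ↔
          (ν = ex ![D - (ν 1 + ν 2 + n4 + n5 + n6), ν 1, ν 2, n4, n5, n6]) := by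
        simp only [Finsupp.ext_iff, Fin.forall_fin_succ, ex_apply]
        simp
        omega
      by_cases h : ex ![ν 3, ν 4, ν 5] = ex ![n4, n5, n6]
      · rw [if_pos h, if_pos (this.1 h), mul_add, pow_add, ← pow_mul, ← pow_mul, mul_assoc,
          mul_assoc]
      · rw [if_neg h, if_neg (fun h' => h (this.2 h')), zero_mul]
    · intro i _ hi
      rw [dg, coeff_monomial, if_neg, zero_mul]
      intro h
      apply hi
      have e1 : ν 1 = i % σ := by rw [h]; simp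
      have e2 : ν 2 = i / σ := by rw [h]; simp
      rw [e1, e2, Nat.mod_add_div]
    · intro h
      exfalso; apply h
      rw [Finset.mem_range]
      have : σ * (ν 2 + 1) ≤ σ * (D + 1) := Nat.mul_le_mul_left _ (by omega)
      rw [mul_add] at this; omega
  have hv : val w (dg P D σ n6 n5 n4) (σ * (D + 1)) =
      ∑ ν ∈ P.support, val w (dg (monomial ν (coeff ν P)) D σ n6 n5 n4) (σ * (D + 1)) := by
    unfold val
    rw [Finset.sum_comm]
    refine Finset.sum_congr rfl fun i _ => ?_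
    rw [← Finset.sum_mul]
    congr 1
    unfold dg
    rw [← coeff_sum, ← as_sum]
  rw [hv]
  conv_lhs => rw [as_sum P, map_sum, cf_sum]
  exact Finset.sum_congr rfl fun ν hν => key ν hν _

/-- truncated version -/
theorem cf_phi_modEq {P : MvPolynomial (Fin 6) ℤ} {D σ : ℕ} (hP : P.IsHomogeneous D)
    (hσ : degreeOf 1 P < σ) (w n6 n5 n4 R : ℕ) :
    cf (phi (2 ^ w) (2 ^ (w * σ)) P) n6 n5 n4 ≡ val w (dg P D σ n6 n5 n4) (σ * R)
      [ZMOD 2 ^ (w * (σ * R))] := by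
  rw [cf_phi_eq_val hP hσ]
  have hσ0 : 0 < σ := by omega
  rcases le_total R (D + 1) with h | h
  · exact val_modEq _ _ (Nat.mul_le_mul_left _ h)
  · obtain ⟨c, rfl⟩ := Nat.exists_eq_add_of_le h
    rw [mul_add σ (D + 1), val_split]
    have : val w (fun i => dg P D σ n6 n5 n4 (σ * (D + 1) + i)) (σ * c) = 0 := by
      refine Finset.sum_eq_zero fun i _ => ?_
      beta_reduce
      rw [dg, hP.coeff_eq_zero, zero_mul]
      have h1 : D + 1 ≤ (σ * (D + 1) + i) / σ := by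
        rw [Nat.le_div_iff_mul_le hσ0, mul_comm]; omega
      rw [Finsupp.degree_eq_sum, Fin.sum_univ_six]
      simp only [ex_apply]
      simp
      omega
    rw [this, mul_zero, add_zero]

theorem cf_phi_swap34 (x y : ℤ) {P : MvPolynomial (Fin 6) ℤ}
    (h : rename (Equiv.swap (3 : Fin 6) 4) P = -P) (n6 n5 n4 : ℕ) :
    cf (phi x y P) n6 n5 n4 = -cf (phi x y P) n6 n4 n5 := by
  have h1 : rename (Equiv.swap (0 : Fin 3) 1) (phi x y P) = -phi x y P := by
    rw [← map_neg, ← h]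
    have : (rename (Equiv.swap (0 : Fin 3) 1)).toRingHom.comp (phi x y) =
        (phi x y).comp (rename (Equiv.swap (3 : Fin 6) 4)).toRingHom := by
      apply MvPolynomial.ringHom_ext
      · intro r; simp
      · intro i; fin_cases i <;> simp [phi, Equiv.swap_apply_def]
    exact congrArg (fun f => f P) this
  have h2 := coeff_rename_mapDomain (Equiv.swap (0 : Fin 3) 1) (Equiv.injective _) (phi x y P)
    (ex ![n5, n4, n6])
  rw [h1, coeff_neg] at h2
  unfold cf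
  rw [← h2, neg_neg]
  congr 1
  ext i
  rw [Finsupp.mapDomain_equiv_apply]
  fin_cases i <;> simp [Equiv.swap_apply_def]

theorem cf_phi_swap45 (x y : ℤ) {P : MvPolynomial (Fin 6) ℤ}
    (h : rename (Equiv.swap (4 : Fin 6) 5) P = -P) (n6 n5 n4 : ℕ) :
    cf (phi x y P) n6 n5 n4 = -cf (phi x y P) n5 n6 n4 := by
  have h1 : rename (Equiv.swap (1 : Fin 3) 2) (phi x y P) = -phi x y P := by
    rw [← map_neg, ← h]
    have : (rename (Equiv.swap (1 : Fin 3) 2)).toRingHom.comp (phi x y) =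
        (phi x y).comp (rename (Equiv.swap (4 : Fin 6) 5)).toRingHom := by
      apply MvPolynomial.ringHom_ext
      · intro r; simp
      · intro i; fin_cases i <;> simp [phi, Equiv.swap_apply_def]
    exact congrArg (fun f => f P) this
  have h2 := coeff_rename_mapDomain (Equiv.swap (1 : Fin 3) 2) (Equiv.injective _) (phi x y P)
    (ex ![n4, n6, n5])
  rw [h1, coeff_neg] at h2
  unfold cf
  rw [← h2, neg_neg]
  congr 1
  ext i
  rw [Finsupp.mapDomain_equiv_apply]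
  fin_cases i <;> simp [Equiv.swap_apply_def]

theorem coeff_swap {P : MvPolynomial (Fin 6) ℤ} {i j : Fin 6}
    (h : rename (Equiv.swap i j) P = -P) (f : Fin 6 → ℕ) :
    coeff (ex f) P = -coeff (ex fun k => f (Equiv.swap i j k)) P := by
  have h2 := coeff_rename_mapDomain (Equiv.swap i j) (Equiv.injective _) P
    (ex fun k => f (Equiv.swap i j k))
  rw [h, coeff_neg] at h2
  rw [← h2, neg_neg]
  congr 1
  ext k
  rw [Finsupp.mapDomain_equiv_apply]
  simp

theorem cf_phi_vq (x y : ℤ) (n6 n5 n4 : ℕ) :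
    cf (phi x y vq) n6 n5 n4 =
      (1 - x) * (1 - y) * (x - y) * (qc x y n4 * qc x y n5 * qc x y n6) := by
  let U : Polynomial ℤ := Polynomial.C (x * y) - Polynomial.C (x + y + x * y) * Polynomial.X +
    Polynomial.C (1 + x + y) * Polynomial.X ^ 2 - Polynomial.X ^ 3
  have hU : ∀ m, U.coeff m = qc x y m := by
    intro m
    simp only [U, Polynomial.coeff_sub, Polynomial.coeff_add, Polynomial.coeff_C_mul,
      Polynomial.coeff_C, Polynomial.coeff_X, Polynomial.coeff_X_pow]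
    rcases m with _ | _ | _ | _ | m <;> simp [qc]
  have hA : ∀ j : Fin 3, Polynomial.aeval (X j : MvPolynomial (Fin 3) ℤ) U =
      (1 - X j) * ((C x - X j) * (C y - X j)) := fun j => by
    simp [U]
    ring
  have h1 : phi x y vq = C ((1 - x) * (1 - y) * (x - y)) *
      ∏ j : Fin 3, Polynomial.aeval (X j : MvPolynomial (Fin 3) ℤ) U := by
    have e0 : phi x y (X 0) = 1 := by simp [phi]
    have e1 : phi x y (X 1) = C x := by simp [phi]
    have e2 : phi x y (X 2) = C y := by simp [phi]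
    have e3 : phi x y (X 3) = X 0 := by simp [phi]
    have e4 : phi x y (X 4) = X 1 := by simp [phi]
    have e5 : phi x y (X 5) = X 2 := by simp [phi]
    simp only [vq, map_mul, map_sub, Fin.prod_univ_three, hA, e0, e1, e2, e3, e4, e5, map_one, mul_assoc]
  rw [h1, cf_C_mul, cf, coeff_prod_aeval (fun _ => U), Fin.prod_univ_three]
  simp [hU]

/-- extraction of the fully antisymmetrised entries -/
theorem cf_phi_cc (x y : ℤ) (a d l6 l5 l4 : ℕ) :
    cf (phi x y (cc a d)) l6 (l5 + 1) (l4 + 2) =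
      let F := cf (phi x y (cq a d))
      F l6 l5 l4 + (if 2 ≤ l6 then F (l6 - 2) (l5 + 1) (l4 + 1) else 0) +
        (if 1 ≤ l5 ∧ 1 ≤ l6 then F (l6 - 1) (l5 - 1) (l4 + 2) else 0) -
        ((if 1 ≤ l5 then F l6 (l5 - 1) (l4 + 1) else 0) +
          (if 1 ≤ l6 then F (l6 - 1) (l5 + 1) l4 else 0) +
          (if 2 ≤ l6 then F (l6 - 2) l5 (l4 + 2) else 0)) := by
  have h : phi x y (cc a d) =
      X 0 ^ 2 * X 1 ^ 1 * X 2 ^ 0 * phi x y (cq a d) + X 0 ^ 1 * X 1 ^ 0 * X 2 ^ 2 * phi x y (cq a d) +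
        X 0 ^ 0 * X 1 ^ 2 * X 2 ^ 1 * phi x y (cq a d) -
      (X 0 ^ 1 * X 1 ^ 2 * X 2 ^ 0 * phi x y (cq a d) + X 0 ^ 2 * X 1 ^ 0 * X 2 ^ 1 * phi x y (cq a d) +
        X 0 ^ 0 * X 1 ^ 1 * X 2 ^ 2 * phi x y (cq a d)) := by
    rw [cc_eq, map_mul]
    generalize phi x y (cq a d) = Q
    simp [phi]
    ring
  rw [h]
  simp only [cf_sub, cf_add, cf_mono_mul]
  simp [show l5 + 1 - 2 = l5 - 1 by omega, show (2 ≤ l5 + 1) ↔ 1 ≤ l5 by omega]

theorem cf_phi_cc_zero (x y : ℤ) (d l6 l5 l4 : ℕ) :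
    cf (phi x y (cc 0 d)) l6 (l5 + 1) (l4 + 2) = c0 x y l6 l5 l4 := by
  have h : cf (phi x y (cq 0 d)) = f0 x y := by
    funext a b c
    rw [cq, ple_zero, mul_one, cf_phi_vq, f0]
  rw [cf_phi_cc, h]
  rfl

end Crest.Agent.R187
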