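import Crest.Agent.R187.DPDef
import Crest.Agent.R187.DataS
import Crest.Agent.R187.DataR

/-! The runs. -/

set_option autoImplicit false

namespace Crest.Agent.R187

noncomputable def rF : RunD := ⟨bF, TF, 6, 48, 96, 15⟩
noncomputable def rM : RunD := ⟨bM, TM, 6, 52, 114, 18⟩
noncomputable def rN : RunD := ⟨bN, TN, 6, 54, 144, 23⟩
noncomputable def rT : RunD := ⟨bT, TT, 6, 52, 180, 29⟩

noncomputable def runsS : List RunD := [RunD.nil, rF, rM, rN, rT]

noncomputable def rR7 : RunD := ⟨bR7, TR7, 7, 16, 48, 6⟩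
noncomputable def rR8 : RunD := ⟨bR8, TR8, 8, 17, 54, 6⟩
noncomputable def rR9 : RunD := ⟨bR9, TR9, 9, 18, 60, 6⟩
noncomputable def rR10 : RunD := ⟨bR10, TR10, 10, 20, 66, 6⟩
noncomputable def rR11 : RunD := ⟨bR11, TR11, 11, 22, 72, 6⟩
noncomputable def rR12 : RunD := ⟨bR12, TR12, 12, 22, 78, 6⟩
noncomputable def rR13 : RunD := ⟨bR13, TR13, 13, 24, 84, 6⟩
noncomputable def rR14 : RunD := ⟨bR14, TR14, 14, 24, 90, 6⟩
noncomputable def rR15 : RunD := ⟨bR15, TR15, 15, 25, 96, 6⟩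
noncomputable def rR16 : RunD := ⟨bR16, TR16, 16, 26, 102, 6⟩
noncomputable def rR17 : RunD := ⟨bR17, TR17, 17, 27, 108, 6⟩
noncomputable def rR18 : RunD := ⟨bR18, TR18, 18, 28, 114, 6⟩
noncomputable def rR19 : RunD := ⟨bR19, TR19, 19, 28, 120, 6⟩
noncomputable def rR20 : RunD := ⟨bR20, TR20, 20, 28, 126, 6⟩
noncomputable def rR21 : RunD := ⟨bR21, TR21, 21, 30, 132, 6⟩
noncomputable def rR22 : RunD := ⟨bR22, TR22, 22, 30, 138, 6⟩
noncomputable def rR23 : RunD := ⟨bR23, TR23, 23, 31, 144, 6⟩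
noncomputable def rR24 : RunD := ⟨bR24, TR24, 24, 31, 150, 6⟩
noncomputable def rR25 : RunD := ⟨bR25, TR25, 25, 32, 156, 6⟩
noncomputable def rR26 : RunD := ⟨bR26, TR26, 26, 32, 162, 6⟩
noncomputable def rR27 : RunD := ⟨bR27, TR27, 27, 32, 168, 6⟩
noncomputable def rR28 : RunD := ⟨bR28, TR28, 28, 32, 174, 6⟩
noncomputable def rR29 : RunD := ⟨bR29, TR29, 29, 34, 180, 6⟩

noncomputable def runsR : List RunD :=
  [RunD.nil, RunD.nil, RunD.nil, RunD.nil, RunD.nil, RunD.nil, RunD.nil,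
   rR7, rR8, rR9, rR10, rR11, rR12, rR13, rR14, rR15, rR16, rR17, rR18, rR19, rR20, rR21, rR22, rR23, rR24, rR25, rR26, rR27, rR28, rR29]

noncomputable def fR7 : Nat → Bool :=
  chkIdx bR7 TR7 7 16 768 6 6 9 13859 7 10 13
noncomputable def fR8 : Nat → Bool :=
  chkIdx bR8 TR8 8 17 918 6 6 10 18395 7 11 15
noncomputable def fR9 : Nat → Bool :=
  chkIdx bR9 TR9 9 18 1080 6 7 12 23795 3 10 16
noncomputable def fR10 : Nat → Bool :=
  chkIdx bR10 TR10 10 20 1320 6 8 13 31715 2 5 18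
noncomputable def fR11 : Nat → Bool :=
  chkIdx bR11 TR11 11 22 1584 6 9 14 41219 2 5 19
noncomputable def fR12 : Nat → Bool :=
  chkIdx bR12 TR12 12 22 1716 6 9 15 48083 2 4 21
noncomputable def fR13 : Nat → Bool :=
  chkIdx bR13 TR13 13 24 2016 6 10 15 60515 2 4 9
noncomputable def fR14 : Nat → Bool :=
  chkIdx bR14 TR14 14 24 2160 6 10 16 69155 2 4 8
noncomputable def fR15 : Nat → Bool :=
  chkIdx bR15 TR15 15 25 2400 6 11 17 81635 2 4 8
noncomputable def fR16 : Nat → Bool :=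
  chkIdx bR16 TR16 16 26 2652 6 11 17 95507 2 4 8
noncomputable def fR17 : Nat → Bool :=
  chkIdx bR17 TR17 17 27 2916 6 12 17 110843 2 4 8
noncomputable def fR18 : Nat → Bool :=
  chkIdx bR18 TR18 18 28 3192 6 12 18 127715 2 4 8
noncomputable def fR19 : Nat → Bool :=
  chkIdx bR19 TR19 19 28 3360 6 12 17 141155 2 4 8
noncomputable def fR20 : Nat → Bool :=
  chkIdx bR20 TR20 20 28 3528 6 12 18 155267 2 4 8
noncomputable def fR21 : Nat → Bool :=
  chkIdx bR21 TR21 21 30 3960 6 13 19 182195 2 4 8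
noncomputable def fR22 : Nat → Bool :=
  chkIdx bR22 TR22 22 30 4140 6 13 19 198755 2 4 8
noncomputable def fR23 : Nat → Bool :=
  chkIdx bR23 TR23 23 31 4464 6 14 20 223235 2 4 8
noncomputable def fR24 : Nat → Bool :=
  chkIdx bR24 TR24 24 31 4650 6 14 20 241835 2 4 8
noncomputable def fR25 : Nat → Bool :=
  chkIdx bR25 TR25 25 32 4992 6 14 19 269603 2 4 8
noncomputable def fR26 : Nat → Bool :=
  chkIdx bR26 TR26 26 32 5184 6 14 20 290339 2 4 8
noncomputable def fR27 : Nat → Bool :=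
  chkIdx bR27 TR27 27 32 5376 6 14 20 107555 2 4 8
noncomputable def fR28 : Nat → Bool :=
  chkIdx bR28 TR28 28 32 5568 6 14 20 111395 2 4 8
noncomputable def fR29 : Nat → Bool :=
  chkIdx bR29 TR29 29 34 6120 6 15 20 122435 2 4 8
noncomputable def fF : Nat → Bool :=
  chkIdx bF TF 6 48 4608 15 39 43 156752 15 20 25
noncomputable def fM : Nat → Bool :=
  chkIdx bM TM 6 52 5928 18 43 35 237215 2 6 30
noncomputable def fN : Nat → Bool :=
  chkIdx bN TN 6 54 7776 23 45 42 388920 2 4 13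
noncomputable def fT : Nat → Bool :=
  chkIdx bT TT 6 52 9360 29 43 43 580470 3 6 10
noncomputable def fD : Nat → Bool := pairChk runsS runsR gensL MS DT DI DB
noncomputable def fM6 : Nat → Bool := msChk MS

end Crest.Agent.R187
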