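import Crest.Agent.R187.Newton
import Crest.Agent.R187.Char

/-! The stable upper bound for the multiplicities in `Sym^6 (Sym^b)`. -/

set_option autoImplicit false

open MvPolynomial

namespace Crest.Agent.R187

/-- `col q m = (u_m, u_{m-1}, …, u_{m-4})` where `∑ u_m t^m = 1 / (1 + q 0 t + … + q 4 t^5)` -/
def col (q : Fin 5 → ℤ) : ℕ → Fin 5 → ℤ
  | 0 => ![1, 0, 0, 0, 0]
  | m + 1 =>
    ![-(q 0 * col q m 0 + q 1 * col q m 1 + q 2 * col q m 2 + q 3 * col q m 3 + q 4 * col q m 4),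
      col q m 0, col q m 1, col q m 2, col q m 3]

theorem col_zero (q : Fin 5 → ℤ) : col q 0 = ![1, 0, 0, 0, 0] := rfl

theorem col_succ (q : Fin 5 → ℤ) (m : ℕ) : col q (m + 1) =
    ![-(q 0 * col q m 0 + q 1 * col q m 1 + q 2 * col q m 2 + q 3 * col q m 3 + q 4 * col q m 4),
      col q m 0, col q m 1, col q m 2, col q m 3] := rfl

/-- conjugacy classes of `S_6`: size and coefficients of `∏_i (1 - t^{ρ_i}) / (1 - t)`, for the
cycle types `1^6, 2 1^4, 2^2 1^2, 2^3, 3 1^3, 3 2 1, 3^2, 4 1^2, 4 2, 5 1, 6` -/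
def classes : List (ℤ × (Fin 5 → ℤ)) :=
  [(1, ![-5, 10, -10, 5, -1]),
   (15, ![-3, 2, 2, -3, 1]),
   (45, ![-1, -2, 2, 1, -1]),
   (15, ![1, -2, -2, 1, 1]),
   (40, ![-2, 1, -1, 2, -1]),
   (120, ![0, -1, -1, 0, 1]),
   (40, ![1, 1, -1, -1, -1]),
   (90, ![-1, 0, 0, -1, 1]),
   (90, ![1, 0, 0, -1, -1]),
   (144, ![0, 0, 0, 0, -1]),
   (120, ![1, 1, 1, 1, 1])]

def dcls (q : Fin 5 → ℤ) (ν : Fin 5 → ℕ) : ℤ :=
  (Matrix.of fun i j : Fin 5 => col q (ν j) i.rev).det

/-- `720` times the stable multiplicity -/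
def ubZ (ν : Fin 5 → ℕ) : ℤ := (classes.map fun c => c.1 * dcls c.2 ν).sum

/-- the matrix for `ν + 1` is a companion matrix (determinant `- q 4`) times the matrix for `ν` -/
theorem dcls_succ (q : Fin 5 → ℤ) (ν : Fin 5 → ℕ) :
    dcls q (fun j => ν j + 1) = - q 4 * dcls q ν := by
  have h : (Matrix.of fun i j : Fin 5 => col q (ν j + 1) i.rev) =
      (!![0, 1, 0, 0, 0; 0, 0, 1, 0, 0; 0, 0, 0, 1, 0; 0, 0, 0, 0, 1;
        -q 4, -q 3, -q 2, -q 1, -q 0] : Matrix (Fin 5) (Fin 5) ℤ) *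
        Matrix.of fun i j : Fin 5 => col q (ν j) i.rev := by
    ext i j
    have r0 : (0 : Fin 5).rev = 4 := rfl
    have r1 : (1 : Fin 5).rev = 3 := rfl
    have r2 : (2 : Fin 5).rev = 2 := rfl
    have r3 : (3 : Fin 5).rev = 1 := rfl
    have r4 : (4 : Fin 5).rev = 0 := rfl
    rw [Matrix.mul_apply, Fin.sum_univ_five]
    simp only [Matrix.of_apply, col_succ, r0, r1, r2, r3, r4]
    fin_cases i <;> simp [r0, r1, r2, r3, r4]
    ring
  have hd : (!![0, 1, 0, 0, 0; 0, 0, 1, 0, 0; 0, 0, 0, 1, 0; 0, 0, 0, 0, 1;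
      -q 4, -q 3, -q 2, -q 1, -q 0] : Matrix (Fin 5) (Fin 5) ℤ).det = - q 4 := by
    simp [Matrix.det_succ_row_zero, Fin.sum_univ_succ, Fin.succAbove]
  unfold dcls
  rw [h, Matrix.det_mul, hd]

theorem Stable_dcls_two (q : Fin 5 → ℤ) (hq : q 4 * q 4 = 1) (ν : Fin 5 → ℕ) (t : ℕ) :
    dcls q (fun j => ν j + 2 * t) = dcls q ν := by
  induction t with
  | zero => rfl
  | succ t ih =>
    have h1 := dcls_succ q (fun j => ν j + 2 * t + 1)
    have h2 := dcls_succ q (fun j => ν j + 2 * t)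
    have h3 : (fun j => ν j + 2 * (t + 1)) = fun j => ν j + 2 * t + 1 + 1 := by
      funext j; ring
    rw [h3, h1, h2, ih]
    linear_combination dcls q ν * hq

theorem ubZ_add_two_mul (ν : Fin 5 → ℕ) (t : ℕ) : ubZ (fun j => ν j + 2 * t) = ubZ ν := by
  unfold ubZ
  congr 1
  refine List.map_congr_left fun c hc => ?_
  rw [Stable_dcls_two _ ?_]
  revert c
  decide

/-- from `ple_newton` for `a = 1, …, 6` -/
theorem ple_six (n d : ℕ) : (720 : MvPolynomial (Fin n) ℤ) * ple n 6 d =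
    pk n 1 d ^ 6 + 15 * (pk n 2 d * pk n 1 d ^ 4) + 45 * (pk n 2 d ^ 2 * pk n 1 d ^ 2) +
      15 * pk n 2 d ^ 3 + 40 * (pk n 3 d * pk n 1 d ^ 3) + 120 * (pk n 3 d * pk n 2 d * pk n 1 d) +
      40 * pk n 3 d ^ 2 + 90 * (pk n 4 d * pk n 1 d ^ 2) + 90 * (pk n 4 d * pk n 2 d) +
      144 * (pk n 5 d * pk n 1 d) + 120 * pk n 6 d := by
  have n1 := ple_newton n 1 d
  have n2 := ple_newton n 2 d
  have n3 := ple_newton n 3 d
  have n4 := ple_newton n 4 d
  have n5 := ple_newton n 5 d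
  have n6 := ple_newton n 6 d
  simp only [Finset.sum_range_succ, Finset.range_zero, Finset.sum_empty, zero_add, Nat.reduceAdd,
    Nat.reduceSub, ple_zero, mul_one, Nat.cast_ofNat, Nat.cast_one, one_mul, Nat.sub_zero,
    Nat.sub_self] at n1 n2 n3 n4 n5 n6
  have e2 : 2 * ple n 2 d = pk n 1 d ^ 2 + pk n 2 d := by
    linear_combination n2 + pk n 1 d * n1
  have e3 : 6 * ple n 3 d = pk n 1 d ^ 3 + 3 * (pk n 2 d * pk n 1 d) + 2 * pk n 3 d := by
    linear_combination 2 * n3 + pk n 1 d * e2 + 2 * pk n 2 d * n1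
  have e4 : 24 * ple n 4 d = pk n 1 d ^ 4 + 6 * (pk n 2 d * pk n 1 d ^ 2) + 3 * pk n 2 d ^ 2 +
      8 * (pk n 3 d * pk n 1 d) + 6 * pk n 4 d := by
    linear_combination 6 * n4 + pk n 1 d * e3 + 3 * pk n 2 d * e2 + 6 * pk n 3 d * n1
  have e5 : 120 * ple n 5 d = pk n 1 d ^ 5 + 10 * (pk n 2 d * pk n 1 d ^ 3) +
      15 * (pk n 2 d ^ 2 * pk n 1 d) + 20 * (pk n 3 d * pk n 1 d ^ 2) +
      20 * (pk n 3 d * pk n 2 d) + 30 * (pk n 4 d * pk n 1 d) + 24 * pk n 5 d := by
    linear_combination 24 * n5 + pk n 1 d * e4 + 4 * pk n 2 d * e3 + 12 * pk n 3 d * e2 +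
      24 * pk n 4 d * n1
  linear_combination 120 * n6 + pk n 1 d * e5 + 5 * pk n 2 d * e4 + 20 * pk n 3 d * e3 +
    60 * pk n 4 d * e2 + 120 * pk n 5 d * n1

/-- dehomogenisation -/
noncomputable def Stable_psi : MvPolynomial (Fin 6) ℤ →ₐ[ℤ] MvPolynomial (Fin 5) ℤ :=
  aeval (Fin.cons 1 X : Fin 6 → MvPolynomial (Fin 5) ℤ)

theorem Stable_psi_monomial (α : Fin 6 →₀ ℕ) (c : ℤ) :
    Stable_psi (monomial α c) = monomial α.tail c := by
  rw [Stable_psi, aeval_monomial, Finsupp.prod_fintype _ _ (fun _ => pow_zero _), Fin.prod_univ_succ,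
    monomial_eq, Finsupp.prod_fintype _ _ (fun _ => pow_zero _)]
  simp [Finsupp.tail_apply]

theorem Stable_eq_of_tail {α β : Fin 6 →₀ ℕ} (h : ∑ i, α i = ∑ i, β i) (ht : α.tail = β.tail) :
    α = β := by
  have h1 : ∀ j : Fin 5, α j.succ = β j.succ := fun j => by
    rw [← Finsupp.tail_apply, ← Finsupp.tail_apply, ht]
  ext i
  refine Fin.cases ?_ h1 i
  rw [Fin.sum_univ_succ, Fin.sum_univ_succ (fun i => β i), Finset.sum_congr rfl fun j _ => h1 j] at h
  exact Nat.add_right_cancel h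

theorem Stable_coeff_psi {P : MvPolynomial (Fin 6) ℤ} {ν : Fin 6 →₀ ℕ}
    (h : ∀ α, coeff α P ≠ 0 → ∑ i, α i = ∑ i, ν i) :
    coeff ν.tail (Stable_psi P) = coeff ν P := by
  conv_lhs => rw [P.as_sum, map_sum, coeff_sum]
  simp only [Stable_psi_monomial, coeff_monomial]
  rw [Finset.sum_eq_single ν]
  · simp
  · intro α hα hne
    rw [if_neg]
    exact fun ht => hne (Stable_eq_of_tail (h α (mem_support_iff.1 hα)) ht)
  · intro hν
    simpa using hν

theorem Stable_psi_vand : Stable_psi (vand 6 ℤ) = (∏ j : Fin 5, (1 - X j)) * vand 5 ℤ := by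
  rw [vand, Fin.prod_univ_succ, Fin.prod_Ioi_zero, map_mul, map_prod, map_prod, vand]
  congr 1
  · refine Finset.prod_congr rfl fun j _ => ?_
    simp [Stable_psi]
  · refine Finset.prod_congr rfl fun j _ => ?_
    rw [Fin.prod_Ioi_succ, map_prod]
    refine Finset.prod_congr rfl fun k _ => ?_
    simp [Stable_psi]

/-- polynomials without terms of degree `≤ d` -/
def Stable_I (d : ℕ) : Ideal (MvPolynomial (Fin 5) ℤ) where
  carrier := {P | ∀ μ : Fin 5 →₀ ℕ, ∑ j, μ j ≤ d → coeff μ P = 0}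
  zero_mem' := fun _ _ => rfl
  add_mem' := fun {a b} ha hb μ hμ => by rw [coeff_add, ha μ hμ, hb μ hμ, add_zero]
  smul_mem' := fun c P hP μ hμ => by
    rw [smul_eq_mul, coeff_mul]
    refine Finset.sum_eq_zero fun x hx => ?_
    rw [hP x.2 ?_, mul_zero]
    refine le_trans (Finset.sum_le_sum fun j _ => ?_) hμ
    have hx' : x.1 + x.2 = μ := by simpa using hx
    rw [← hx']
    simp

/-- the truncated geometric series -/
noncomputable def Stable_G (d k : ℕ) : Polynomial ℤ :=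
  ∑ m ∈ Finset.range (d + 1), (Polynomial.X ^ k) ^ m

theorem Stable_coeff_G {d k : ℕ} (hk : 0 < k) {m : ℕ} (hm : m ≤ d) :
    (Stable_G d k).coeff m = if k ∣ m then 1 else 0 := by
  rw [Stable_G, Polynomial.finsetSum_coeff]
  simp only [← pow_mul, Polynomial.coeff_X_pow]
  split_ifs with h
  · obtain ⟨c, rfl⟩ := h
    rw [Finset.sum_eq_single c]
    · simp
    · intro b _ hb
      rw [if_neg]
      exact fun h => hb (Nat.eq_of_mul_eq_mul_left hk h).symm
    · intro hc
      exfalso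
      apply hc
      rw [Finset.mem_range]
      have := Nat.le_mul_of_pos_left c hk
      omega
  · refine Finset.sum_eq_zero fun b _ => if_neg ?_
    rintro rfl
    exact h (dvd_mul_right _ _)

theorem Stable_psi_pk {d k : ℕ} (hk : 0 < k) :
    Stable_psi (pk 6 k d) -
      ∏ j, Polynomial.aeval (X j : MvPolynomial (Fin 5) ℤ) (Stable_G d k) ∈ Stable_I d := by
  intro μ hμ
  have hle : ∀ j, μ j ≤ d := fun j =>
    le_trans (Finset.single_le_sum (f := fun j => μ j) (fun _ _ => Nat.zero_le _)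
      (Finset.mem_univ j)) hμ
  rw [coeff_sub, sub_eq_zero, coeff_prod_aeval, pk, map_sum, coeff_sum]
  simp only [Stable_psi_monomial, coeff_monomial]
  rw [Finset.prod_congr rfl fun j _ => Stable_coeff_G hk (hle j)]
  by_cases h : ∀ j, k ∣ μ j
  · rw [Finset.prod_congr rfl fun j _ => if_pos (h j), Finset.prod_const_one]
    choose c hc using h
    have hcd : ∑ j, c j ≤ d := by
      refine le_trans (Finset.sum_le_sum fun j _ => ?_) hμ
      rw [hc j]
      exact Nat.le_mul_of_pos_left _ hk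
    have hmem : ex (Fin.cons (d - ∑ j, c j) c : Fin 6 → ℕ) ∈ mons 6 d := by
      rw [mem_mons, Fin.sum_univ_succ]
      simp only [ex_apply, Fin.cons_zero, Fin.cons_succ]
      omega
    have htail : (k • ex (Fin.cons (d - ∑ j, c j) c : Fin 6 → ℕ)).tail = μ := by
      ext j
      rw [Finsupp.tail_apply, hc j]
      simp
    rw [Finset.sum_eq_single_of_mem _ hmem, if_pos htail]
    intro α hα hne
    rw [if_neg]
    intro ht
    apply hne
    refine Stable_eq_of_tail ((mem_mons.1 hα).trans (mem_mons.1 hmem).symm) ?_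
    ext j
    have h1 := DFunLike.congr_fun (ht.trans htail.symm) j
    simp only [Finsupp.tail_apply, Finsupp.smul_apply, smul_eq_mul] at h1 ⊢
    exact Nat.eq_of_mul_eq_mul_left hk h1
  · obtain ⟨j, hj⟩ := not_forall.1 h
    rw [Finset.prod_eq_zero (Finset.mem_univ j) (if_neg hj)]
    refine Finset.sum_eq_zero fun α _ => if_neg ?_
    rintro rfl
    apply hj
    rw [Finsupp.tail_apply, Finsupp.smul_apply, smul_eq_mul]
    exact dvd_mul_right _ _

theorem Stable_psi_list (d : ℕ) (L : List ℕ) (hL : ∀ k ∈ L, 0 < k) :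
    Ideal.Quotient.mk (Stable_I d) (Stable_psi (L.map fun k => pk 6 k d).prod) =
      Ideal.Quotient.mk (Stable_I d) (∏ j, Polynomial.aeval (X j : MvPolynomial (Fin 5) ℤ)
        (L.map fun k => Stable_G d k).prod) := by
  induction L with
  | nil => simp
  | cons k L ih =>
    simp only [List.map_cons, List.prod_cons, map_mul, Finset.prod_mul_distrib]
    rw [ih fun k hk => hL k (List.mem_cons_of_mem _ hk),
      Ideal.Quotient.eq.2 (Stable_psi_pk (hL k List.mem_cons_self))]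

theorem Stable_G_list (d : ℕ) (L : List ℕ) (hL : ∀ k ∈ L, 0 < k) :
    Polynomial.X ^ (d + 1) ∣ (L.map fun k => (1 - Polynomial.X ^ k : Polynomial ℤ)).prod *
      (L.map fun k => Stable_G d k).prod - 1 := by
  induction L with
  | nil => simp
  | cons k L ih =>
    have h1 := ih fun k hk => hL k (List.mem_cons_of_mem _ hk)
    have h2 : Polynomial.X ^ (d + 1) ∣ (1 - Polynomial.X ^ k : Polynomial ℤ) * Stable_G d k - 1 := by
      rw [Stable_G, mul_neg_geom_sum, sub_sub_cancel_left, dvd_neg, ← pow_mul]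
      exact pow_dvd_pow _ (Nat.le_mul_of_pos_left _ (hL k List.mem_cons_self))
    simp only [List.map_cons, List.prod_cons]
    convert dvd_add (Dvd.dvd.mul_left h1 ((1 - Polynomial.X ^ k) * Stable_G d k)) h2 using 1
    ring

/-- the polynomial `1 + q 0 t + … + q 4 t^5` -/
noncomputable def Stable_Q (q : Fin 5 → ℤ) : Polynomial ℤ :=
  1 + Polynomial.C (q 0) * Polynomial.X ^ 1 + Polynomial.C (q 1) * Polynomial.X ^ 2 +
    Polynomial.C (q 2) * Polynomial.X ^ 3 + Polynomial.C (q 3) * Polynomial.X ^ 4 +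
    Polynomial.C (q 4) * Polynomial.X ^ 5

theorem Stable_col (q : Fin 5 → ℤ) {d : ℕ} {U : Polynomial ℤ}
    (h : Polynomial.X ^ (d + 1) ∣ Stable_Q q * U - 1) (m : ℕ) (hm : m ≤ d) (r : Fin 5) :
    col q m r = if (r : ℕ) ≤ m then U.coeff (m - r) else 0 := by
  rw [Polynomial.X_pow_dvd_iff] at h
  have hQ : Stable_Q q * U - 1 = U + Polynomial.C (q 0) * (U * Polynomial.X ^ 1) +
      Polynomial.C (q 1) * (U * Polynomial.X ^ 2) + Polynomial.C (q 2) * (U * Polynomial.X ^ 3) +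
      Polynomial.C (q 3) * (U * Polynomial.X ^ 4) + Polynomial.C (q 4) * (U * Polynomial.X ^ 5) - 1 := by
    rw [Stable_Q]; ring
  simp only [hQ, Polynomial.coeff_sub, Polynomial.coeff_add, Polynomial.coeff_C_mul,
    Polynomial.coeff_mul_X_pow', Polynomial.coeff_one] at h
  induction m generalizing r with
  | zero =>
    have h0 := h 0 (by omega)
    simp only [if_false, mul_zero, add_zero, if_true, nonpos_iff_eq_zero,
      one_ne_zero, OfNat.ofNat_ne_zero] at h0
    rw [col_zero]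
    fin_cases r <;> simp
    linarith
  | succ m ih =>
    have h1 := h (m + 1) (by omega)
    have i0 := ih (by omega) 0
    have i1 := ih (by omega) 1
    have i2 := ih (by omega) 2
    have i3 := ih (by omega) 3
    have i4 := ih (by omega) 4
    have v1 : ((1 : Fin 5) : ℕ) = 1 := rfl
    have v2 : ((2 : Fin 5) : ℕ) = 2 := rfl
    have v3 : ((3 : Fin 5) : ℕ) = 3 := rfl
    have v4 : ((4 : Fin 5) : ℕ) = 4 := rfl
    simp only [Fin.val_zero, v1, v2, v3, v4] at i0 i1 i2 i3 i4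
    simp only [Nat.reduceSubDiff,
      Nat.reduceLeDiff, Nat.add_one_ne_zero, if_false, sub_zero] at h1
    rw [col_succ]
    fin_cases r
    · simp only [i0, i1, i2, i3, i4]
      simp
      simp at h1
      linarith
    · simpa using i0
    · simpa using i1
    · simpa using i2
    · simpa using i3

theorem Stable_class (d : ℕ) (ν : Fin 5 → ℕ) (hν : ∑ j, ν j ≤ d) (q : Fin 5 → ℤ) (L : List ℕ)
    (hL : ∀ k ∈ L, 0 < k)
    (hq : Stable_Q q * (1 - Polynomial.X) =
      (L.map fun k => (1 - Polynomial.X ^ k : Polynomial ℤ)).prod) :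
    coeff (ex ν) (Stable_psi (vand 6 ℤ * (L.map fun k => pk 6 k d).prod)) = dcls q ν := by
  set U : Polynomial ℤ := (1 - Polynomial.X) * (L.map fun k => Stable_G d k).prod with hU
  have h1 : Ideal.Quotient.mk (Stable_I d) (Stable_psi (vand 6 ℤ * (L.map fun k => pk 6 k d).prod)) =
      Ideal.Quotient.mk (Stable_I d)
        (vand 5 ℤ * ∏ j, Polynomial.aeval (X j : MvPolynomial (Fin 5) ℤ) U) := by
    have h0 : vand 5 ℤ * ∏ j, Polynomial.aeval (X j : MvPolynomial (Fin 5) ℤ) U =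
        ((∏ j : Fin 5, (1 - X j)) * vand 5 ℤ) * ∏ j, Polynomial.aeval (X j : MvPolynomial (Fin 5) ℤ)
          (L.map fun k => Stable_G d k).prod := by
      simp only [hU, map_mul, map_sub, map_one, Polynomial.aeval_X, Finset.prod_mul_distrib]
      ring
    rw [h0, map_mul, map_mul, Stable_psi_list d L hL, ← map_mul, Stable_psi_vand]
  have h2 := Ideal.Quotient.eq.1 h1 (ex ν) hν
  rw [coeff_sub, sub_eq_zero] at h2
  have h3 : Polynomial.X ^ (d + 1) ∣ Stable_Q q * U - 1 := by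
    rw [hU, ← mul_assoc, hq]
    exact Stable_G_list d L hL
  rw [h2, coeff_vand_mul_prod, dcls]
  congr 1
  ext i j
  have hle : ν j ≤ d :=
    le_trans (Finset.single_le_sum (fun _ _ => Nat.zero_le _) (Finset.mem_univ j)) hν
  have hr : ((i.rev : Fin 5) : ℕ) = rho 5 i := by
    rw [Fin.val_rev, rho]
    omega
  rw [Matrix.of_apply, Matrix.of_apply, Stable_col q h3 _ hle, hr]

/-- Stable value.  Dehomogenise with `ψ = aeval (Fin.cons 1 X)` (for a homogeneous polynomial the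
coefficient of `ν` is the coefficient of the tail of `ν` in its image);
`ψ (vand 6) = ∏_j (1 - x_j) * vand 5`; up to terms of total degree `> d`,
`ψ (pk 6 k d) ≡ ∏_j G_k(x_j)` with `G_k = ∑_{m ≤ d} t^{k m}` (congruence of the coefficients of
degree `≤ d` is compatible with products); then `coeff_vand_mul_prod` with
`U = (1 - t) ∏_i G_{ρ_i}`, whose coefficients of degree `≤ d` are `col q m 0` because
`(1 + q 0 t + … + q 4 t^5) U ≡ 1` modulo `t^(d+1)`. -/
theorem mu_stable (d : ℕ) (l : Fin 6 → ℕ) (hs : ∑ i, l i = 6 * d)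
    (hd : ∑ j : Fin 5, (l j.succ + rho 5 j) ≤ d) :
    720 * mu 6 d l = ubZ fun j => l j.succ + rho 5 j := by
  set ν : Fin 5 → ℕ := fun j => l j.succ + rho 5 j with hν
  let F : MvPolynomial (Fin 6) ℤ →ₗ[ℤ] ℤ :=
    lcoeff ℤ (ex ν) ∘ₗ Stable_psi.toLinearMap ∘ₗ LinearMap.mulLeft ℤ (vand 6 ℤ)
  have hF : ∀ P, F P = coeff (ex ν) (Stable_psi (vand 6 ℤ * P)) := fun _ => rfl
  have h1 : mu 6 d l = F (ple 6 6 d) := by
    have ht : (ex fun i => l i + rho 6 i).tail = ex ν := by
      ext j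
      rw [Finsupp.tail_apply, ex_apply, ex_apply, hν]
      simp only [rho, Fin.val_succ]
      omega
    rw [hF, ← ht, mu]
    refine (Stable_coeff_psi fun α hα => ?_).symm
    rw [(cc_support hα).1]
    simp only [ex_apply, Finset.sum_add_distrib, hs]
    congr 1
  have h2 : (720 : ℤ) • ple 6 6 d =
      (1 : ℤ) • ([1, 1, 1, 1, 1, 1].map fun k => pk 6 k d).prod +
      (15 : ℤ) • ([2, 1, 1, 1, 1].map fun k => pk 6 k d).prod +
      (45 : ℤ) • ([2, 2, 1, 1].map fun k => pk 6 k d).prod +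
      (15 : ℤ) • ([2, 2, 2].map fun k => pk 6 k d).prod +
      (40 : ℤ) • ([3, 1, 1, 1].map fun k => pk 6 k d).prod +
      (120 : ℤ) • ([3, 2, 1].map fun k => pk 6 k d).prod +
      (40 : ℤ) • ([3, 3].map fun k => pk 6 k d).prod +
      (90 : ℤ) • ([4, 1, 1].map fun k => pk 6 k d).prod +
      (90 : ℤ) • ([4, 2].map fun k => pk 6 k d).prod +
      (144 : ℤ) • ([5, 1].map fun k => pk 6 k d).prod +
      (120 : ℤ) • ([6].map fun k => pk 6 k d).prod := by
    simp only [List.map_cons, List.map_nil, List.prod_cons, List.prod_nil, zsmul_eq_mul,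
      Int.cast_ofNat, Int.cast_one]
    linear_combination ple_six 6 d
  have h3 := congrArg F h2
  simp only [map_add, map_smul, smul_eq_mul] at h3
  have hc : ∀ (q : Fin 5 → ℤ) (L : List ℕ), (∀ k ∈ L, 0 < k) →
      Stable_Q q * (1 - Polynomial.X) =
        (L.map fun k => (1 - Polynomial.X ^ k : Polynomial ℤ)).prod →
      F (L.map fun k => pk 6 k d).prod = dcls q ν := fun q L hL hq =>
    Stable_class d ν hd q L hL hq
  rw [h1, h3,
    hc ![-5, 10, -10, 5, -1] _ (by decide) (by simp [Stable_Q]; ring),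
    hc ![-3, 2, 2, -3, 1] _ (by decide) (by simp [Stable_Q]; ring),
    hc ![-1, -2, 2, 1, -1] _ (by decide) (by simp [Stable_Q]; ring),
    hc ![1, -2, -2, 1, 1] _ (by decide) (by simp [Stable_Q]; ring),
    hc ![-2, 1, -1, 2, -1] _ (by decide) (by simp [Stable_Q]; ring),
    hc ![0, -1, -1, 0, 1] _ (by decide) (by simp [Stable_Q]; ring),
    hc ![1, 1, -1, -1, -1] _ (by decide) (by simp [Stable_Q]; ring),
    hc ![-1, 0, 0, -1, 1] _ (by decide) (by simp [Stable_Q]; ring),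
    hc ![1, 0, 0, -1, -1] _ (by decide) (by simp [Stable_Q]; ring),
    hc ![0, 0, 0, 0, -1] _ (by decide) (by simp [Stable_Q, sub_eq_add_neg]),
    hc ![1, 1, 1, 1, 1] _ (by decide) (by simp [Stable_Q]; ring)]
  simp only [ubZ, classes, List.map_cons, List.map_nil, List.sum_cons, List.sum_nil]
  ring

theorem Stable_antitone {l : Fin 6 → ℕ} (hl : Antitone l) (t : ℕ) :
    Antitone (l + Pi.single 0 t : Fin 6 → ℕ) := by
  intro i j hij
  have h1 := hl hij
  by_cases hj : j = 0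
  · subst hj
    rw [Fin.le_zero_iff.1 hij]
  · simp only [Pi.add_apply, Pi.single_eq_of_ne hj]
    omega

theorem Stable_mu_le (b : ℕ) (l : Fin 6 → ℕ) (hl : Antitone l) (t : ℕ) :
    mu 6 b l ≤ mu 6 (b + t) (l + Pi.single 0 (6 * t)) := by
  induction t with
  | zero => simp
  | succ t ih =>
    refine ih.trans ((mu_le_succ 6 (b + t) _ (Stable_antitone hl _)).trans (le_of_eq ?_))
    rw [add_assoc l, ← Pi.single_add]
    rfl

/-- iterate `mu_le_succ`, then `mu_stable` -/
theorem mu_le_ubZ (b : ℕ) (l : Fin 6 → ℕ) (hl : Antitone l) (hs : ∑ i, l i = 6 * b) :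
    720 * mu 6 b l ≤ ubZ fun j => l j.succ + rho 5 j := by
  set t := ∑ j : Fin 5, (l j.succ + rho 5 j) with ht
  have h1 := Stable_mu_le b l hl t
  have h2 : ∀ j : Fin 5, (l + Pi.single 0 (6 * t) : Fin 6 → ℕ) j.succ = l j.succ := fun j => by
    simp
  have h3 := mu_stable (b + t) (l + Pi.single 0 (6 * t))
    (by simp only [Pi.add_apply, Finset.sum_add_distrib, hs, Finset.sum_pi_single',
          Finset.mem_univ, if_true]
        ring)
    (by simp only [h2]; omega)
  simp only [h2] at h3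
  rw [← h3]
  linarith

end Crest.Agent.R187
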