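import Crest.Agent.R187.Run
import Crest.Agent.R187.Stable
import Crest.Agent.R187.DPDef

/-! Soundness of the packed computation of the stable upper bound. -/

set_option autoImplicit false

namespace Crest.Agent.R187

/-! ## more about digits -/

theorem land_shift_eq_dig (w x s : ℕ) :
    Nat.land (Nat.shiftRight x (w * s)) (mask w) = dig w x s := by
  show (x >>> (w * s)) &&& (2 ^ w - 1) = _
  rw [Nat.and_two_pow_sub_one_eq_mod, Nat.shiftRight_eq_div_pow, dig]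

theorem val_nonneg {w n : ℕ} {f : ℕ → ℤ} (h : ∀ i < n, 0 ≤ f i) : 0 ≤ val w f n :=
  Finset.sum_nonneg fun i hi => mul_nonneg (h i (Finset.mem_range.1 hi)) (by positivity)

theorem dig_of_eq_val {w n x : ℕ} {f : ℕ → ℤ} (h : (x : ℤ) = val w f n)
    (hb : ∀ i < n, 0 ≤ f i ∧ f i < 2 ^ w) : ∀ i < n, (dig w x i : ℤ) = f i := fun i hi =>
  (eq_dig' (by rw [h]) hb i hi).symm

theorem dig_add {w a b : ℕ} (h : ∀ i, dig w a i + dig w b i < 2 ^ w) (i : ℕ) :
    dig w (a + b) i = dig w a i + dig w b i := by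
  have h1 : ((a + b : ℕ) : ℤ) ≡ val w (fun i => (dig w a i : ℤ) + dig w b i) (i + 1)
      [ZMOD 2 ^ (w * (i + 1))] := by
    rw [val_add, Nat.cast_add]
    exact (modEq_val_dig w a _).add (modEq_val_dig w b _)
  have := eq_dig' h1 (fun s _ => ⟨by positivity, by exact_mod_cast h s⟩) i (by omega)
  exact_mod_cast this.symm

theorem dig_mul {w a c : ℕ} (h : ∀ i, c * dig w a i < 2 ^ w) (i : ℕ) :
    dig w (c * a) i = c * dig w a i := by
  have h1 : ((c * a : ℕ) : ℤ) ≡ val w (fun i => (c : ℤ) * dig w a i) (i + 1)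
      [ZMOD 2 ^ (w * (i + 1))] := by
    rw [val_mul, Nat.cast_mul]
    exact (modEq_val_dig w a _).mul_left _
  have := eq_dig' h1 (fun s _ => ⟨by positivity, by exact_mod_cast h s⟩) i (by omega)
  exact_mod_cast this.symm

theorem dig_sub {w a b : ℕ} (hw : 0 < w) (h : ∀ i, dig w b i ≤ dig w a i) (i : ℕ) :
    dig w (a - b) i = dig w a i - dig w b i := by
  have hle : b ≤ a := by
    have h0 : ∀ x ≤ a + b, x < 2 ^ (w * (a + b)) := fun x hx =>
      (hx.trans_lt Nat.lt_two_pow_self).trans_le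
        (Nat.pow_le_pow_right (by norm_num) (Nat.le_mul_of_pos_left _ hw))
    have ha := val_dig w a (a + b)
    have hb := val_dig w b (a + b)
    rw [Nat.mod_eq_of_lt (h0 _ (by omega))] at ha hb
    have h2 := val_nonneg (w := w) (n := a + b) (f := fun i => (dig w a i : ℤ) - dig w b i)
      fun i _ => by have := h i; omega
    rw [val_sub, ha, hb] at h2
    omega
  have h1 : ((a - b : ℕ) : ℤ) ≡ val w (fun i => (dig w a i : ℤ) - dig w b i) (i + 1)
      [ZMOD 2 ^ (w * (i + 1))] := by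
    rw [val_sub, Nat.cast_sub hle]
    exact (modEq_val_dig w a _).sub (modEq_val_dig w b _)
  have := eq_dig' h1 (fun s _ => ⟨by have := h s; omega, by
    have h3 : (dig w a s : ℤ) < 2 ^ w := by exact_mod_cast dig_lt w a s
    have h4 : (0 : ℤ) ≤ dig w b s := by positivity
    linarith⟩) i (by omega)
  have h5 := h i
  omega

theorem dig_land_mask (w x n i : ℕ) :
    dig w (Nat.land x (mask (w * n))) i = if i < n then dig w x i else 0 := by
  show dig w (x &&& (2 ^ (w * n) - 1)) i = _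
  rw [dig_land, dig_two_pow_sub_one]
  split_ifs
  · rw [Nat.and_two_pow_sub_one_eq_mod, Nat.mod_eq_of_lt (dig_lt _ _ _)]
  · simp

theorem land_mask_eq_val (w x n : ℕ) :
    ((Nat.land x (mask (w * n)) : ℕ) : ℤ) = val w (fun i => (dig w x i : ℤ)) n := by
  rw [val_dig, ← Nat.and_two_pow_sub_one_eq_mod]; rfl

theorem dig_ones {w : ℕ} (hw : 0 < w) (n i : ℕ) : dig w (ones w n) i = if i < n then 1 else 0 := by
  have h2 : 1 < 2 ^ w := Nat.one_lt_two_pow (by omega)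
  split_ifs with h
  · simpa using dig_mul_ones hw h2 n i h
  · unfold dig
    rw [Nat.div_eq_of_lt, Nat.zero_mod]
    calc ones w n ≤ 2 ^ (w * n) - 1 := Nat.div_le_self _ _
      _ < 2 ^ (w * n) := Nat.sub_lt (by positivity) (by norm_num)
      _ ≤ 2 ^ (w * i) := Nat.pow_le_pow_right (by norm_num) (Nat.mul_le_mul_left _ (by omega))

theorem testBit_guard (x i : ℕ) : x.testBit (96 * i + 95) = true ↔ 2 ^ 95 ≤ dig 96 x i := by
  have h1 := testBit_dig 96 x i 95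
  have h2 := dig_lt 96 x i
  simp only [Nat.lt_add_one, decide_true, Bool.true_and] at h1
  rw [← h1, Nat.testBit_eq_decide_div_mod_eq, decide_eq_true_iff]
  omega

/-! ## the minors -/

noncomputable def qv (c : ℕ) : Fin 5 → ℤ :=
  ![(nth clsL (0, 0, 0, 0, 0) c).1, (nth clsL (0, 0, 0, 0, 0) c).2.1,
    (nth clsL (0, 0, 0, 0, 0) c).2.2.1, (nth clsL (0, 0, 0, 0, 0) c).2.2.2.1,
    (nth clsL (0, 0, 0, 0, 0) c).2.2.2.2]

theorem colL_eq (c m : ℕ) : colL (nth clsL (0, 0, 0, 0, 0) c) m =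
    (col (qv c) m 0, col (qv c) m 1, col (qv c) m 2, col (qv c) m 3, col (qv c) m 4) := by
  induction m with
  | zero => rfl
  | succ m ih =>
    have : ∀ q : I5, colL q (m + 1) = (-(q.1 * (colL q m).1 + q.2.1 * (colL q m).2.1 +
      q.2.2.1 * (colL q m).2.2.1 + q.2.2.2.1 * (colL q m).2.2.2.1 +
      q.2.2.2.2 * (colL q m).2.2.2.2), (colL q m).1, (colL q m).2.1, (colL q m).2.2.1,
      (colL q m).2.2.2.1) := fun _ => rfl
    rw [this, ih]
    rfl

noncomputable def mn (c a b x y : ℕ) : ℤ := uu c a x * uu c b y - uu c b x * uu c a y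

theorem dcls_eq (c x y z u : ℕ) : dcls (qv c) ![x, y, z, u, 0] =
    mn c 2 1 z u * mn c 4 3 x y - mn c 3 1 z u * mn c 4 2 x y + mn c 3 2 z u * mn c 4 1 x y +
      mn c 4 1 z u * mn c 3 2 x y - mn c 4 2 z u * mn c 3 1 x y + mn c 4 3 z u * mn c 2 1 x y := by
  have h1 : ∀ x, uu c 1 x = col (qv c) x 1 := fun x => by rw [uu, colL_eq]; rfl
  have h2 : ∀ x, uu c 2 x = col (qv c) x 2 := fun x => by rw [uu, colL_eq]; rfl
  have h3 : ∀ x, uu c 3 x = col (qv c) x 3 := fun x => by rw [uu, colL_eq]; rfl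
  have h4 : ∀ x, uu c 4 x = col (qv c) x 4 := fun x => by rw [uu, colL_eq]; rfl
  have e : (Matrix.of fun i j : Fin 5 => col (qv c) (![x, y, z, u, 0] j) i.rev) =
      !![col (qv c) x 4, col (qv c) y 4, col (qv c) z 4, col (qv c) u 4, 0;
        col (qv c) x 3, col (qv c) y 3, col (qv c) z 3, col (qv c) u 3, 0;
        col (qv c) x 2, col (qv c) y 2, col (qv c) z 2, col (qv c) u 2, 0;
        col (qv c) x 1, col (qv c) y 1, col (qv c) z 1, col (qv c) u 1, 0;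
        col (qv c) x 0, col (qv c) y 0, col (qv c) z 0, col (qv c) u 0, 1] := by
    ext i j; fin_cases i <;> fin_cases j <;> rfl
  simp only [mn, h1, h2, h3, h4, dcls, e]
  generalize col (qv c) = f
  simp [Matrix.det_succ_row_zero, Fin.sum_univ_succ, Fin.succAbove]
  ring

theorem dcls_add (q : Fin 5 → ℤ) (ν : Fin 5 → ℕ) (t : ℕ) :
    dcls q (fun j => ν j + t) = (-q 4) ^ t * dcls q ν := by
  induction t with
  | zero => simp
  | succ t ih =>
    have := dcls_succ q fun j => ν j + t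
    simp only [add_assoc] at this
    rw [this, ih]; ring

theorem ubZ_add (ν : Fin 5 → ℕ) (t : ℕ) : ubZ (fun j => ν j + t) =
    (1 * dcls (qv 0) ν + 45 * dcls (qv 2) ν + 40 * dcls (qv 4) ν + 40 * dcls (qv 6) ν +
      90 * dcls (qv 8) ν + 144 * dcls (qv 9) ν) + (-1) ^ t *
    (15 * dcls (qv 1) ν + 15 * dcls (qv 3) ν + 120 * dcls (qv 5) ν + 90 * dcls (qv 7) ν +
      120 * dcls (qv 10) ν) := by
  have h : ∀ ν, ubZ ν = 1 * dcls (qv 0) ν + (15 * dcls (qv 1) ν + (45 * dcls (qv 2) ν +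
      (15 * dcls (qv 3) ν + (40 * dcls (qv 4) ν + (120 * dcls (qv 5) ν + (40 * dcls (qv 6) ν +
      (90 * dcls (qv 7) ν + (90 * dcls (qv 8) ν + (144 * dcls (qv 9) ν +
      (120 * dcls (qv 10) ν + 0)))))))))) := fun _ => rfl
  rw [h]
  simp only [dcls_add]
  have e0 : -qv 0 4 = 1 := rfl
  have e1 : -qv 1 4 = -1 := rfl
  have e2 : -qv 2 4 = 1 := rfl
  have e3 : -qv 3 4 = -1 := rfl
  have e4 : -qv 4 4 = 1 := rfl
  have e5 : -qv 5 4 = -1 := rfl
  have e6 : -qv 6 4 = 1 := rfl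
  have e7 : -qv 7 4 = -1 := rfl
  have e8 : -qv 8 4 = 1 := rfl
  have e9 : -qv 9 4 = 1 := rfl
  have e10 : -qv 10 4 = -1 := rfl
  rw [e0, e1, e2, e3, e4, e5, e6, e7, e8, e9, e10, one_pow]
  ring

/-- the bounds on the sequences -/
def UOK : Prop := ∀ c < 11, ∀ x < 160, ∀ a, 1 ≤ a → a ≤ 4 → |uu c a x| ≤ 2 ^ 25

theorem uok_of (h : AllLt (fun c => allFrom uChk 160 (Nat.mul 160 c)) 11) : UOK := by
  intro c hc x hx a h1 h4
  have h2 : uChk (160 * c + x) = true := allFrom_spec (h c hc) _ (Nat.le_add_right _ _)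
    (Nat.add_lt_add_left hx _)
  have e1 : (160 * c + x) / 160 = c := by omega
  have e2 : (160 * c + x) % 160 = x := by omega
  have h3 : (Nat.ble (Int.natAbs (uu ((160 * c + x) / 160) 1 ((160 * c + x) % 160))) 33554432 &&
    Nat.ble (Int.natAbs (uu ((160 * c + x) / 160) 2 ((160 * c + x) % 160))) 33554432 &&
    Nat.ble (Int.natAbs (uu ((160 * c + x) / 160) 3 ((160 * c + x) % 160))) 33554432 &&
    Nat.ble (Int.natAbs (uu ((160 * c + x) / 160) 4 ((160 * c + x) % 160))) 33554432) = true := h2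
  rw [e1, e2] at h3
  simp only [Bool.and_eq_true, Nat.ble_eq] at h3
  obtain ⟨⟨⟨k1, k2⟩, k3⟩, k4⟩ := h3
  rw [Int.abs_eq_natAbs]
  interval_cases a <;> omega

theorem uPack_eq (h : UOK) {c a : ℕ} (hc : c < 11) (h1 : 1 ≤ a) (h4 : a ≤ 4) (n : ℕ)
    (hn : n ≤ 160) : (uPack c a n : ℤ) = val 96 (fun x => uu c a x + 2 ^ 25) n := by
  induction n with
  | zero => rfl
  | succ n ih =>
    have e : uPack c a (n + 1) = uPack c a n + Int.toNat (uu c a n + 33554432) <<< (96 * n) := rfl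
    have := abs_le.1 (h c hc n (by omega) a h1 h4)
    rw [e, val_succ, ← ih (by omega), Nat.shiftLeft_eq]
    push_cast
    rw [Int.toNat_of_nonneg (by omega)]

theorem uRow_eq (h : UOK) {c a : ℕ} (hc : c < 11) (h1 : 1 ≤ a) (h4 : a ≤ 4) {r : ℕ} (hr : r ≤ 60) :
    uRow c a r = val 96 (fun g => uu c a (r + 2 + g) + 2 ^ 25) 96 := by
  have e : uRow c a r = ((Nat.land (uPack c a 160 >>> (96 * (r + 2))) (mask (96 * 96)) : ℕ) : ℤ) :=
    rfl
  rw [e, land_mask_eq_val]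
  refine val_congr fun g hg => ?_
  rw [dig_shiftRight]
  refine dig_of_eq_val (uPack_eq h hc h1 h4 160 le_rfl) (fun x hx => ?_) _ (by omega)
  have := abs_le.1 (h c hc x hx a h1 h4)
  omega

theorem abs_mn_le (h : UOK) {c a b x y : ℕ} (hc : c < 11) (h1 : 1 ≤ a) (h4 : a ≤ 4) (h1' : 1 ≤ b)
    (h4' : b ≤ 4) (hx : x < 160) (hy : y < 160) : |mn c a b x y| ≤ 2 ^ 51 := by
  refine (abs_sub _ _).trans ?_
  rw [abs_mul, abs_mul]
  have k1 := mul_le_mul (h c hc x hx a h1 h4) (h c hc y hy b h1' h4') (abs_nonneg _) (by norm_num)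
  have k2 := mul_le_mul (h c hc x hx b h1' h4') (h c hc y hy a h1 h4) (abs_nonneg _) (by norm_num)
  linarith

theorem mRow_eq (h : UOK) {c a b : ℕ} (hc : c < 11) (h1 : 1 ≤ a) (h4 : a ≤ 4) (h1' : 1 ≤ b)
    (h4' : b ≤ 4) {r : ℕ} (hr : r ≤ 60) :
    (mRow c a b r : ℤ) = val 96 (fun g => mn c a b (r + 2 + g) (r + 1) + 2 ^ 51) 96 := by
  have e : mRow c a b r = Int.toNat (uu c b (r + 1) * uRow c a r - uu c a (r + 1) * uRow c b r +
      (2251799813685248 - (uu c b (r + 1) - uu c a (r + 1)) * 33554432) * (onesN 96 9216 : ℕ)) :=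
    rfl
  have e1 : onesN 96 9216 = ones 96 96 := onesN_eq 96 96
  have e2 : uu c b (r + 1) * uRow c a r - uu c a (r + 1) * uRow c b r +
      (2251799813685248 - (uu c b (r + 1) - uu c a (r + 1)) * 33554432) * (ones 96 96 : ℕ) =
      val 96 (fun g => mn c a b (r + 2 + g) (r + 1) + 2 ^ 51) 96 := by
    rw [uRow_eq h hc h1 h4 hr, uRow_eq h hc h1' h4' hr, ones_eq (by norm_num), ← val_mul, ← val_mul,
      ← val_mul, ← val_sub, ← val_add]
    refine val_congr fun g _ => ?_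
    unfold mn
    ring
  rw [e, e1, e2, Int.toNat_of_nonneg]
  refine val_nonneg fun g hg => ?_
  have := abs_le.1 (abs_mn_le h hc h1 h4 h1' h4' (show r + 2 + g < 160 by omega)
    (show r + 1 < 160 by omega))
  omega

theorem master_eq (h : UOK) {c a b : ℕ} (hc : c < 11) (h1 : 1 ≤ a) (h4 : a ≤ 4) (h1' : 1 ≤ b)
    (h4' : b ≤ 4) (n : ℕ) (hn : n ≤ 61) : (master c a b n : ℤ) =
      val 96 (fun i => mn c a b (i / 96 + 2 + i % 96) (i / 96 + 1) + 2 ^ 51) (96 * n) := by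
  rw [val_two_dim]
  induction n with
  | zero => rfl
  | succ n ih =>
    have e : master c a b (n + 1) = master c a b n + mRow c a b n <<< (96 * 96 * n) := rfl
    rw [e, val_succ, ← ih (by omega), Nat.shiftLeft_eq, Nat.cast_add, Nat.cast_mul,
      mRow_eq h hc h1 h4 h1' h4' (by omega), Nat.cast_pow, Nat.cast_ofNat]
    congr 2
    refine val_congr fun g hg => ?_
    rw [show (96 * n + g) / 96 = n by omega, show (96 * n + g) % 96 = g by omega]

noncomputable def mI (k x y : ℕ) : ℤ := mn (k / 6) (prA (k % 6)) (prB (k % 6)) x y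

/-- the packed minors are correct -/
def MSOK (MS : List ℕ) : Prop := ∀ k < 66, ∀ i < 96 * 61,
  (dig 96 (nth MS 0 k) i : ℤ) = mI k (i / 96 + 2 + i % 96) (i / 96 + 1) + 2 ^ 51 ∧
    |mI k (i / 96 + 2 + i % 96) (i / 96 + 1)| ≤ 2 ^ 51

theorem msok_of {MS : List ℕ} (h : UOK) (hM : AllLt (msChk MS) 66) : MSOK MS := by
  intro k hk i hi
  have h1 : Nat.beq (nth MS 0 k) (master (k / 6) (prA (k % 6)) (prB (k % 6)) 61) = true := hM k hk
  rw [Nat.beq_eq] at h1
  have hp : ∀ p < 6, 1 ≤ prA p ∧ prA p ≤ 4 ∧ 1 ≤ prB p ∧ prB p ≤ 4 := by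
    intro p hp; interval_cases p <;> decide
  obtain ⟨p1, p2, p3, p4⟩ := hp (k % 6) (by omega)
  have hb : ∀ i < 96 * 61, |mI k (i / 96 + 2 + i % 96) (i / 96 + 1)| ≤ 2 ^ 51 := fun i hi =>
    abs_mn_le h (by omega) p1 p2 p3 p4 (by omega) (by omega)
  refine ⟨?_, hb i hi⟩
  rw [h1]
  refine dig_of_eq_val (master_eq h (by omega) p1 p2 p3 p4 61 le_rfl) (fun s hs => ?_) i hi
  have := abs_le.1 (hb s hs)
  unfold mI at this
  omega

noncomputable def tv (x y z u : ℕ) : List Trm → ℤ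
  | [] => 0
  | t :: ts => (if t.1 = true then 1 else -1) * t.2.1 * mI t.2.2.2 z u * mI t.2.2.1 x y +
      tv x y z u ts

theorem ubAcc_cons (MS : List ℕ) (g5 g4 sh M : ℕ) (x : Trm) (ts : List Trm) (cd ca v : ℕ)
    (h1 : cd = Nat.land (Nat.shiftRight (rowM MS x.2.2.2 g5) (Nat.mul 96 g4)) (mask 96))
    (h2 : ca = Nat.mul x.2.1 (Nat.add (Nat.sub cd 2251799813685248) (Nat.sub 2251799813685248 cd)))
    (h3 : v = Nat.mul ca (Nat.land (Nat.shiftRight (nth MS 0 x.2.2.1) sh) M)) :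
    ubAcc MS g5 g4 sh M (x :: ts) =
      if (if x.1 = true then Nat.ble 2251799813685248 cd else Nat.ble cd 2251799813685248) = true
      then ((ubAcc MS g5 g4 sh M ts).1 + v, (ubAcc MS g5 g4 sh M ts).2.1,
        (ubAcc MS g5 g4 sh M ts).2.2.1, (ubAcc MS g5 g4 sh M ts).2.2.2 + ca)
      else ((ubAcc MS g5 g4 sh M ts).1, (ubAcc MS g5 g4 sh M ts).2.1 + v,
        (ubAcc MS g5 g4 sh M ts).2.2.1 + ca, (ubAcc MS g5 g4 sh M ts).2.2.2) := by
  have e : ubAcc MS g5 g4 sh M (x :: ts) = ubStep MS g5 g4 sh M x (ubAcc MS g5 g4 sh M ts) := rfl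
  rw [e, ubStep, force_eq, force_eq]
  beta_reduce
  rw [brec_eq, brec_eq, ← h1, ← h2, ← h3]
  rfl

/-- a quadruple `(P, Q, sp, sn)` represents `f` -/
def Quad (n : ℕ) (E : ℕ × ℕ × ℕ × ℕ) (f : ℕ → ℤ) : Prop :=
  (E.1 : ℤ) - E.2.1 + ((E.2.2.1 : ℤ) - E.2.2.2) * 2 ^ 51 * (ones 96 n : ℕ) = val 96 f n ∧
    ∀ i < n, |f i| ≤ ((E.2.2.1 : ℤ) + E.2.2.2) * 2 ^ 51

theorem ubAcc_spec {MS : List ℕ} (h : MSOK MS) {g5 g4 h0 nr : ℕ} (h5 : g5 < 61) (h4 : g4 < 96)
    (hr : h0 + nr ≤ 61) (ts : List Trm) (hts : ∀ x ∈ ts, x.2.2.1 < 66 ∧ x.2.2.2 < 66) :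
    Quad (96 * nr) (ubAcc MS g5 g4 (9216 * h0) (mask (9216 * nr)) ts)
      (fun i => tv (h0 + i / 96 + 2 + i % 96) (h0 + i / 96 + 1) (g5 + 2 + g4) (g5 + 1) ts) := by
  induction ts with
  | nil => exact ⟨by simp [ubAcc, val, tv], fun i _ => by simp [ubAcc, tv]⟩
  | cons x ts ih =>
    obtain ⟨i1, i2⟩ := ih fun y hy => hts y (List.mem_cons_of_mem _ hy)
    obtain ⟨x1, x2⟩ := hts x List.mem_cons_self
    rw [ubAcc_cons _ _ _ _ _ _ _ _ _ _ rfl rfl rfl, Nat.mul_eq, Nat.mul_eq, Nat.mul_eq, Nat.add_eq,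
      Nat.sub_eq, Nat.sub_eq]
    have hcd : ((Nat.land (Nat.shiftRight (rowM MS x.2.2.2 g5) (96 * g4)) (mask 96) : ℕ) : ℤ) =
        mI x.2.2.2 (g5 + 2 + g4) (g5 + 1) + 2 ^ 51 := by
      have e : rowM MS x.2.2.2 g5 =
          Nat.land (nth MS 0 x.2.2.2 >>> (96 * (96 * g5))) (mask (96 * 96)) := by
        rw [← mul_assoc]; rfl
      rw [land_shift_eq_dig, e, dig_land_mask, if_pos h4, dig_shiftRight,
        (h _ x2 _ (by omega)).1, show (96 * g5 + g4) / 96 = g5 by omega,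
        show (96 * g5 + g4) % 96 = g4 by omega]
    have hW : ((Nat.land (Nat.shiftRight (nth MS 0 x.2.2.1) (9216 * h0)) (mask (9216 * nr)) : ℕ) : ℤ) =
        val 96 (fun i => mI x.2.2.1 (h0 + i / 96 + 2 + i % 96) (h0 + i / 96 + 1)) (96 * nr) +
          2 ^ 51 * (ones 96 (96 * nr) : ℕ) := by
      rw [show 9216 * h0 = 96 * (96 * h0) by ring, show 9216 * nr = 96 * (96 * nr) by ring,
        land_mask_eq_val, ones_eq (by norm_num), ← val_mul, ← val_add]
      refine val_congr fun i hi => ?_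
      have := dig_shiftRight 96 (nth MS 0 x.2.2.1) (96 * h0) i
      rw [show Nat.shiftRight (nth MS 0 x.2.2.1) (96 * (96 * h0)) =
        nth MS 0 x.2.2.1 >>> (96 * (96 * h0)) from rfl, this, (h _ x1 _ (by omega)).1,
        show (96 * h0 + i) / 96 = h0 + i / 96 by omega, show (96 * h0 + i) % 96 = i % 96 by omega,
        mul_one]
    have hb : ∀ i < 96 * nr, |mI x.2.2.1 (h0 + i / 96 + 2 + i % 96) (h0 + i / 96 + 1)| ≤ 2 ^ 51 := by
      intro i hi
      have := (h _ x1 (96 * h0 + i) (by omega)).2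
      rwa [show (96 * h0 + i) / 96 = h0 + i / 96 by omega,
        show (96 * h0 + i) % 96 = i % 96 by omega] at this
    generalize Nat.land (Nat.shiftRight (rowM MS x.2.2.2 g5) (96 * g4)) (mask 96) = cd at hcd ⊢
    generalize Nat.land (Nat.shiftRight (nth MS 0 x.2.2.1) (9216 * h0)) (mask (9216 * nr)) = Wx
      at hW ⊢
    generalize ubAcc MS g5 g4 (9216 * h0) (mask (9216 * nr)) ts = st at i1 i2 ⊢
    obtain ⟨a, ha⟩ : ∃ a : ℕ, a = (cd - 2251799813685248) + (2251799813685248 - cd) := ⟨_, rfl⟩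
    rw [← ha]
    have key : ∀ s : ℤ, (s = 1 ∨ s = -1) →
        (if x.1 = true then 1 else -1) * mI x.2.2.2 (g5 + 2 + g4) (g5 + 1) = s * a →
        (∀ i, tv (h0 + i / 96 + 2 + i % 96) (h0 + i / 96 + 1) (g5 + 2 + g4) (g5 + 1) (x :: ts) =
          s * ((x.2.1 * a : ℕ) : ℤ) * mI x.2.2.1 (h0 + i / 96 + 2 + i % 96) (h0 + i / 96 + 1) +
          tv (h0 + i / 96 + 2 + i % 96) (h0 + i / 96 + 1) (g5 + 2 + g4) (g5 + 1) ts) ∧
        ∀ i < 96 * nr,
          |tv (h0 + i / 96 + 2 + i % 96) (h0 + i / 96 + 1) (g5 + 2 + g4) (g5 + 1) (x :: ts)| ≤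
            ((st.2.2.1 : ℤ) + st.2.2.2 + (x.2.1 * a : ℕ)) * 2 ^ 51 := by
      intro s hs he
      have k : ∀ i, tv (h0 + i / 96 + 2 + i % 96) (h0 + i / 96 + 1) (g5 + 2 + g4) (g5 + 1) (x :: ts) =
          s * ((x.2.1 * a : ℕ) : ℤ) * mI x.2.2.1 (h0 + i / 96 + 2 + i % 96) (h0 + i / 96 + 1) +
          tv (h0 + i / 96 + 2 + i % 96) (h0 + i / 96 + 1) (g5 + 2 + g4) (g5 + 1) ts := by
        intro i
        rw [tv, mul_right_comm _ (x.2.1 : ℤ), he]
        push_cast; ring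
      refine ⟨k, fun i hi => ?_⟩
      rw [k]
      refine (abs_add_le _ _).trans ?_
      have k1 : |s * ((x.2.1 * a : ℕ) : ℤ) * mI x.2.2.1 (h0 + i / 96 + 2 + i % 96) (h0 + i / 96 + 1)| ≤
          ((x.2.1 * a : ℕ) : ℤ) * 2 ^ 51 := by
        have : |s| = 1 := by rcases hs with rfl | rfl <;> simp
        rw [abs_mul, abs_mul, this, one_mul, Nat.abs_cast]
        exact mul_le_mul_of_nonneg_left (hb i hi) (by positivity)
      have k2 := i2 i hi
      beta_reduce at k2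
      linarith
    split_ifs with c1 c2 c2
    all_goals rw [Nat.ble_eq] at c2
    · obtain ⟨k1, k2⟩ := key 1 (Or.inl rfl) (by rw [if_pos c1]; omega)
      refine ⟨?_, fun i hi => (k2 i hi).trans (le_of_eq (by push_cast; ring))⟩
      simp only [k1]
      rw [val_add, val_mul, ← i1]
      push_cast
      rw [hW]; ring
    · obtain ⟨k1, k2⟩ := key (-1) (Or.inr rfl) (by rw [if_pos c1]; omega)
      refine ⟨?_, fun i hi => (k2 i hi).trans (le_of_eq (by push_cast; ring))⟩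
      simp only [k1]
      rw [val_add, val_mul, ← i1]
      push_cast
      rw [hW]; ring
    · obtain ⟨k1, k2⟩ := key 1 (Or.inl rfl) (by rw [if_neg c1]; omega)
      refine ⟨?_, fun i hi => (k2 i hi).trans (le_of_eq (by push_cast; ring))⟩
      simp only [k1]
      rw [val_add, val_mul, ← i1]
      push_cast
      rw [hW]; ring
    · obtain ⟨k1, k2⟩ := key (-1) (Or.inr rfl) (by rw [if_neg c1]; omega)
      refine ⟨?_, fun i hi => (k2 i hi).trans (le_of_eq (by push_cast; ring))⟩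
      simp only [k1]
      rw [val_add, val_mul, ← i1]
      push_cast
      rw [hW]; ring

def cterms (s c : ℕ) (ts : List Trm) : List Trm :=
  (true, s, 6 * c, 6 * c + 5) :: (false, s, 6 * c + 1, 6 * c + 4) :: (true, s, 6 * c + 2, 6 * c + 3) ::
    (true, s, 6 * c + 3, 6 * c + 2) :: (false, s, 6 * c + 4, 6 * c + 1) ::
    (true, s, 6 * c + 5, 6 * c) :: ts

theorem tv_cterms (x y z u s c : ℕ) (ts : List Trm) :
    tv x y z u (cterms s c ts) = s * dcls (qv c) ![x, y, z, u, 0] + tv x y z u ts := by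
  have h : ∀ p < 6, ∀ x y, mI (6 * c + p) x y = mn c (prA p) (prB p) x y := fun p hp x y => by
    rw [mI, show (6 * c + p) / 6 = c by omega, show (6 * c + p) % 6 = p by omega]
  have h0 : ∀ x y, mI (6 * c) x y = mn c 4 3 x y := h 0 (by omega)
  have h1 : ∀ x y, mI (6 * c + 1) x y = mn c 4 2 x y := h 1 (by omega)
  have h2 : ∀ x y, mI (6 * c + 2) x y = mn c 4 1 x y := h 2 (by omega)
  have h3 : ∀ x y, mI (6 * c + 3) x y = mn c 3 2 x y := h 3 (by omega)
  have h4 : ∀ x y, mI (6 * c + 4) x y = mn c 3 1 x y := h 4 (by omega)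
  have h5 : ∀ x y, mI (6 * c + 5) x y = mn c 2 1 x y := h 5 (by omega)
  simp only [cterms, tv, h0, h1, h2, h3, h4, h5, dcls_eq, if_true, Bool.false_eq_true, if_false]
  ring

theorem ubZ_eq_tv (x y z u t : ℕ) : ubZ (fun j => ![x, y, z, u, 0] j + t) =
    tv x y z u trmE + (-1) ^ t * tv x y z u trmO := by
  have e1 : trmE = cterms 1 0 (cterms 45 2 (cterms 40 4 (cterms 40 6 (cterms 90 8
    (cterms 144 9 []))))) := rfl
  have e2 : trmO = cterms 15 1 (cterms 15 3 (cterms 120 5 (cterms 90 7 (cterms 120 10 [])))) := rfl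
  rw [ubZ_add, e1, e2]
  simp only [tv_cterms, tv]
  push_cast
  ring

theorem Quad.neg {n : ℕ} {E : ℕ × ℕ × ℕ × ℕ} {f : ℕ → ℤ} (h : Quad n E f) :
    Quad n (E.2.1, E.1, E.2.2.2, E.2.2.1) (fun i => -1 * f i) := by
  refine ⟨?_, fun i hi => ?_⟩
  · rw [val_mul, ← h.1]; ring
  · beta_reduce
    rw [neg_one_mul, abs_neg, add_comm]; exact h.2 i hi

theorem dig_yOf {n : ℕ} {E O : ℕ × ℕ × ℕ × ℕ} {f g : ℕ → ℤ} (hE : Quad n E f) (hO : Quad n O g)
    (hb : E.2.2.1 + E.2.2.2 + (O.2.2.1 + O.2.2.2) ≤ 4398046511104) : ∀ i < n,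
    (dig 96 (yOf (96 * n) E.1 E.2.1 E.2.2.1 E.2.2.2 O.1 O.2.1 O.2.2.1 O.2.2.2) i : ℤ) =
      2 ^ 95 - (f i + g i) ∧ |f i + g i| ≤ 2 ^ 93 := by
  have h1 : ∀ i < n, |f i + g i| ≤ 2 ^ 93 := fun i hi => by
    have k1 := hE.2 i hi
    have k2 := hO.2 i hi
    have k3 := abs_add_le (f i) (g i)
    omega
  have h2 : ∀ i < n, 0 ≤ 2 ^ 95 * 1 - (f i + g i) ∧ 2 ^ 95 * 1 - (f i + g i) < 2 ^ 96 :=
    fun i hi => by have := abs_le.1 (h1 i hi); omega
  have e : yOf (96 * n) E.1 E.2.1 E.2.2.1 E.2.2.2 O.1 O.2.1 O.2.2.1 O.2.2.2 =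
      ones 96 n * (39614081257132168796771975168 + (E.2.2.2 + O.2.2.2) * 2251799813685248 -
        (E.2.2.1 + O.2.2.1) * 2251799813685248) + E.2.1 + O.2.1 - (E.1 + O.1) := rfl
  have h3 : ((ones 96 n * (39614081257132168796771975168 + (E.2.2.2 + O.2.2.2) * 2251799813685248 -
        (E.2.2.1 + O.2.2.1) * 2251799813685248) + E.2.1 + O.2.1 : ℕ) : ℤ) - (E.1 + O.1 : ℕ) =
      val 96 (fun i => 2 ^ 95 * 1 - (f i + g i)) n := by
    rw [val_sub, val_mul, val_add, ← hE.1, ← hO.1, ← ones_eq (by norm_num), Nat.cast_add,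
      Nat.cast_add, Nat.cast_mul, Nat.cast_sub (by omega)]
    push_cast; ring
  have h4 := val_nonneg (w := 96) fun i hi => (h2 i hi).1
  intro i hi
  refine ⟨?_, h1 i hi⟩
  rw [e, dig_of_eq_val (by rw [← h3, Nat.cast_sub (by omega)]) h2 i hi, mul_one]

end Crest.Agent.R187
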