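import Crest.Agent.R187.Rep

/-! The Weyl multiplicity formula via the Casimir operator. -/

set_option autoImplicit false
set_option linter.unusedSectionVars false

open Module MvPolynomial

namespace Crest.Agent.R187

/-- `Matrix.det_vandermonde` with the columns reversed -/
theorem vand_eq_sum (n : ℕ) (R : Type*) [CommRing R] :
    vand n R = ∑ σ : Equiv.Perm (Fin n),
      monomial (ex fun i => rho n (σ i)) ((Equiv.Perm.sign σ : ℤ) : R) := by
  have h := Matrix.det_projVandermonde (fun _ => 1) (X : Fin n → MvPolynomial (Fin n) R)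
  simp only [one_mul] at h
  rw [vand, ← h, ← Matrix.det_transpose, Matrix.det_apply']
  refine Finset.sum_congr rfl fun σ _ => ?_
  rw [monomial_eq, Finsupp.prod_fintype _ _ (fun i => pow_zero _), map_intCast]
  congr 1
  refine Finset.prod_congr rfl fun i _ => ?_
  rw [Matrix.transpose_apply, Matrix.projVandermonde_apply, one_pow, one_mul, ex_apply, rho,
    Fin.val_rev, Nat.sub_sub, add_comm]

section poly

variable {n : ℕ}

/-- the Euler operator `x_i ∂ / ∂ x_i` -/
noncomputable def weylTh (i : Fin n) (p : MvPolynomial (Fin n) ℂ) : MvPolynomial (Fin n) ℂ :=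
  X i * pderiv i p

theorem weylTh_add (i : Fin n) (p q : MvPolynomial (Fin n) ℂ) :
    weylTh i (p + q) = weylTh i p + weylTh i q := by
  simp only [weylTh, map_add, mul_add]

theorem weylTh_mul (i : Fin n) (p q : MvPolynomial (Fin n) ℂ) :
    weylTh i (p * q) = p * weylTh i q + q * weylTh i p := by
  simp only [weylTh, Derivation.leibniz, smul_eq_mul]
  ring

theorem weyl_coeff_th (i : Fin n) (d : Fin n →₀ ℕ) (p : MvPolynomial (Fin n) ℂ) :
    coeff d (weylTh i p) = (d i : ℂ) * coeff d p := by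
  induction p using MvPolynomial.induction_on' with
  | monomial m r =>
    rw [weylTh, X_mul_pderiv_monomial, coeff_smul, coeff_monomial]
    split_ifs with h
    · rw [h, nsmul_eq_mul]
    · simp
  | add p q hp hq => rw [weylTh_add, coeff_add, hp, hq, coeff_add, mul_add]

theorem weyl_coeff_lap (d : Fin n →₀ ℕ) (p : MvPolynomial (Fin n) ℂ) :
    coeff d (∑ i, weylTh i (weylTh i p)) = ((∑ i, (d i : ℤ) * d i : ℤ) : ℂ) * coeff d p := by
  simp only [coeff_sum, weyl_coeff_th]
  push_cast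
  rw [Finset.sum_mul]
  exact Finset.sum_congr rfl fun i _ => (mul_assoc _ _ _).symm

theorem weyl_log_deriv {A ι : Type*} [CommRing A] {δ : A → A} (h1 : δ 1 = 0)
    (hδ : ∀ p q, δ (p * q) = p * δ q + q * δ p) (s : Finset ι) (f B : ι → A)
    (h : ∀ k ∈ s, δ (f k) = f k * B k) : δ (∏ k ∈ s, f k) = (∏ k ∈ s, f k) * ∑ k ∈ s, B k := by
  classical
  induction s using Finset.induction_on with
  | empty => simpa using h1
  | insert a s ha ih =>
    rw [Finset.prod_insert ha, Finset.sum_insert ha, hδ, h a (Finset.mem_insert_self _ _),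
      ih fun k hk => h k (Finset.mem_insert_of_mem hk)]
    ring

theorem weyl_lap_vand : ∑ i, weylTh i (weylTh i (vand n ℂ)) =
    C ((∑ i, (rho n i : ℤ) * rho n i : ℤ) : ℂ) * vand n ℂ := by
  ext d
  rw [weyl_coeff_lap, coeff_C_mul, vand_eq_sum, coeff_sum, Finset.mul_sum, Finset.mul_sum]
  refine Finset.sum_congr rfl fun σ _ => ?_
  rw [coeff_monomial]
  split_ifs with h
  · rw [← h]
    congr 2
    exact Equiv.sum_comp σ fun i => (rho n i : ℤ) * rho n i
  · simp

theorem weyl_lap_mul (χ : MvPolynomial (Fin n) ℂ) (B : Fin n → Fin n → MvPolynomial (Fin n) ℂ)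
    (hB : ∀ a b, (X a - X b) * B a b = 2 * (X a * weylTh a χ - X b * weylTh b χ)) :
    ∑ i, weylTh i (weylTh i (vand n ℂ * χ)) =
      C ((∑ i, (rho n i : ℤ) * rho n i : ℤ) : ℂ) * (vand n ℂ * χ) +
        vand n ℂ * (∑ i, weylTh i (weylTh i χ) + ∑ a, ∑ b ∈ Finset.Ioi a, B a b) := by
  let δ : MvPolynomial (Fin n) ℂ → MvPolynomial (Fin n) ℂ :=
    fun p => ∑ i, 2 * weylTh i χ * weylTh i p
  have h1 : δ 1 = 0 := by simp [δ, weylTh]
  have h2 : ∀ p q, δ (p * q) = p * δ q + q * δ p := by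
    intro p q
    simp only [δ, weylTh_mul, Finset.mul_sum, ← Finset.sum_add_distrib]
    exact Finset.sum_congr rfl fun i _ => by ring
  have h3 : ∀ a, δ (X a) = 2 * (X a * weylTh a χ) := by
    intro a
    simp only [δ]
    rw [Finset.sum_eq_single a (fun i _ hi => by simp [weylTh, pderiv_X_of_ne hi.symm])
      (by simp)]
    simp only [weylTh, pderiv_X_self]
    ring
  have h4 : ∀ a b, δ (X a - X b) = (X a - X b) * B a b := by
    intro a b
    rw [hB, mul_sub, ← h3, ← h3]
    simp only [δ, weylTh, map_sub, mul_sub, Finset.sum_sub_distrib]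
  have h5 : δ (vand n ℂ) = vand n ℂ * ∑ a, ∑ b ∈ Finset.Ioi a, B a b :=
    weyl_log_deriv h1 h2 _ _ _ fun a _ => weyl_log_deriv h1 h2 _ _ _ fun b _ => h4 a b
  rw [mul_add, ← h5, ← mul_assoc, ← weyl_lap_vand]
  simp only [δ, weylTh_mul, weylTh_add, Finset.mul_sum, Finset.sum_mul, ← Finset.sum_add_distrib]
  exact Finset.sum_congr rfl fun i _ => by ring

end poly

namespace GlMod

variable {n : ℕ} {V : Type*} [NormedAddCommGroup V] [InnerProductSpace ℂ V]
  [FiniteDimensional ℂ V] (M : GlMod n V)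

/-- the projection on a weight space -/
noncomputable def weylP (μ : Fin n → ℤ) : Module.End ℂ V := (wtSp M.E μ).starProjection

/-- the projection on an isotypic component -/
noncomputable def weylQ (l : Fin n → ℤ) : Module.End ℂ V := (M.iso l).starProjection

theorem weylP_mem (μ : Fin n → ℤ) (v : V) : M.weylP μ v ∈ wtSp M.E μ :=
  Submodule.starProjection_apply_mem _ _

theorem weylQ_mem (l : Fin n → ℤ) (v : V) : M.weylQ l v ∈ M.iso l :=
  Submodule.starProjection_apply_mem _ _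

theorem weylP_apply (μ : Fin n → ℤ) {ν : Fin n → ℤ} {v : V} (hv : v ∈ wtSp M.E ν) :
    M.weylP μ v = if μ = ν then v else 0 := by
  split_ifs with h
  · subst h
    exact Submodule.starProjection_eq_self_iff.2 hv
  · exact (Submodule.starProjection_apply_eq_zero_iff _).2 fun u hu => M.inner_wtSp h hu hv

theorem weylQ_apply (l : Fin n → ℤ) {l' : Fin n → ℤ} {v : V} (hv : v ∈ M.iso l') :
    M.weylQ l v = if l = l' then v else 0 := by
  split_ifs with h
  · subst h
    exact Submodule.starProjection_eq_self_iff.2 hv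
  · exact (Submodule.starProjection_apply_eq_zero_iff _).2 fun u hu => M.iso_orthogonal h hu hv

theorem weyl_ext_wt {f g : Module.End ℂ V} (h : ∀ μ, ∀ v ∈ wtSp M.E μ, f v = g v) : f = g := by
  rw [← LinearMap.eqLocus_eq_top, eq_top_iff, ← M.span]
  exact iSup₂_le fun μ _ v hv => h μ v hv

theorem weyl_ext_iso {f g : Module.End ℂ V} (h : ∀ l ∈ M.S, ∀ v ∈ M.iso l, f v = g v) : f = g := by
  rw [← LinearMap.eqLocus_eq_top, eq_top_iff, ← M.iSup_iso]
  exact iSup₂_le fun l hl v hv => h l hl v hv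

theorem weylP_eq_zero {μ : Fin n → ℤ} (h : μ ∉ M.S) : M.weylP μ = 0 := by
  ext v
  have h1 := M.weylP_mem μ v
  rwa [M.wtSp_eq_bot h] at h1

theorem weylP_mul_E (μ : Fin n → ℤ) (i j : Fin n) :
    M.weylP μ * M.E i j = M.E i j * M.weylP (μ - Pi.single i 1 + Pi.single j 1) := by
  refine M.weyl_ext_wt fun ν v hv => ?_
  rw [Module.End.mul_apply, Module.End.mul_apply, M.weylP_apply _ hv,
    M.weylP_apply _ (M.E_mem_wtSp hv i j)]
  by_cases h : μ = ν + Pi.single i 1 - Pi.single j 1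
  · rw [if_pos h, if_pos (by rw [h]; abel)]
  · rw [if_neg h, if_neg (fun h' => h (by rw [← h']; abel)), map_zero]

theorem weylP_mul_diag (μ : Fin n → ℤ) (i : Fin n) :
    M.weylP μ * M.E i i = (μ i : ℂ) • M.weylP μ := by
  rw [weylP_mul_E, sub_add_cancel]
  ext v
  exact M.weylP_mem μ v i

theorem weyl_trace_P (μ : Fin n → ℤ) :
    LinearMap.trace ℂ V (M.weylP μ) = finrank ℂ (wtSp M.E μ) :=
  LinearMap.IsProj.trace ⟨M.weylP_mem μ, fun v hv => by rw [M.weylP_apply μ hv, if_pos rfl]⟩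

theorem weylQ_mul_E (l : Fin n → ℤ) (i j : Fin n) :
    M.weylQ l * M.E i j = M.E i j * M.weylQ l := by
  refine M.weyl_ext_iso fun l' _ v hv => ?_
  rw [Module.End.mul_apply, Module.End.mul_apply, M.weylQ_apply _ hv,
    M.weylQ_apply _ (M.iso_invariant l' i j hv)]
  split_ifs
  · rfl
  · rw [map_zero]

theorem weyl_sum_Q : ∑ l ∈ M.S, M.weylQ l = 1 := by
  refine M.weyl_ext_iso fun l' hl v hv => ?_
  rw [LinearMap.sum_apply]
  simp only [M.weylQ_apply _ hv]
  rw [Finset.sum_ite_eq', if_pos hl, Module.End.one_apply]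

/-- the character twisted by an operator -/
noncomputable def weylCh : Module.End ℂ V →ₗ[ℂ] MvPolynomial (Fin n) ℂ :=
  ∑ μ ∈ M.S, monomial (ex fun i => (μ i).toNat) ∘ₗ LinearMap.trace ℂ V ∘ₗ
    LinearMap.mulLeft ℂ (M.weylP μ)

theorem weyl_coeff_ch (d : Fin n →₀ ℕ) (T : Module.End ℂ V) :
    coeff d (M.weylCh T) = LinearMap.trace ℂ V (M.weylP (fun i => d i) * T) := by
  simp only [weylCh, LinearMap.sum_apply, LinearMap.comp_apply, LinearMap.mulLeft_apply, coeff_sum,
    coeff_monomial]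
  rw [Finset.sum_eq_single (fun i => (d i : ℤ)) (fun μ hμ hne => if_neg fun h => hne ?_)
    (fun h => by rw [M.weylP_eq_zero h]; simp), if_pos (by ext i; simp)]
  funext i
  rw [← h, ex_apply, Int.toNat_of_nonneg (M.nonneg μ hμ i)]

theorem weyl_coeff_monomial_mul (d a : Fin n →₀ ℕ) (c : ℂ) (T : Module.End ℂ V) :
    coeff d (monomial a c * M.weylCh T) =
      c * LinearMap.trace ℂ V (M.weylP (fun i => d i - a i) * T) := by
  rw [coeff_monomial_mul']
  split_ifs with h
  · rw [weyl_coeff_ch]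
    congr 4
    funext i
    rw [Finsupp.tsub_apply, Nat.cast_sub (h i)]
  · rw [M.weylP_eq_zero, zero_mul, map_zero, mul_zero]
    refine fun hS => h fun i => ?_
    have h1 := M.nonneg _ hS i
    omega

theorem weyl_th_ch (i : Fin n) (T : Module.End ℂ V) :
    weylTh i (M.weylCh T) = M.weylCh (M.E i i * T) := by
  ext d
  rw [weyl_coeff_th, weyl_coeff_ch, weyl_coeff_ch, ← mul_assoc, weylP_mul_diag, smul_mul_assoc,
    map_smul, smul_eq_mul, Int.cast_natCast]

theorem weyl_X_mul_ch (i j : Fin n) (T : Module.End ℂ V) :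
    X j * M.weylCh (M.E i j * T) = X i * M.weylCh (T * M.E i j) := by
  ext d
  rw [X, X, weyl_coeff_monomial_mul, weyl_coeff_monomial_mul, ← mul_assoc, weylP_mul_E, mul_assoc,
    LinearMap.trace_mul_comm, mul_assoc]
  congr 4
  funext k
  simp only [Finsupp.single_apply, Pi.add_apply, Pi.sub_apply, Pi.single_apply, eq_comm (a := k)]
  push_cast
  ring

/-- a shifted Casimir operator -/
noncomputable def weylOm : Module.End ℂ V := ∑ i, M.E i i * M.E i i +
  ∑ a, ∑ b ∈ Finset.Ioi a, (M.E a b * M.E b a + M.E b a * M.E a b + (M.E a a + M.E b b))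

theorem weyl_lap_ch {T : Module.End ℂ V} (hT : ∀ i j, T * M.E i j = M.E i j * T) :
    ∑ i, weylTh i (weylTh i (vand n ℂ * M.weylCh T)) =
      C ((∑ i, (rho n i : ℤ) * rho n i : ℤ) : ℂ) * (vand n ℂ * M.weylCh T) +
        vand n ℂ * M.weylCh (M.weylOm * T) := by
  rw [weyl_lap_mul (M.weylCh T) (fun a b => M.weylCh
    ((M.E a b * M.E b a + M.E b a * M.E a b + (M.E a a + M.E b b)) * T)) fun a b => ?_]
  · simp only [weylOm, add_mul, Finset.sum_mul, map_add, map_sum, weyl_th_ch, mul_assoc]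
  · have h1 := M.weyl_X_mul_ch a b (M.E b a * T)
    rw [mul_assoc, hT] at h1
    have h2 := congrArg (fun S => M.weylCh (S * T)) (M.comm a b b a)
    simp only [if_true, sub_mul, map_sub, mul_assoc] at h2
    simp only [add_mul, map_add, weyl_th_ch, mul_assoc]
    linear_combination (X a + X b) * h2 - 2 * h1

theorem weyl_E_mul_Om (k l : Fin n) : M.E k l * M.weylOm = M.weylOm * M.E k l := by
  have h1 : M.weylOm = ∑ i, ∑ j, M.E j i * M.E i j + (n - 1) • ∑ i, M.E i i := by
    have h2 := Finset.sum_sum_Ioi_add_eq_sum_sum_off_diag fun j i : Fin n => M.E j i * M.E i j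
    have h3 := Finset.sum_sum_Ioi_add_eq_sum_sum_off_diag fun _ i : Fin n => M.E i i
    simp only [Finset.sum_const, Finset.card_compl, Fintype.card_fin, Finset.card_singleton,
      ← Finset.smul_sum] at h3
    simp only [Finset.sum_add_distrib, Finset.sum_const, Fin.card_Ioi] at h2 h3
    simp only [weylOm, Finset.sum_add_distrib, Finset.sum_const, Fin.card_Ioi, h3,
      fun i => Fintype.sum_eq_add_sum_compl i fun j => M.E j i * M.E i j, ← h2]
    abel
  have h2 : ∀ i j, M.E k l * (M.E j i * M.E i j) - M.E j i * M.E i j * M.E k l =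
      ((if l = j then M.E k i * M.E i j else 0) - if k = i then M.E j l * M.E i j else 0) +
      ((if l = i then M.E j i * M.E k j else 0) - if k = j then M.E j i * M.E i l else 0) := by
    intro i j
    have h3 : M.E k l * (M.E j i * M.E i j) - M.E j i * M.E i j * M.E k l =
        (M.E k l * M.E j i - M.E j i * M.E k l) * M.E i j +
          M.E j i * (M.E k l * M.E i j - M.E i j * M.E k l) := by noncomm_ring
    rw [h3, M.comm, M.comm]
    simp only [sub_mul, mul_sub, ite_mul, mul_ite, zero_mul, mul_zero, eq_comm (a := k)]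
  have h3 : M.E k l * (∑ i, ∑ j, M.E j i * M.E i j) = (∑ i, ∑ j, M.E j i * M.E i j) * M.E k l := by
    rw [← sub_eq_zero]
    simp only [Finset.mul_sum, Finset.sum_mul, ← Finset.sum_sub_distrib, h2]
    simp only [Finset.sum_add_distrib, Finset.sum_sub_distrib, Finset.sum_ite_eq, Finset.mem_univ,
      if_true, Finset.sum_ite_irrel, Finset.sum_const_zero]
    abel
  have h4 : M.E k l * (∑ i, M.E i i) = (∑ i, M.E i i) * M.E k l := by
    rw [← sub_eq_zero]
    simp only [Finset.mul_sum, Finset.sum_mul, ← Finset.sum_sub_distrib, M.comm]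
    simp only [Finset.sum_sub_distrib, Finset.sum_ite_eq, Finset.sum_ite_eq', Finset.mem_univ,
      if_true, sub_self]
  rw [h1, mul_add, add_mul, h3, mul_smul_comm, smul_mul_assoc, h4]

theorem weyl_word_cons (p : Fin n × Fin n) (w : List (Fin n × Fin n)) (v : V) :
    M.word (p :: w) v = M.E p.1 p.2 (M.word w v) := by
  simp [word]

theorem weylOm_hw {l : Fin n → ℤ} {v : V} (hv : v ∈ hwSp M.E l) :
    M.weylOm v = ((∑ i, l i * l i + 2 * ∑ i, l i * rho n i : ℤ) : ℂ) • v := by
  have h1 : ∀ a, ∀ b ∈ Finset.Ioi a, (M.E a b * M.E b a + M.E b a * M.E a b +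
      (M.E a a + M.E b b)) v = (2 * l a : ℂ) • v := by
    intro a b hab
    have h2 := LinearMap.congr_fun (M.comm a b b a) v
    simp only [if_true, LinearMap.sub_apply, Module.End.mul_apply, hv.1,
      hv.2 a b (Finset.mem_Ioi.1 hab), map_zero, sub_zero] at h2
    simp only [LinearMap.add_apply, Module.End.mul_apply, h2, hv.1,
      hv.2 a b (Finset.mem_Ioi.1 hab), map_zero]
    module
  rw [weylOm, LinearMap.add_apply, LinearMap.sum_apply, LinearMap.sum_apply]
  simp only [LinearMap.sum_apply]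
  rw [Finset.sum_congr rfl fun a _ => Finset.sum_congr rfl (h1 a)]
  simp only [Module.End.mul_apply, hv.1, map_smul, smul_smul, Finset.sum_const, Fin.card_Ioi,
    ← Nat.cast_smul_eq_nsmul ℂ, ← Finset.sum_smul, ← add_smul]
  congr 1
  push_cast
  rw [Finset.mul_sum]
  congr 1
  exact Finset.sum_congr rfl fun i _ => by rw [rho]; ring

theorem weylOm_mul_Q (l : Fin n → ℤ) : M.weylOm * M.weylQ l =
    ((∑ i, l i * l i + 2 * ∑ i, l i * rho n i : ℤ) : ℂ) • M.weylQ l := by
  ext v
  have h := M.weylQ_mem l v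
  rw [Module.End.mul_apply, LinearMap.smul_apply]
  generalize M.weylQ l v = x at h
  refine LinearMap.eqOn_span' (f := M.weylOm) (g := (_ : ℂ) • LinearMap.id) ?_ h
  rintro _ ⟨w, -, v, hv, rfl⟩
  induction w with
  | nil => exact M.weylOm_hw hv
  | cons p w ih =>
    rw [weyl_word_cons, ← Module.End.mul_apply, ← weyl_E_mul_Om, Module.End.mul_apply, ih]
    simp

theorem weyl_word_wt {l : Fin n → ℤ} {v : V} (hv : v ∈ wtSp M.E l) (w : List (Fin n × Fin n))
    (hw : ∀ p ∈ w, p.2 < p.1) : ∃ μ, M.word w v ∈ wtSp M.E μ ∧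
      (∀ t : Fin n → ℤ, Antitone t → ∑ i, t i * μ i ≤ ∑ i, t i * l i) ∧
      (w ≠ [] → ∑ i : Fin n, -(i : ℤ) * μ i < ∑ i : Fin n, -(i : ℤ) * l i) := by
  induction w with
  | nil => exact ⟨l, hv, fun _ _ => le_rfl, fun h => absurd rfl h⟩
  | cons p w ih =>
    obtain ⟨μ, h1, h2, -⟩ := ih fun q hq => hw q (List.mem_cons_of_mem _ hq)
    have h3 := hw p List.mem_cons_self
    have h4 : ∀ t : Fin n → ℤ, ∑ i, t i * (μ + Pi.single p.1 1 - Pi.single p.2 1 : Fin n → ℤ) i =
        ∑ i, t i * μ i + t p.1 - t p.2 := by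
      intro t
      simp [mul_add, mul_sub, Finset.sum_add_distrib, Finset.sum_sub_distrib, Pi.single_apply]
    refine ⟨_, by rw [weyl_word_cons]; exact M.E_mem_wtSp h1 _ _, fun t ht => ?_, fun _ => ?_⟩
    · rw [h4]
      linarith [h2 t ht, ht h3.le]
    · rw [h4]
      have h5 := h2 (fun i => -(i : ℤ)) fun a b hab => by
        have : (a : ℕ) ≤ b := hab
        beta_reduce
        omega
      have h6 : (p.2 : ℕ) < p.1 := h3
      omega

theorem weyl_le_of_PQ {μ l : Fin n → ℤ} (h : M.weylP μ * M.weylQ l ≠ 0) {t : Fin n → ℤ}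
    (ht : Antitone t) : ∑ i, t i * μ i ≤ ∑ i, t i * l i := by
  by_contra h1
  refine h (LinearMap.ext fun v => ?_)
  refine LinearMap.eqOn_span' (f := M.weylP μ) (g := 0) ?_ (M.weylQ_mem l v)
  rintro _ ⟨w, hw, v, hv, rfl⟩
  obtain ⟨ν, h2, h3, -⟩ := M.weyl_word_wt hv.1 w hw
  rw [M.weylP_apply μ h2, if_neg (fun h4 : μ = ν => h1 (h4 ▸ h3 t ht)), LinearMap.zero_apply]

theorem weyl_trace_PQ (l : Fin n → ℤ) :
    LinearMap.trace ℂ V (M.weylP l * M.weylQ l) = finrank ℂ (hwSp M.E l) := by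
  refine LinearMap.IsProj.trace ⟨fun v => ?_, fun v hv => ?_⟩
  · have h : M.iso l ≤ (hwSp M.E l).comap (M.weylP l) := by
      refine Submodule.span_le.2 ?_
      rintro _ ⟨w, hw, v, hv, rfl⟩
      obtain ⟨ν, h2, -, h3⟩ := M.weyl_word_wt hv.1 w hw
      change M.weylP l _ ∈ hwSp M.E l
      rw [M.weylP_apply l h2]
      split_ifs with h4
      · subst h4
        rw [not_not.1 fun h5 => lt_irrefl _ (h3 h5)]
        exact hv
      · exact zero_mem _
    exact h (M.weylQ_mem l v)
  · have h : v ∈ M.iso l := Submodule.subset_span ⟨[], by simp, v, hv, rfl⟩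
    rw [Module.End.mul_apply, M.weylQ_apply l h, if_pos rfl, M.weylP_apply l hv.1, if_pos rfl]

theorem weyl_coeff_vand_mul (d : Fin n →₀ ℕ) (T : Module.End ℂ V) :
    coeff d (vand n ℂ * M.weylCh T) = ∑ σ : Equiv.Perm (Fin n), ((Equiv.Perm.sign σ : ℤ) : ℂ) *
      LinearMap.trace ℂ V (M.weylP (fun i => d i - rho n (σ i)) * T) := by
  simp only [vand_eq_sum, Finset.sum_mul, coeff_sum, weyl_coeff_monomial_mul, ex_apply]

theorem weyl_norm_eq {l : Fin n → ℤ} {d : Fin n →₀ ℕ}
    (h : coeff d (vand n ℂ * M.weylCh (M.weylQ l)) ≠ 0) :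
    ∑ i, (d i : ℤ) * d i = ∑ i, (l i + rho n i) * (l i + rho n i) := by
  have h1 := congrArg (coeff d) (M.weyl_lap_ch (M.weylQ_mul_E l))
  rw [weyl_coeff_lap, weylOm_mul_Q, map_smul, mul_smul_comm, coeff_add, coeff_C_mul, coeff_smul,
    smul_eq_mul, ← add_mul, ← Int.cast_add] at h1
  rw [Int.cast_injective (mul_right_cancel₀ h h1), Finset.mul_sum, ← Finset.sum_add_distrib,
    ← Finset.sum_add_distrib]
  exact Finset.sum_congr rfl fun i _ => by ring

end GlMod

theorem weyl_eq_of_sq {n : ℕ} {a b : Fin n → ℤ} (h1 : ∑ i, a i * a i = ∑ i, b i * b i)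
    (h2 : ∑ i, a i * a i ≤ ∑ i, a i * b i) : a = b := by
  have h3 : ∑ i, (a i - b i) ^ 2 = ∑ i, a i * a i + ∑ i, b i * b i - 2 * ∑ i, a i * b i := by
    rw [Finset.mul_sum, ← Finset.sum_add_distrib, ← Finset.sum_sub_distrib]
    exact Finset.sum_congr rfl fun i _ => by ring
  have h4 := (Finset.sum_eq_zero_iff_of_nonneg fun i _ => sq_nonneg (a i - b i)).1
    (le_antisymm (by linarith) (Finset.sum_nonneg (s := Finset.univ) fun i _ => sq_nonneg _))
  exact funext fun i => sub_eq_zero.1 (pow_eq_zero_iff two_ne_zero |>.1 (h4 i (Finset.mem_univ i)))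

theorem weyl_rho_antitone (n : ℕ) : Antitone fun i => (rho n i : ℤ) := fun a b hab => by
  have : (a : ℕ) ≤ b := hab
  simp only [rho]
  omega

/-- **Weyl's multiplicity formula.**
Proof plan (work in `MvPolynomial (Fin n) ℂ`, `θ i = X i * pderiv i`, `D = vand n ℂ`).
`P μ`, `Q l` = orthogonal projections on `wtSp μ`, `M.iso l`; `Q l` commutes with all `E i j`
and with `P μ`; `∑ l ∈ S, Q l = 1` (`iSup_iso`, `iso_orthogonal`); `E i j P μ = P (μ+e_i-e_j) E i j`;
`E i i P μ = μ i • P μ`; `trace (P μ) = finrank (wtSp μ)`.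
Fix `l` with `hwSp l ≠ ⊥`.  `χ_l = ∑ μ ∈ S, trace (P μ Q l) x^μ`,
`A i j = ∑ μ ∈ S, trace (E i j E j i P μ Q l) x^μ`.  Cyclicity of the trace gives
`X i * A j i = X j * A i j`, `comm` gives `A i j - A j i = (θ i - θ j) χ_l`, hence
`(X i - X j) (A i j + A j i) = (X i + X j) (θ i - θ j) χ_l`.  The Casimir `C = ∑ i j, E i j E j i`
commutes with all `E`, acts on `hwSp l` hence on `iso l` by `c = ∑ l i ^ 2 + ∑_{i<j} (l i - l j)`,
and `∑ E i i` acts by `N = ∑ l i`.  With Leibniz (`θ i D = ∑_{j ≠ i} X i * D / (X i - X j)`, where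
`D / (X i - X j)` is the product over the other pairs) and `∑ θ i ^ 2 D = |ρ|² D`
(`vand_eq_sum`): `∑ θ i ^ 2 (D χ_l) = |l + ρ|² D χ_l`.  So every exponent `ν` in the support of
`D χ_l` has `|ν|² = |l+ρ|²`.  Every weight `μ` with `P μ Q l ≠ 0` has `⟨t, μ⟩ ≤ ⟨t, l⟩` for all
antitone `t` (induction on lowering words), and `⟨t, ρ ∘ σ⟩ ≤ ⟨t, ρ⟩` (rearrangement inequality,
`Monovary.sum_mul_comp_perm_le_sum_mul`), so an antitone `ν = μ + ρ ∘ σ` in the support has
`|ν - (l+ρ)|² ≤ 0`.  Finally the coefficient of `l + ρ` in `D χ_l` is `trace (P l Q l)`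
(for `σ ≠ 1` test with `t = ρ`), and `P l Q l` is the projection on `hwSp l`
(nonempty lowering words have a different weight). -/
theorem GlMod.weyl {n : ℕ} {V : Type*} [NormedAddCommGroup V] [InnerProductSpace ℂ V]
    [FiniteDimensional ℂ V] (M : GlMod n V) (χ : MvPolynomial (Fin n) ℤ)
    (hχ : ∀ μ : Fin n → ℕ, coeff (ex μ) χ = finrank ℂ (wtSp M.E fun i => (μ i : ℤ)))
    (l : Fin n → ℕ) (hl : Antitone l) :
    coeff (ex fun i => l i + rho n i) (vand n ℤ * χ) = finrank ℂ (hwSp M.E fun i => (l i : ℤ)) := by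
  have h1 : map (Int.castRingHom ℂ) χ = ∑ l ∈ M.S, M.weylCh (M.weylQ l) := by
    ext d
    rw [← map_sum, M.weyl_sum_Q, M.weyl_coeff_ch, mul_one, M.weyl_trace_P, coeff_map,
      show coeff d χ = coeff (ex d) χ from congrArg (coeff · χ) (Finsupp.ext fun _ => rfl), hχ]
    simp
  have h2 : map (Int.castRingHom ℂ) (vand n ℤ) = vand n ℂ := by simp [vand]
  have hν : Antitone fun i => (l i : ℤ) + rho n i := fun a b hab =>
    add_le_add (Int.ofNat_le.2 (hl hab)) (weyl_rho_antitone n hab)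
  refine Int.cast_injective (α := ℂ) ?_
  rw [← eq_intCast (Int.castRingHom ℂ), ← coeff_map, map_mul, h1, h2, Finset.mul_sum, coeff_sum,
    Finset.sum_eq_single (fun i => (l i : ℤ)) (fun l' _ hne => ?_) (fun h => ?_),
    M.weyl_coeff_vand_mul, Finset.sum_eq_single 1 (fun σ _ hσ => ?_) (by simp), Int.cast_natCast,
    ← M.weyl_trace_PQ]
  · simp
  · by_contra h3
    have h4 := M.weyl_le_of_PQ (fun h => h3 (by rw [h, map_zero, mul_zero])) (weyl_rho_antitone n)
    have h5 := weyl_eq_of_sq (a := fun i => (rho n i : ℤ)) (b := fun i => rho n (σ i))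
      (Equiv.sum_comp σ fun i => (rho n i : ℤ) * rho n i).symm (by
        simp only [ex_apply, Nat.cast_add, mul_add, mul_sub, Finset.sum_add_distrib,
          Finset.sum_sub_distrib] at h4
        linarith)
    refine hσ (Equiv.ext fun i => Fin.ext ?_)
    have h6 := congrFun h5 i
    have h7 := i.2
    have h8 := (σ i).2
    simp only [rho] at h6
    rw [Equiv.Perm.one_apply]
    omega
  · by_contra h3
    have h4 := M.weyl_norm_eq h3
    rw [M.weyl_coeff_vand_mul] at h3
    obtain ⟨σ, -, h5⟩ := Finset.exists_ne_zero_of_sum_ne_zero h3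
    have h6 := M.weyl_le_of_PQ (fun h => h5 (by rw [h, map_zero, mul_zero])) hν
    have h7 := (hν.monovary (weyl_rho_antitone n)).sum_mul_comp_perm_le_sum_mul (σ := σ)
    simp only [ex_apply, Nat.cast_add] at h4 h6
    have h8 := weyl_eq_of_sq h4 (by
      simp only [mul_add, mul_sub, Finset.sum_add_distrib, Finset.sum_sub_distrib] at h6 ⊢
      linarith)
    exact hne (funext fun i => (add_right_cancel (congrFun h8 i)).symm)
  · have h3 : M.weylQ (fun i => (l i : ℤ)) = 0 := M.weyl_ext_iso fun l' hl' v hv => by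
      rw [M.weylQ_apply _ hv, if_neg (ne_of_mem_of_not_mem hl' h).symm, LinearMap.zero_apply]
    rw [h3, map_zero, mul_zero, coeff_zero]

end Crest.Agent.R187
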